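import Vale.Agent.P057KR.Kmg
import Vale.Agent.P057G.Fib

/-! Relative Kelley-Meka step: the signed excess against a kernel. -/

set_option linter.all false

open Finset Filter Topology Matrix
open scoped BigOperators Real

namespace Vale.Agent.P057KR

open Vale.Agent.P057FT Vale.Agent.P057HU Vale.Agent.P057G Vale.Agent.P267.H775

noncomputable section

variable {ι κ : Type} [Fintype ι] [DecidableEq ι] [Fintype κ] [DecidableEq κ]

theorem tsum_swap {α β : Type} {p : α → ℝ} {q : β → ℝ} (hp : Summable p) (hq : Summable q)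
    (p0 : ∀ x, 0 ≤ p x) (q0 : ∀ y, 0 ≤ q y) {f : α → β → ℝ} {M : ℝ} (hf : ∀ x y, |f x y| ≤ M) :
    ∑' x, p x * ∑' y, q y * f x y = ∑' y, q y * ∑' x, p x * f x y := by
  have h := summable_mul_real (hp.mul_of_nonneg hq p0 q0) (fun z => mul_nonneg (p0 _) (q0 _))
    (f := fun z : α × β => f z.1 z.2) fun z => hf _ _
  have h1 := Summable.tsum_comm (f := fun x y => p x * q y * f x y) h
  simp only [← tsum_mul_left]
  simp only [← mul_assoc, mul_comm (q _) (p _)]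
  exact h1.symm

theorem Out.avg {N : (ι → ℤ) → ℝ} {ρ X ε θ0 W M Z η : ℝ} {b0 b1 b2 v F χ μ μ' : (ι → ℤ) → ℝ}
    {A1 A2 : Finset (ι → ℤ)} {r : ℕ} {θ : Fin r → ι → ℝ}
    (h : Out N ρ X ε (θ0 * W) W b0 b1 b2 v F χ A1 A2 θ) (hε : 0 < ε) (hε1 : 4 * ε ≤ 1)
    (hθ : 0 ≤ θ0) (hρ : 0 ≤ ρ) (hX : 0 ≤ X) (hW : Real.exp (-X ^ 10) ≤ ε * W)
    (b0n : ∀ t, 0 ≤ b0 t) (vn : ∀ t, 0 ≤ v t) (sW : HasSum (fun t => b0 t * v t) W)
    (hF : ∀ x, 0 ≤ F x ∧ F x ≤ M) (hχ : ∀ x, 0 ≤ χ x ∧ χ x ≤ M) (μ0 : ∀ x, 0 ≤ μ x)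
    (μ1 : ∀ x, 0 ≤ μ' x) (sμ : HasSum μ Z) (sμ' : Summable μ') (hη : ∑' x, μ' x ≤ η * Z)
    (hηε : η * (1 + M) ≤ ε) (bad : ∀ x, ¬ (N x ≤ ρ * Real.exp (-X ^ 7) ∧
      ∀ i, ∃ m : ℤ, |θ i ⬝ᵥ zc x - m| ≤ Real.exp (-X ^ 7)) → μ x ≤ μ' x) :
    ε * θ0 * W * Z * (#A1 * #A2) ≤ ∑ a ∈ A1, ∑ a' ∈ A2, ∑' t, b0 t * v t *
      ∑' x, μ x * (F (a + a' + t + x) - (1 - 4 * ε) * θ0 * χ (a + a' + t + x)) := by
  have hW0 : 0 ≤ W := sW.nonneg fun t => mul_nonneg (b0n t) (vn t)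
  have hM : 0 ≤ M := (hF 0).1.trans (hF 0).2
  have hZ : 0 ≤ Z := sμ.nonneg μ0
  have c0 : 0 ≤ (1 - 4 * ε) * θ0 := mul_nonneg (by linarith) hθ
  have n0 : (0 : ℝ) ≤ #A1 * #A2 := by positivity
  have sm : ∀ f : (ι → ℤ) → ℝ, (∀ x, 0 ≤ f x ∧ f x ≤ M) → ∀ z,
      HasSum (fun t => b0 t * v t * f (z + t)) (crt b0 v f z) ∧ 0 ≤ crt b0 v f z ∧
        crt b0 v f z ≤ M * W := fun f hf z => by
    have h1 := (summable_mul_real sW.summable (fun t => mul_nonneg (b0n t) (vn t))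
      (f := fun t => f (z + t)) fun t => (abs_of_nonneg (hf _).1).trans_le (hf _).2).hasSum
    rw [show ∑' t, b0 t * v t * f (z + t) = crt b0 v f z by simp only [crt, mul_assoc]] at h1
    exact ⟨h1, h1.nonneg fun t => mul_nonneg (mul_nonneg (b0n t) (vn t)) (hf _).1,
      hasSum_le (fun t => (mul_le_mul_of_nonneg_left (hf _).2
        (mul_nonneg (b0n t) (vn t))).trans_eq (mul_comm _ _)) h1 (sW.mul_left M)⟩
  have e1 : ∀ z, HasSum (fun x => μ x * (crt b0 v F (z + x) -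
      (1 - 4 * ε) * θ0 * crt b0 v χ (z + x))) (∑' t, b0 t * v t *
      ∑' x, μ x * (F (z + t + x) - (1 - 4 * ε) * θ0 * χ (z + t + x))) := fun z => by
    rw [tsum_swap sW.summable sμ.summable (fun t => mul_nonneg (b0n t) (vn t)) μ0
      (M := M + (1 - 4 * ε) * θ0 * M) fun t x => (abs_sub _ _).trans (add_le_add
        ((abs_of_nonneg (hF _).1).trans_le (hF _).2)
        ((abs_of_nonneg (mul_nonneg c0 (hχ _).1)).trans_le
          (mul_le_mul_of_nonneg_left (hχ _).2 c0)))]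
    have e2 : ∀ x, ∑' t, b0 t * v t * (F (z + t + x) - (1 - 4 * ε) * θ0 * χ (z + t + x)) =
        crt b0 v F (z + x) - (1 - 4 * ε) * θ0 * crt b0 v χ (z + x) := fun x =>
      (HasSum.congr_fun ((sm F hF (z + x)).1.sub (((sm χ hχ (z + x)).1).mul_left _)) fun t => by
        rw [add_right_comm z t x]; ring).tsum_eq
    simp only [e2]
    exact (summable_mul_real sμ.summable μ0 (C := M * W + (1 - 4 * ε) * θ0 * (M * W)) fun x =>
      (abs_sub _ _).trans (add_le_add ((abs_of_nonneg (sm F hF _).2.1).trans_le (sm F hF _).2.2)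
        ((abs_of_nonneg (mul_nonneg c0 (sm χ hχ _).2.1)).trans_le
          (mul_le_mul_of_nonneg_left (sm χ hχ _).2.2 c0)))).hasSum
  have e3 := hasSum_sum fun a (_ : a ∈ A1) => hasSum_sum fun a' (_ : a' ∈ A2) => e1 (a + a')
  have e4 := hasSum_le (fun x => ?_) ((sμ.mul_left (2 * ε * θ0 * W * (#A1 * #A2))).sub
    (sμ'.hasSum.mul_left (θ0 * W * (1 + M) * (#A1 * #A2)))) e3
  · refine le_trans ?_ e4
    have k1 := mul_le_mul_of_nonneg_left hη (show 0 ≤ θ0 * W * (1 + M) * (#A1 * #A2) by positivity)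
    have k2 := mul_le_mul_of_nonneg_left hηε (show 0 ≤ θ0 * W * Z * (#A1 * #A2) by positivity)
    linarith
  simp only [← mul_sum, sum_sub_distrib]
  generalize hS1 : ∑ a ∈ A1, ∑ a' ∈ A2, crt b0 v F (a + a' + x) = S1
  generalize hS2 : ∑ a ∈ A1, ∑ a' ∈ A2, crt b0 v χ (a + a' + x) = S2
  have k0 : 0 ≤ θ0 * W * (#A1 * #A2) := by positivity
  by_cases g : N x ≤ ρ * Real.exp (-X ^ 7) ∧ ∀ i, ∃ m : ℤ, |θ i ⬝ᵥ zc x - m| ≤ Real.exp (-X ^ 7)
  · have k1 := h.big x g.1 g.2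
    have k2 := (abs_le.1 (h.mix x (g.1.trans (mul_le_of_le_one_right hρ
      (Real.exp_le_one_iff.2 (neg_nonpos.2 (pow_nonneg hX _))))))).2
    simp only [sum_sub_distrib, sum_const, nsmul_eq_mul, hS2] at k2
    rw [hS1] at k1
    have k3 := mul_le_mul_of_nonneg_left
      (k2.trans (mul_le_mul_of_nonneg_right hW n0)) c0
    have k4 : 2 * ε * θ0 * W * (#A1 * #A2) ≤ S1 - (1 - 4 * ε) * θ0 * S2 := by
      linarith [mul_nonneg (sq_nonneg ε) k0]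
    have k5 := mul_le_mul_of_nonneg_left k4 (μ0 x)
    linarith [mul_nonneg (mul_nonneg k0 (by linarith : 0 ≤ 1 + M)) (μ1 x)]
  · have k1 : 0 ≤ S1 := hS1 ▸ sum_nonneg fun a _ => sum_nonneg fun a' _ => (sm F hF _).2.1
    have k2 : S2 ≤ M * W * (#A1 * #A2) := by
      rw [← hS2]
      refine (sum_le_sum fun a _ => sum_le_sum fun a' _ => (sm χ hχ _).2.2).trans_eq ?_
      simp only [sum_const, nsmul_eq_mul]
      ring
    have k3 := mul_le_mul_of_nonneg_left k2 c0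
    have k4 : 2 * ε * θ0 * W * (#A1 * #A2) - θ0 * W * (1 + M) * (#A1 * #A2) ≤
        S1 - (1 - 4 * ε) * θ0 * S2 := by
      linarith [mul_nonneg (mul_nonneg hε.le hM) k0, mul_nonneg (by linarith : 0 ≤ 1 - 2 * ε) k0]
    have k5 := mul_le_mul_of_nonneg_left k4 (μ0 x)
    linarith [mul_le_mul_of_nonneg_left (bad x g) (mul_nonneg k0 (by linarith : 0 ≤ 1 + M))]

/-- the Gaussian kernel of a Bohr set -/
def ker (A : Matrix ι ι ℝ) (B : Matrix κ κ ℝ) (L : Matrix κ ι ℝ) (x : ι → ℤ) : ℝ :=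
  gs A (toR x) * th B (L *ᵥ toR x)

variable {A : Matrix ι ι ℝ} {B : Matrix κ κ ℝ}

theorem ker_nonneg (L : Matrix κ ι ℝ) (x : ι → ℤ) : 0 ≤ ker A B L x :=
  mul_nonneg (gs_pos _ _).le (th_nonneg _ _)

theorem summable_ker (hA : A.PosDef) (hB : B.PosDef) (L : Matrix κ ι ℝ) : Summable (ker A B L) :=
  summable_th_mul (by simpa using summable_gs hA 0) (fun _ => (gs_pos _ _).le) hB _

theorem vol_half (hA : A.PosDef) : vol ((1 / 2 : ℝ) • A) ≤ Real.exp (Fintype.card ι) * vol A := by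
  rw [vol_smul (by norm_num)]
  refine mul_le_mul_of_nonneg_right ?_ (vol_pos hA).le
  rw [← mul_one (Fintype.card ι : ℝ), Real.exp_nat_mul, one_div, Real.sqrt_inv, inv_inv]
  refine pow_le_pow_left₀ (Real.sqrt_nonneg _) ?_ _
  rw [Real.sqrt_le_left (Real.exp_pos _).le]
  nlinarith [Real.add_one_le_exp 1]

theorem ker_half (hA : A.PosDef) (hB : B.PosDef) (L : Matrix κ ι ℝ) :
    ∑' x, ker ((1 / 2 : ℝ) • A) ((1 / 2 : ℝ) • B) L x ≤
      Real.exp (Fintype.card ι + Fintype.card κ) * ∑' x, ker A B L x := by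
  have hA' : ((1 / 2 : ℝ) • A).PosDef := hA.smul (by norm_num)
  have hB' : ((1 / 2 : ℝ) • B).PosDef := hB.smul (by norm_num)
  have half : ∀ {n : Type} [Fintype n] {G : Matrix n n ℝ}, G.PosDef → ∀ x,
      qq ((1 / 2 : ℝ) • G) x ≤ qq G x := fun hG x => by
    rw [qq_smul_mat]
    linarith [qq_nonneg hG.posSemidef x]
  refine hasSum_le (fun k => ?_) (hasSum_fib_lin hA' hB' L) ((hasSum_fib_lin hA hB L).mul_left _)
  calc _ ≤ Real.exp (Fintype.card κ) * vol B * gs B⁻¹ (toR k) *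
        (Real.exp (Fintype.card ι) * vol A * th A⁻¹ (Lᵀ *ᵥ toR k)) :=
        mul_le_mul (mul_le_mul (vol_half hB) (gs_mono (qq_inv_anti hB' hB (half hB) _))
          (gs_pos _ _).le (mul_pos (Real.exp_pos _) (vol_pos hB)).le)
          (mul_le_mul (vol_half hA) (th_inv_mono hA' hA (half hA) _) (th_nonneg _ _)
            (mul_pos (Real.exp_pos _) (vol_pos hA)).le)
          (mul_nonneg (vol_pos hA').le (th_nonneg _ _))
          (mul_pos (mul_pos (Real.exp_pos _) (vol_pos hB)) (gs_pos _ _)).le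
    _ = _ := by rw [Real.exp_add]; ring

theorem gs_far {n : Type} [Fintype n] {G : Matrix n n ℝ} {u : n → ℝ} {R : ℝ} (h0 : 0 ≤ R)
    (h : R ≤ qq G u) : gs G u ≤ Real.exp (-R) * gs ((1 / 2 : ℝ) • G) u := by
  unfold gs
  rw [← Real.exp_add, qq_smul_mat]
  exact Real.exp_le_exp.2 (by nlinarith [Real.pi_gt_three])

theorem ker_far (hA : A.PosDef) (hB : B.PosDef) (L : Matrix κ ι ℝ) {R : ℝ} (h0 : 0 ≤ R) (x : ι → ℤ)
    (h : R ≤ qq A (toR x) ∨ ∀ m : κ → ℤ, R ≤ qq B (toR m - L *ᵥ toR x)) :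
    ker A B L x ≤ Real.exp (-R) * ker ((1 / 2 : ℝ) • A) ((1 / 2 : ℝ) • B) L x := by
  have hB' : ((1 / 2 : ℝ) • B).PosDef := hB.smul (by norm_num)
  unfold ker
  rcases h with h | h
  · rw [← mul_assoc]
    refine mul_le_mul (gs_far h0 h) (th_mono hB' hB (fun y => ?_) _) (th_nonneg _ _)
      (mul_pos (Real.exp_pos _) (gs_pos _ _)).le
    rw [qq_smul_mat]
    linarith [qq_nonneg hB.posSemidef y]
  · rw [mul_left_comm]
    refine mul_le_mul (gs_mono ?_) (hasSum_le (fun m => gs_far h0 (h m)) (hasSum_th hB _)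
      ((hasSum_th hB' _).mul_left _)) (th_nonneg _ _) (gs_pos _ _).le
    rw [qq_smul_mat]
    linarith [qq_nonneg hA.posSemidef (toR x)]

/-- the excess against the Gaussian kernel of the Bohr set -/
theorem Out.gauss {G2 G3 : Matrix ι ι ℝ} {ρ X ε θ0 W M R : ℝ} {b0 b1 b2 v F χ : (ι → ℤ) → ℝ}
    {A1 A2 : Finset (ι → ℤ)} {r : ℕ} {θ : Fin r → ι → ℝ} {B : Matrix (Fin r) (Fin r) ℝ}
    (h : Out (fun x => √(qq G2 (toR x))) ρ X ε (θ0 * W) W b0 b1 b2 v F χ A1 A2 θ) (hε : 0 < ε)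
    (hε1 : 4 * ε ≤ 1) (hθ : 0 ≤ θ0) (hρ : 0 ≤ ρ) (hX : 0 ≤ X) (hW : Real.exp (-X ^ 10) ≤ ε * W)
    (b0n : ∀ t, 0 ≤ b0 t) (vn : ∀ t, 0 ≤ v t) (sW : HasSum (fun t => b0 t * v t) W)
    (hF : ∀ x, 0 ≤ F x ∧ F x ≤ M) (hχ : ∀ x, 0 ≤ χ x ∧ χ x ≤ M) (h3 : G3.PosDef) (hB : B.PosDef)
    (hR : 0 ≤ R) (w3 : ∀ y, R * qq G2 y ≤ (ρ * Real.exp (-X ^ 7)) ^ 2 * qq G3 y)
    (wB : ∀ u i, R * u i ^ 2 ≤ Real.exp (-X ^ 7) ^ 2 * qq B u) (hρ' : 0 < ρ)
    (hη : Real.exp (Fintype.card ι + r - R) * (1 + M) ≤ ε) :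
    ε * θ0 * W * (∑' x, ker G3 B (Matrix.of θ) x) * (#A1 * #A2) ≤
      ∑ a ∈ A1, ∑ a' ∈ A2, ∑' t, b0 t * v t * ∑' x, ker G3 B (Matrix.of θ) x *
        (F (a + a' + t + x) - (1 - 4 * ε) * θ0 * χ (a + a' + t + x)) := by
  refine h.avg hε hε1 hθ hρ hX hW b0n vn sW hF hχ (ker_nonneg _)
    (μ' := fun x => Real.exp (-R) * ker ((1 / 2 : ℝ) • G3) ((1 / 2 : ℝ) • B) (Matrix.of θ) x)
    (fun x => mul_nonneg (Real.exp_pos _).le (ker_nonneg _ _)) (summable_ker h3 hB _).hasSum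
    ((summable_ker (h3.smul (by norm_num)) (hB.smul (by norm_num)) _).mul_left _) ?_ hη
    fun x hx => ker_far h3 hB _ hR x ?_
  · rw [tsum_mul_left, sub_eq_neg_add, Real.exp_add, mul_assoc]
    simpa only [Fintype.card_fin] using
      mul_le_mul_of_nonneg_left (ker_half h3 hB (Matrix.of θ)) (Real.exp_pos (-R)).le
  · refine (not_and_or.1 hx).imp (fun h1 => ?_) fun h1 m => ?_
    · have h2 : (ρ * Real.exp (-X ^ 7)) ^ 2 ≤ qq G2 (toR x) :=
        (Real.lt_sqrt (by positivity)).1 (not_le.1 h1) |>.le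
      exact le_of_mul_le_mul_left (((mul_comm _ _).trans_le
        (mul_le_mul_of_nonneg_left h2 hR)).trans (w3 _)) (by positivity)
    · obtain ⟨i, hi⟩ := not_forall.1 h1
      have h2 : Real.exp (-X ^ 7) ^ 2 ≤ (toR m - Matrix.of θ *ᵥ toR x) i ^ 2 := by
        refine sq_le_sq.2 ((abs_of_pos (Real.exp_pos _)).trans_le ?_)
        rw [Pi.sub_apply, abs_sub_comm]
        exact (not_le.1 fun h => hi ⟨m i, h⟩).le
      exact le_of_mul_le_mul_left (((mul_comm _ _).trans_le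
        (mul_le_mul_of_nonneg_left h2 hR)).trans (wB _ i)) (by positivity)

end

end Vale.Agent.P057KR
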