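import Vale.Agent.P057Z.Km.Den

/-! Relative Cauchy-Schwarz: cut estimates against majorised test functions. -/

set_option linter.all false

open Finset
open scoped BigOperators

namespace Vale.Agent.P057KR

open Vale.Agent.P057Z.Km

noncomputable section

variable {Θ Ω α β : Type} [Fintype Θ] [Fintype Ω] [Fintype α] [Fintype β]

theorem wcs {ι : Type} [Fintype ι] (μ u w F : ι → ℝ) (hμ : ∀ i, 0 ≤ μ i) (hu : ∀ i, |u i| ≤ w i) :
    (∑ i, μ i * (u i * F i)) ^ 2 ≤ (∑ i, μ i * w i) * ∑ i, μ i * (w i * F i ^ 2) := by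
  have hw : ∀ i, 0 ≤ w i := fun i => (abs_nonneg _).trans (hu i)
  refine sum_sq_le_sum_mul_sum_of_sq_le_mul _ (fun i _ => mul_nonneg (hμ i) (hw i))
    (fun i _ => mul_nonneg (hμ i) (mul_nonneg (hw i) (sq_nonneg _))) fun i _ => ?_
  have h1 : u i ^ 2 ≤ w i ^ 2 := sq_le_sq' (abs_le.1 (hu i)).1 (abs_le.1 (hu i)).2
  calc _ = (μ i * F i) ^ 2 * u i ^ 2 := by ring
    _ ≤ (μ i * F i) ^ 2 * w i ^ 2 := mul_le_mul_of_nonneg_left h1 (sq_nonneg _)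
    _ = _ := by ring

/-- the weighted box count -/
def box (p : Θ → ℝ) (π : Ω → ℝ) (b : α → ℝ) (w1 : Θ → Ω → ℝ) (w2 : Θ → α → ℝ)
    (D : Θ → Ω → α → ℝ) : ℝ :=
  ∑ θ, ∑ x : Fin 2 → α, p θ * (∏ i, b (x i)) *
    ((∏ i, w2 θ (x i)) * (∑ ω, π ω * (w1 θ ω * ∏ i, D θ ω (x i))) ^ 2)

theorem rbox {p : Θ → ℝ} {π : Ω → ℝ} {b : α → ℝ} {w1 u : Θ → Ω → ℝ} {w2 v : Θ → α → ℝ}
    (D : Θ → Ω → α → ℝ) (hp : ∀ θ, 0 ≤ p θ) (hπ : ∀ ω, 0 ≤ π ω) (hb : ∀ x, 0 ≤ b x)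
    (hu : ∀ θ ω, |u θ ω| ≤ w1 θ ω) (hv : ∀ θ x, |v θ x| ≤ w2 θ x) :
    (∑ θ, ∑ ω, p θ * π ω * (u θ ω * ∑ x, b x * (v θ x * D θ ω x))) ^ 4 ≤
      (∑ θ, ∑ ω, p θ * π ω * w1 θ ω) ^ 2 *
        ((∑ θ, p θ * (∑ x, b x * w2 θ x) ^ 2) * box p π b w1 w2 D) := by
  have h1 := wcs (fun q : Θ × Ω => p q.1 * π q.2) (fun q => u q.1 q.2) (fun q => w1 q.1 q.2)
    (fun q => ∑ x, b x * (v q.1 x * D q.1 q.2 x)) (fun q => mul_nonneg (hp _) (hπ _))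
    fun q => hu _ _
  have h2 := wcs (fun q : Θ × (Fin 2 → α) => p q.1 * ∏ i, b (q.2 i)) (fun q => ∏ i, v q.1 (q.2 i))
    (fun q => ∏ i, w2 q.1 (q.2 i)) (fun q => ∑ ω, π ω * (w1 q.1 ω * ∏ i, D q.1 ω (q.2 i)))
    (fun q => mul_nonneg (hp _) (prod_nonneg fun i _ => hb _)) fun q => by
      rw [abs_prod]
      exact prod_le_prod (fun i _ => abs_nonneg _) fun i _ => hv _ _
  simp only [Fintype.sum_prod_type] at h1 h2
  have e1 : ∑ θ, ∑ ω, p θ * π ω * (w1 θ ω * (∑ x, b x * (v θ x * D θ ω x)) ^ 2) =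
      ∑ θ, ∑ x : Fin 2 → α, p θ * (∏ i, b (x i)) * ((∏ i, v θ (x i)) *
        ∑ ω, π ω * (w1 θ ω * ∏ i, D θ ω (x i))) := by
    refine sum_congr rfl fun θ _ => ?_
    simp only [Fintype.sum_pow, mul_sum, prod_mul_distrib]
    rw [sum_comm]
    exact sum_congr rfl fun x _ => sum_congr rfl fun ω _ => by ring
  have e2 : ∑ θ, ∑ x : Fin 2 → α, p θ * (∏ i, b (x i)) * ∏ i, w2 θ (x i) =
      ∑ θ, p θ * (∑ x, b x * w2 θ x) ^ 2 := by
    refine sum_congr rfl fun θ _ => ?_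
    simp only [Fintype.sum_pow, mul_sum, prod_mul_distrib, mul_assoc]
  rw [e1] at h1
  rw [e2] at h2
  have h3 := pow_le_pow_left₀ (sq_nonneg _) h1 2
  rw [← pow_mul, mul_pow] at h3
  exact h3.trans (mul_le_mul_of_nonneg_left h2 (sq_nonneg _))

theorem le_of_four {S A B C δ : ℝ} (hδ : 0 ≤ δ) (hA0 : 0 ≤ A) (hA : A ≤ 2) (hB0 : 0 ≤ B)
    (hB : B ≤ 2) (hC : C ≤ δ ^ 4) (h : S ^ 4 ≤ A ^ 2 * (B * C)) : S ≤ 2 * δ := by
  refine le_of_pow_le_pow_left₀ (n := 4) (by norm_num) (by positivity)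
    (le_trans (h.trans ?_) (show 8 * δ ^ 4 ≤ (2 * δ) ^ 4 by
      rw [mul_pow]; exact mul_le_mul_of_nonneg_right (by norm_num) (by positivity)))
  have h1 : A ^ 2 ≤ 4 := by nlinarith
  have h2 : B * C ≤ 2 * δ ^ 4 := (mul_le_mul_of_nonneg_left hC hB0).trans
    (mul_le_mul_of_nonneg_right hB (by positivity))
  calc A ^ 2 * (B * C) ≤ A ^ 2 * (2 * δ ^ 4) := mul_le_mul_of_nonneg_left h2 (sq_nonneg _)
    _ ≤ 4 * (2 * δ ^ 4) := mul_le_mul_of_nonneg_right h1 (by positivity)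
    _ = _ := by ring

/-- densification error, relative form -/
theorem den0r {π : Ω → ℝ} {b : α → ℝ} {b' : β → ℝ} (ν : Ω → α → ℝ) {h w : Ω → β → ℝ}
    {S : α → β → ℝ} {M γ δ : ℝ} (m : ℕ) (hπ : Pm π) (hb : Pm b) (hb' : Pm b') (hγ : 0 < γ)
    (hM : 0 < M) (hδ : 0 ≤ δ) (hh : ∀ τ y, 0 ≤ h τ y ∧ h τ y ≤ M * w τ y) (hS : ∀ x, Bd (S x) 1)
    (hA : ∑ τ, π τ * (∑ y, b' y * w τ y) ^ m ≤ 2)
    (hB : box (fun y : Fin m → β => ∏ k, b' (y k)) π b (fun y τ => ∏ k, w τ (y k))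
      (fun _ _ => 1) (fun _ τ x => ν τ x - 1) ≤ δ ^ 4) :
    ∑ τ, π τ * (if γ ≤ ∑ y, b' y * h τ y then
      |∑ x, b x * ((ν τ x - 1) * rat b' (h τ) (S x) ^ m)| else 0) ≤ (M / γ) ^ m * (2 * δ) := by
  have hc0 : 0 < (M / γ) ^ m := by positivity
  have hw : ∀ τ y, 0 ≤ w τ y := fun τ y =>
    nonneg_of_mul_nonneg_right ((hh τ y).1.trans (hh τ y).2) hM |> fun h => by
      exact le_of_mul_le_mul_left (by simpa using (hh τ y).1.trans (hh τ y).2) hM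
  obtain ⟨σ, hσ1, hσ2, hσ3⟩ : ∃ σ : Ω → ℝ, (∀ τ, |σ τ| ≤ 1) ∧
      (∀ τ, ¬γ ≤ ∑ y, b' y * h τ y → σ τ = 0) ∧ ∀ τ, (if γ ≤ ∑ y, b' y * h τ y then
        |∑ x, b x * ((ν τ x - 1) * rat b' (h τ) (S x) ^ m)| else 0) =
        σ τ * ∑ x, b x * ((ν τ x - 1) * rat b' (h τ) (S x) ^ m) := by
    refine ⟨fun τ => if γ ≤ ∑ y, b' y * h τ y then
      (if 0 ≤ ∑ x, b x * ((ν τ x - 1) * rat b' (h τ) (S x) ^ m) then 1 else -1) else 0,
      fun τ => ?_, fun τ e => if_neg e, fun τ => ?_⟩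
    · beta_reduce
      split_ifs <;> simp
    · beta_reduce
      split_ifs with e e'
      · rw [abs_of_nonneg e', one_mul]
      · rw [abs_of_neg (not_le.1 e'), neg_one_mul]
      · rw [zero_mul]
  have key : ∀ τ, π τ * (σ τ * ∑ x, b x * ((ν τ x - 1) * rat b' (h τ) (S x) ^ m)) =
      (M / γ) ^ m * ∑ y : Fin m → β, (∏ k, b' (y k)) * π τ *
        (σ τ * ((∏ k, h τ (y k)) / (∑ y, b' y * h τ y) ^ m) / (M / γ) ^ m *
          ∑ x, b x * ((∏ k, S x (y k)) * (ν τ x - 1))) := fun τ => by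
    simp only [mul_sum]
    rw [sum_comm]
    refine sum_congr rfl fun x _ => ?_
    rw [rat, div_pow, Fintype.sum_pow, sum_div, mul_sum, mul_sum, mul_sum, mul_sum]
    refine sum_congr rfl fun y _ => ?_
    rw [prod_mul_distrib, prod_mul_distrib]
    generalize (M / γ) ^ m = c at hc0
    simp only [div_eq_mul_inv]
    generalize ((∑ y, b' y * h τ y) ^ m)⁻¹ = d
    field_simp
  simp only [hσ3, key]
  rw [← mul_sum, sum_comm]
  refine mul_le_mul_of_nonneg_left ?_ hc0.le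
  have hp := Den.pm_pow hb' m
  have r := rbox (p := fun y : Fin m → β => ∏ k, b' (y k)) (π := π) (b := b)
    (w1 := fun y τ => ∏ k, w τ (y k)) (w2 := fun _ _ => 1)
    (u := fun y τ => σ τ * ((∏ k, h τ (y k)) / (∑ y, b' y * h τ y) ^ m) / (M / γ) ^ m)
    (v := fun y x => ∏ k, S x (y k)) (fun _ τ x => ν τ x - 1) hp.1 hπ.1 hb.1 (fun y τ => by
      have h5 : 0 ≤ ∏ k, w τ (y k) := prod_nonneg fun k _ => hw _ _
      by_cases e : γ ≤ ∑ y, b' y * h τ y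
      · have h0 : 0 ≤ ∏ k, h τ (y k) := prod_nonneg fun k _ => (hh τ _).1
        have h1 : ∏ k, h τ (y k) ≤ M ^ m * ∏ k, w τ (y k) := by
          simpa [prod_mul_distrib] using
            prod_le_prod (s := univ) (fun k _ => (hh τ (y k)).1) fun k _ => (hh τ (y k)).2
        have h2 : 0 < ∑ y, b' y * h τ y := hγ.trans_le e
        have h3 : 0 ≤ (∏ k, h τ (y k)) / (∑ y, b' y * h τ y) ^ m := by positivity
        rw [abs_div, abs_of_pos hc0, div_le_iff₀ hc0, abs_mul, abs_of_nonneg h3, div_pow]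
        refine (mul_le_of_le_one_left h3 (hσ1 τ)).trans ?_
        rw [← mul_div_assoc, mul_comm]
        gcongr
      · simpa [hσ2 τ e] using h5)
    fun y x => by
      rw [abs_of_nonneg (prod_nonneg fun k _ => (hS x _).1)]
      exact prod_le_one (fun k _ => (hS x _).1) fun k _ => (hS x _).2
  refine le_of_four hδ (sum_nonneg fun y _ => sum_nonneg fun τ _ => mul_nonneg
    (mul_nonneg (hp.1 y) (hπ.1 τ)) (prod_nonneg fun k _ => hw _ _)) (le_trans (le_of_eq ?_) hA)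
    (sum_nonneg fun y _ => mul_nonneg (hp.1 y) (sq_nonneg _)) ?_ hB r
  · rw [sum_comm]
    refine sum_congr rfl fun τ _ => ?_
    rw [Fintype.sum_pow, mul_sum]
    exact sum_congr rfl fun y _ => by rw [prod_mul_distrib]; ring
  · simp only [mul_one, hb.2, one_pow, hp.2]
    norm_num

/-- removing a pseudorandom edge weight, relative form -/
theorem cutr {π : Ω → ℝ} {b1 : α → ℝ} {b2 : β → ℝ} {f1 ν1 : Ω → α → ℝ} {f2 ν2 : Ω → β → ℝ}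
    (n : α → β → ℝ) {M δ : ℝ} (hπ : ∀ τ, 0 ≤ π τ) (hb1 : ∀ x, 0 ≤ b1 x) (hb2 : ∀ y, 0 ≤ b2 y)
    (hM : 0 < M) (hδ : 0 ≤ δ) (hf1 : ∀ τ x, 0 ≤ f1 τ x ∧ f1 τ x ≤ M * ν1 τ x)
    (hf2 : ∀ τ x, 0 ≤ f2 τ x ∧ f2 τ x ≤ M * ν2 τ x)
    (hA : ∑ τ, π τ * ∑ x, b1 x * ν1 τ x ≤ 2) (hA' : ∑ τ, π τ * (∑ y, b2 y * ν2 τ y) ^ 2 ≤ 2)
    (hB : box π b1 b2 ν1 ν2 (fun _ x y => n x y - 1) ≤ δ ^ 4) :
    ∑ τ, π τ * ∑ x, ∑ y, b1 x * b2 y * (f1 τ x * f2 τ y * n x y) ≤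
      ∑ τ, π τ * ((∑ x, b1 x * f1 τ x) * ∑ y, b2 y * f2 τ y) + M ^ 2 * (2 * δ) := by
  have key : ∀ a c : ℝ, 0 ≤ a ∧ a ≤ M * c → |a / M| ≤ c := fun a c h => by
    rw [abs_of_nonneg (div_nonneg h.1 hM.le), div_le_iff₀' hM]
    exact h.2
  have r := rbox (p := π) (π := b1) (b := b2) (w1 := ν1) (w2 := ν2) (u := fun τ x => f1 τ x / M)
    (v := fun τ y => f2 τ y / M) (fun _ x y => n x y - 1) hπ hb1 hb2
    (fun τ x => key _ _ (hf1 τ x)) fun τ y => key _ _ (hf2 τ y)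
  have h1 := le_of_four hδ (sum_nonneg fun τ _ => sum_nonneg fun x _ => mul_nonneg
    (mul_nonneg (hπ τ) (hb1 x)) ((abs_nonneg _).trans (key _ _ (hf1 τ x))))
    (le_trans (le_of_eq (sum_congr rfl fun τ _ => by simp only [mul_sum, mul_assoc])) hA)
    (sum_nonneg fun τ _ => mul_nonneg (hπ τ) (sq_nonneg _)) hA' hB r
  rw [← sub_le_iff_le_add', ← sum_sub_distrib]
  refine le_trans (le_of_eq ?_) (mul_le_mul_of_nonneg_left h1 (sq_nonneg M))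
  rw [mul_sum]
  refine sum_congr rfl fun τ _ => ?_
  rw [← mul_sub, sum_mul_sum, ← sum_sub_distrib, mul_sum, mul_sum]
  refine sum_congr rfl fun x _ => ?_
  rw [← sum_sub_distrib]
  simp only [mul_sum]
  refine sum_congr rfl fun y _ => ?_
  field_simp

end

end Vale.Agent.P057KR
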