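import Vale.Agent.P057Z.Km.K12a
import Vale.Agent.P057KR.Box

/-! Relative sifting and densification: choice of a good parameter without sup bounds. -/

set_option linter.all false

open Finset
open scoped BigOperators

namespace Vale.Agent.P057KR

open Vale.Agent.P057Z.Km Vale.Agent.P057Z.Km.K12A

noncomputable section

variable {Ω α β : Type} [Fintype Ω] [Fintype α] [Fintype β]

/-- the counts used by the relative densification -/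
structure Cnt (π : Ω → ℝ) (b1 : α → ℝ) (b2 : β → ℝ) (ν1 : Ω → α → ℝ) (ν2 : Ω → β → ℝ) (m : ℕ)
    (δ : ℝ) : Prop where
  a2 : ∑ τ, π τ * (∑ y, b2 y * ν2 τ y) ^ m ≤ 2
  a12 : ∑ τ, π τ * ((∑ x, b1 x * ν1 τ x) * ∑ y, b2 y * ν2 τ y) ^ 2 ≤ 2
  b1 : ∀ k, k = 0 ∨ k = m → box (fun y : Fin k → β => ∏ l, b2 (y l)) π b1
    (fun y τ => ∏ l, ν2 τ (y l)) (fun _ _ => 1) (fun _ τ x => ν1 τ x - 1) ≤ δ ^ 4
  b2 : box (fun _ : Unit => (1 : ℝ)) π b2 (fun _ _ => 1) (fun _ _ => 1)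
    (fun _ τ y => ν2 τ y - 1) ≤ δ ^ 4

theorem box_const {Θ : Type} [Fintype Θ] {p : Θ → ℝ} (hp : ∑ θ, p θ = 1) (π : Ω → ℝ) (b : α → ℝ)
    (D : Ω → α → ℝ) : box p π b (fun _ _ => 1) (fun _ _ => 1) (fun _ => D) =
      box (fun _ : Unit => (1 : ℝ)) π b (fun _ _ => 1) (fun _ _ => 1) (fun _ => D) := by
  simp only [box, mul_assoc, ← mul_sum, ← sum_mul, hp, Fintype.sum_unique]

theorem corer {π : Ω → ℝ} {b1 : α → ℝ} {f1 ν1 : Ω → α → ℝ} {b2 : β → ℝ}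
    {f2 ν2 : Ω → β → ℝ} {S : α → β → ℝ} {Ka K L η s δ : ℝ} {m : ℕ} (hπ : Pm π) (hb1 : Pm b1)
    (hb2 : Pm b2) (hKa : 0 < Ka) (hK : Ka ≤ K) (hL : 8 * Ka ≤ K * L) (hν1 : ∀ τ x, 0 ≤ ν1 τ x)
    (hν2 : ∀ τ x, 0 ≤ ν2 τ x) (hf1 : ∀ τ x, 0 ≤ f1 τ x ∧ f1 τ x ≤ Ka * ν1 τ x)
    (hf2 : ∀ τ x, 0 ≤ f2 τ x ∧ f2 τ x ≤ Ka * ν2 τ x) (hδ0 : 0 ≤ δ) (c : Cnt π b1 b2 ν1 ν2 m δ)
    (hS : ∀ a, Bd (S a) 1) (hs : 0 < s) (hs' : 8 * s ≤ 1)
    (hm : (1 - 2 * s) ^ m * (2 * K ^ 2) ≤ 1) (hη : η = (2 ^ m * (4 * K ^ 2))⁻¹) (hη1 : η ≤ 1)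
    (hal : L ≤ ∑ τ, π τ * ((∑ x, b1 x * f1 τ x) * ∑ y, b2 y * f2 τ y))
    (hbe : ∑ τ, π τ * ∑ x, ∑ y, b1 x * b2 y * (f1 τ x * f2 τ y * (1 - S x y)) ≤ s * L)
    (hδ : 64 * Ka ^ 4 * ((2 + (Ka * K) ^ m + η⁻¹ ^ m) * δ) < η * L ^ 2) :
    ∃ (A1 : Finset α) (A2 : Finset β), η ≤ ∑ a ∈ A1, b1 a ∧ η ≤ ∑ a ∈ A2, b2 a ∧
      ∑ a ∈ A1, ∑ a' ∈ A2, b1 a * b2 a' * (1 - S a a') ≤
        8 * s * ((∑ a ∈ A1, b1 a) * ∑ a ∈ A2, b2 a) := by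
  classical
  have hK0 : 0 < K := hKa.trans_le hK
  have hη0 : 0 < η := by rw [hη]; positivity
  have hL0 : 0 < L := pos_of_mul_pos_left ((by linarith : 0 < K * L).trans_eq (mul_comm _ _)) hK0.le
  have one : ∀ k : ℕ, ∑ τ, π τ * (∑ x, b1 x * 1) ^ k ≤ 2 := fun k => by
    simp only [mul_one, hb1.2, one_pow, hπ.2]
    norm_num
  have bx : ∀ k : ℕ, box (fun y : Fin k → α => ∏ l, b1 (y l)) π b2 (fun y τ => ∏ l : Fin k, (1 : ℝ))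
      (fun _ _ => 1) (fun _ τ x => ν2 τ x - 1) ≤ δ ^ 4 := fun k => by
    simp only [prod_const_one]
    rw [box_const (Den.pm_pow hb1 k).2]
    exact c.b2
  have d1 := den0r ν1 (h := fun _ _ => 1) (w := fun _ _ => 1) (S := S) 0 hπ hb1 hb2 one_pos one_pos
    hδ0 (fun _ _ => by norm_num) hS (by simp only [pow_zero, mul_one, hπ.2]; norm_num)
    (by simpa using c.b1 0 (Or.inl rfl))
  have d2 := den0r ν2 (h := fun _ _ => 1) (w := fun _ _ => 1) (S := fun y x => S x y) 0 hπ hb2 hb1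
    one_pos one_pos hδ0 (fun _ _ => by norm_num) (fun y x => hS x y) (one 0) (bx 0)
  have d3 := den0r ν1 (S := S) m hπ hb1 hb2 (inv_pos.2 hK0) hKa hδ0 hf2 hS c.a2
    (c.b1 m (Or.inr rfl))
  have d4 := den0r ν2 (h := fun τ => ind b2 (f2 τ) S s) (w := fun _ _ => 1)
    (S := fun y x => S x y) m hπ hb2 hb1 hη0 one_pos hδ0
    (fun τ x => by rw [ind]; split_ifs <;> norm_num) (fun y x => hS x y) (one m) (bx m)
  simp only [mul_one, hb1.2, hb2.2, le_refl, if_true, pow_zero, one_mul] at d1 d2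
  rw [div_inv_eq_mul] at d3
  rw [one_div] at d4
  by_contra hn
  have pt : ∀ τ, η * ((∑ x, b1 x * f1 τ x) * ∑ y, b2 y * f2 τ y) ≤
      η * L / 16 * ((∑ x, b1 x * ν1 τ x) * ∑ y, b2 y * ν2 τ y) ^ 2 +
      4 * Ka ^ 4 / L * (|∑ x, b1 x * (ν1 τ x - 1)| + |∑ x, b2 x * (ν2 τ x - 1)| +
        (if K⁻¹ ≤ ∑ y, b2 y * f2 τ y then
          |∑ x, b1 x * ((ν1 τ x - 1) * rat b2 (f2 τ) (S x) ^ m)| else 0) +
        if η ≤ ∑ x, b1 x * ind b2 (f2 τ) S s x then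
          |∑ y, b2 y * ((ν2 τ y - 1) * rat b1 (ind b2 (f2 τ) S s) (fun x => S x y) ^ m)| else 0) +
      η * (L / 4) + η / (2 * s) * ∑ x, ∑ y, b1 x * b2 y * (f1 τ x * f2 τ y * (1 - S x y)) := by
    intro τ
    have m1 : ∑ x, b1 x * f1 τ x ≤ Ka * ∑ x, b1 x * ν1 τ x := by
      rw [mul_sum]
      exact sum_le_sum fun x _ => by
        rw [mul_left_comm]; exact mul_le_mul_of_nonneg_left (hf1 τ x).2 (hb1.1 x)
    have m2 : ∑ x, b2 x * f2 τ x ≤ Ka * ∑ x, b2 x * ν2 τ x := by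
      rw [mul_sum]
      exact sum_le_sum fun x _ => by
        rw [mul_left_comm]; exact mul_le_mul_of_nonneg_left (hf2 τ x).2 (hb2.1 x)
    have p1 : 0 ≤ ∑ x, b1 x * f1 τ x := sum_nonneg fun x _ => mul_nonneg (hb1.1 x) (hf1 τ x).1
    have p2 : 0 ≤ ∑ x, b2 x * f2 τ x := sum_nonneg fun x _ => mul_nonneg (hb2.1 x) (hf2 τ x).1
    have p3 : 0 ≤ ∑ x, ∑ y, b1 x * b2 y * (f1 τ x * f2 τ y * (1 - S x y)) :=
      sum_nonneg fun x _ => sum_nonneg fun y _ => mul_nonneg (mul_nonneg (hb1.1 x) (hb2.1 y))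
        (mul_nonneg (mul_nonneg (hf1 τ x).1 (hf2 τ y).1) (sub_nonneg.2 (hS x y).2))
    have m3 : (∑ x, b1 x * f1 τ x) * ∑ y, b2 y * f2 τ y ≤
        Ka ^ 2 * ((∑ x, b1 x * ν1 τ x) * ∑ y, b2 y * ν2 τ y) :=
      (mul_le_mul m1 m2 p2 (p1.trans m1)).trans_eq (by ring)
    generalize (∑ x, b1 x * ν1 τ x) * ∑ y, b2 y * ν2 τ y = N at m3 ⊢
    have m4 : Ka ^ 2 * N ≤ L / 16 * N ^ 2 + 4 * Ka ^ 4 / L := by
      have h1 : 0 ≤ (L * N - 8 * Ka ^ 2) ^ 2 / (16 * L) := by positivity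
      have h2 : (L * N - 8 * Ka ^ 2) ^ 2 / (16 * L) =
          L / 16 * N ^ 2 + 4 * Ka ^ 4 / L - Ka ^ 2 * N := by
        field_simp
        ring
      linarith
    have pt := @point α β _ _ den1 b1 (f1 τ) (ν1 τ) b2 (f2 τ) (ν2 τ) S Ka K L η s m hb1 hb2 hKa hK
      hL (hν1 τ) (hν2 τ) (hf1 τ) (hf2 τ) hS hs hs' hm hη hη1
    generalize hE3 : (if K⁻¹ ≤ ∑ y, b2 y * f2 τ y then
      |∑ x, b1 x * ((ν1 τ x - 1) * rat b2 (f2 τ) (S x) ^ m)| else 0) = E3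
    generalize hE4 : (if η ≤ ∑ x, b1 x * ind b2 (f2 τ) S s x then
      |∑ y, b2 y * ((ν2 τ y - 1) * rat b1 (ind b2 (f2 τ) S s) (fun x => S x y) ^ m)| else 0) = E4
    have p4 : 0 ≤ E3 := by rw [← hE3]; split_ifs <;> simp
    have p5 : 0 ≤ E4 := by rw [← hE4]; split_ifs <;> simp
    have p6 := abs_nonneg (∑ x, b1 x * (ν1 τ x - 1))
    have p7 := abs_nonneg (∑ x, b2 x * (ν2 τ x - 1))
    have p8 := mul_nonneg (div_pos hη0 (by linarith : 0 < 2 * s)).le p3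
    have p9 := mul_pos hη0 (by linarith : 0 < L / 4)
    have q0 : 0 ≤ 4 * Ka ^ 4 / L := by positivity
    have p10 := mul_nonneg q0 (by linarith : 0 ≤ |∑ x, b1 x * (ν1 τ x - 1)| +
      |∑ x, b2 x * (ν2 τ x - 1)| + E3 + E4)
    have p11 : 0 ≤ η * L / 16 * N ^ 2 := by positivity
    by_cases k1 : L / 4 ≤ (∑ x, b1 x * f1 τ x) * ∑ y, b2 y * f2 τ y
    swap
    · linarith [mul_le_mul_of_nonneg_left (not_le.1 k1).le hη0.le]
    by_cases k2 : ∑ x, ∑ y, b1 x * b2 y * (f1 τ x * f2 τ y * (1 - S x y)) ≤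
      2 * s * ((∑ x, b1 x * f1 τ x) * ∑ y, b2 y * f2 τ y)
    swap
    · have := mul_le_mul_of_nonneg_left (not_le.1 k2).le (div_pos hη0 (by linarith : 0 < 2 * s)).le
      rw [← mul_assoc, div_mul_cancel₀ _ (by linarith : 2 * s ≠ 0)] at this
      linarith
    have k3 : η ≤ |∑ x, b1 x * (ν1 τ x - 1)| + |∑ x, b2 x * (ν2 τ x - 1)| + E3 + E4 := by
      by_contra k3
      exact hn (pt k1 k2 (by linarith) (by linarith)
        (fun h => by rw [if_pos h] at hE3; linarith) fun h => by rw [if_pos h] at hE4; linarith)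
    linarith [mul_le_mul_of_nonneg_left (m3.trans m4) hη0.le, mul_le_mul_of_nonneg_left k3 q0]
  have h2 := sum_le_sum fun τ (_ : τ ∈ univ) => mul_le_mul_of_nonneg_left (pt τ) (hπ.1 τ)
  simp only [mul_add, sum_add_distrib, mul_left_comm (π _) η, mul_left_comm (π _) (4 * Ka ^ 4 / L),
    mul_left_comm (π _) (η / (2 * s)), mul_left_comm (π _) (η * L / 16), ← mul_sum, ← sum_mul,
    hπ.2] at h2
  have h3 := mul_le_mul_of_nonneg_left hbe (div_pos hη0 (by linarith : 0 < 2 * s)).le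
  rw [show η / (2 * s) * (s * L) = η * L / 2 by field_simp] at h3
  have q0 : 0 ≤ 4 * Ka ^ 4 / L := by positivity
  have h4 : 4 * Ka ^ 4 / L * ((2 + (Ka * K) ^ m + η⁻¹ ^ m) * (2 * δ)) < η * L / 8 := by
    rw [div_mul_eq_mul_div, div_lt_iff₀ hL0]
    linarith
  linarith [mul_le_mul_of_nonneg_left hal hη0.le, mul_le_mul_of_nonneg_left d1 q0,
    mul_le_mul_of_nonneg_left d2 q0, mul_le_mul_of_nonneg_left d3 q0,
    mul_le_mul_of_nonneg_left d4 q0,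
    mul_le_mul_of_nonneg_left c.a12 (show 0 ≤ η * L / 16 by positivity)]

end

end Vale.Agent.P057KR
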