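import Vale.Agent.P057KR.Kma
import Vale.Agent.P057HU.Gau

/-! Discrete Gaussian laws satisfy the geometric hypotheses of the relative step. -/

set_option linter.all false

open Finset Filter Topology Matrix
open scoped BigOperators Real

namespace Vale.Agent.P057KR

open Vale.Agent.P057FT Vale.Agent.P057HU Vale.Agent.P057G Vale.Agent.P267.H775

noncomputable section

variable {ι : Type} [Fintype ι] [DecidableEq ι] {G : Matrix ι ι ℝ}

/-- the discrete Gaussian law -/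
def gl (G : Matrix ι ι ℝ) (c : ι → ℝ) (z : ι → ℤ) : ℝ := gs G (toR z - c) / th G c

theorem gl_pos (hG : G.PosDef) (c : ι → ℝ) (z : ι → ℤ) : 0 < gl G c z :=
  div_pos (gs_pos _ _) (th_pos hG c)

theorem hasSum_gl (hG : G.PosDef) (c : ι → ℝ) : HasSum (gl G c) 1 := by
  have h := (hasSum_th hG c).div_const (th G c)
  rwa [div_self (th_pos hG c).ne'] at h

theorem toR_add' (x y : ι → ℤ) : toR (x + y) = toR x + toR y := by funext i; simp

theorem toR_sub' (x y : ι → ℤ) : toR (x - y) = toR x - toR y := by funext i; simp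

theorem exists_ell (hG : G.PosDef) (c : ι → ℝ) (r : ℝ) :
    ∃ R : Finset (ι → ℤ), ∀ z, z ∈ R ↔ qq G (toR z - c) ≤ r := by
  have h := (summable_gs hG c).tendsto_cofinite_zero.eventually
    (gt_mem_nhds (Real.exp_pos (-(π * r))))
  rw [eventually_cofinite] at h
  refine ⟨(h.subset (t := {z | qq G (toR z - c) ≤ r}) fun z hz => not_lt.2 ?_).toFinset,
    fun z => Set.Finite.mem_toFinset _⟩
  exact Real.exp_le_exp.2 (neg_le_neg (mul_le_mul_of_nonneg_left hz Real.pi_pos.le))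

theorem mass_ell (hG : G.PosDef) {c : ι → ℝ} (hc : th G 0 ≤ 2 * th G c) {r : ℝ}
    {R : Finset (ι → ℤ)} (hR : ∀ z, z ∈ R ↔ qq G (toR z - c) ≤ r) :
    1 - 2 * Real.exp (Fintype.card ι - r) ≤ ∑ z ∈ R, gl G c z := by
  have p := th_pos hG c
  rcases le_or_gt r 0 with hr | hr
  · have := Real.one_le_exp (show 0 ≤ (Fintype.card ι : ℝ) - r by linarith [Nat.cast_nonneg (α := ℝ) (Fintype.card ι)])
    linarith [sum_nonneg fun z (_ : z ∈ R) => (gl_pos hG c z).le]
  have h1 : HasSum (fun z => if z ∈ R then gl G c z else 0) (∑ z ∈ R, gl G c z) := by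
    have := hasSum_sum_of_ne_finset_zero (L := .unconditional _) (s := R)
      (f := fun z => if z ∈ R then gl G c z else 0) fun z hz => if_neg hz
    rwa [sum_congr rfl fun z hz => if_pos hz] at this
  have h2 := hasSum_le (fun z => ?_) (hasSum_gl hG c) (h1.add ((summable_ind (summable_gs hG c)
    fun z => r ≤ qq G (toR z - c)).hasSum.div_const (th G c)))
  · have h3 := tail_norm hG c r
    have h4 : √2 ^ Fintype.card ι ≤ Real.exp (Fintype.card ι * 1) := by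
      rw [Real.exp_nat_mul]
      refine pow_le_pow_left₀ (Real.sqrt_nonneg _) ?_ _
      rw [Real.sqrt_le_left (Real.exp_pos _).le]
      nlinarith [Real.add_one_le_exp 1]
    have h5 : Real.exp (-(π * r / 2)) ≤ Real.exp (-r) :=
      Real.exp_le_exp.2 (by nlinarith [Real.pi_gt_three])
    have h6 : Real.exp (-(π * r / 2)) * (√2 ^ Fintype.card ι * th G 0) ≤
        Real.exp (-r) * (Real.exp (Fintype.card ι * 1) * (2 * th G c)) := by
      have := th_nonneg G 0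
      gcongr
    have h7 := (div_le_iff₀ p).2 (h3.trans (h6.trans_eq
      (show _ = 2 * Real.exp (Fintype.card ι - r) * th G c by
        rw [mul_one, sub_eq_add_neg, Real.exp_add]; ring)))
    linarith
  · have q : 0 ≤ gs G (toR z - c) / th G c := (gl_pos hG c z).le
    by_cases hz : z ∈ R
    · rw [if_pos hz, le_add_iff_nonneg_right]
      split_ifs
      · exact q
      · simp
    · rw [if_neg hz, if_pos (not_le.1 (mt (hR z).2 hz)).le, zero_add, gl]

theorem slow (hG : G.PosDef) {u d : ι → ℝ} {A B : ℝ} (hA : 0 ≤ A) (hB : 0 ≤ B)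
    (hu : qq G u ≤ A ^ 2) (hd : qq G d ≤ B ^ 2) (h : 4 * (2 * A * B + B ^ 2) ≤ 1) :
    gs G u ≤ 4 * gs G (u + d) := by
  have h1 : bb G u d ≤ A * B := by
    refine (le_abs_self _).trans (abs_le_of_sq_le_sq' ?_ (mul_nonneg hA hB) |> abs_le.2)
    rw [mul_pow]
    exact (bb_sq_le hG.posSemidef u d).trans
      (mul_le_mul hu hd (qq_nonneg hG.posSemidef _) (sq_nonneg _))
  have h2 : π * qq G (u + d) ≤ π * qq G u + 1 := by
    rw [qq_add hG.1]
    have h3 : 0 ≤ 2 * A * B + B ^ 2 := by positivity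
    nlinarith [Real.pi_le_four, Real.pi_pos]
  have h4 : Real.exp 1 ≤ 4 := Real.exp_one_lt_d9.le.trans (by norm_num)
  calc gs G u ≤ Real.exp (1 + -(π * qq G (u + d))) := Real.exp_le_exp.2 (by linarith)
    _ ≤ _ := by rw [Real.exp_add]; exact mul_le_mul_of_nonneg_right h4 (Real.exp_pos _).le

theorem exp_half_le : Real.exp (1 / 2) ≤ 2 := by
  have h1 : Real.exp (1 / 2) * Real.exp (1 / 2) = Real.exp 1 := by rw [← Real.exp_add]; norm_num
  nlinarith [Real.exp_one_lt_d9, Real.exp_pos (1 / 2)]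

theorem th_wide (hG : G.PosDef) {c η : ℝ} (h0 : 0 ≤ 1 - c) (h1 : 1 - c ≤ 1 / 2)
    (hD : (1 - c) * Fintype.card ι ≤ η) (x : ι → ℝ) : th (c • G) x ≤ Real.exp η * th G 0 := by
  refine (th_smul_le (by linarith) (by linarith) hG x).trans
    (mul_le_mul_of_nonneg_right ?_ (th_nonneg _ _))
  refine le_trans ?_ (Real.exp_le_exp.2 ((mul_comm _ _).trans_le hD))
  rw [Real.exp_nat_mul]
  refine pow_le_pow_left₀ (by positivity) ?_ _
  rw [← inv_inv (Real.exp _)]
  refine inv_anti₀ (by positivity) (Real.le_sqrt_of_sq_le ?_)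
  rw [inv_pow, inv_le_iff_one_le_mul₀ (by positivity), sq, ← Real.exp_add]
  have h2 := mul_le_mul_of_nonneg_left (Real.add_one_le_exp (1 - c + (1 - c)))
    (show 0 ≤ c by linarith)
  nlinarith

theorem dom_gl (hG : G.PosDef) {c : ℝ} (h0 : 0 < 1 - c) (h1 : 1 - c ≤ 1 / 2)
    (hD : (1 - c) * Fintype.card ι ≤ 1 / 4) {c0 c2 : ι → ℝ} (hc : th G 0 ≤ 2 * th G c0)
    (t a : ι → ℤ) (ha : 16 * qq G (toR a - c2) ≤ 1 - c) :
    gl G c0 t ≤ 4 * gl (c • G) (c0 + c2) (t + a) := by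
  have hG' : (c • G).PosDef := hG.smul (by linarith)
  have h2 := th_wide hG h0.le h1 hD (c0 + c2)
  have e : toR (t + a) - (c0 + c2) = toR t - c0 + (toR a - c2) := by rw [toR_add']; abel
  have h3 : gs G (toR t - c0) ≤ Real.exp (1 / 4) * gs (c • G) (toR (t + a) - (c0 + c2)) := by
    rw [e]
    generalize toR t - c0 = u
    generalize toR a - c2 = d at ha
    have h4 := qq_nonneg hG.posSemidef ((1 - c) • u - c • d)
    have h5 : bb G ((1 - c) • u) (c • d) = (1 - c) * c * bb G u d := by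
      simp only [bb, mulVec_smul, dotProduct_smul, smul_dotProduct, smul_eq_mul]
      ring
    rw [qq_sub hG.1, qq_smul, qq_smul, h5] at h4
    have h6 := qq_nonneg hG.posSemidef d
    have h7 : c * qq G (u + d) ≤ qq G u + 1 / 16 := by
      rw [qq_add hG.1]
      refine le_of_mul_le_mul_left ?_ h0
      nlinarith [mul_nonneg h0.le h6]
    unfold gs
    rw [← Real.exp_add, qq_smul_mat]
    exact Real.exp_le_exp.2 (by nlinarith [Real.pi_le_four, Real.pi_pos])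
  have h4 : Real.exp (1 / 4) * Real.exp (1 / 4) ≤ 2 := by
    rw [← Real.exp_add]
    exact le_trans (le_of_eq (by norm_num)) exp_half_le
  rw [gl, gl, ← mul_div_assoc, div_le_div_iff₀ (th_pos hG _) (th_pos hG' _)]
  have p := th_pos hG c0
  have q := gs_pos (c • G) (toR (t + a) - (c0 + c2))
  calc _ ≤ Real.exp (1 / 4) * gs (c • G) (toR (t + a) - (c0 + c2)) *
        (Real.exp (1 / 4) * (2 * th G c0)) := mul_le_mul h3
          (h2.trans (mul_le_mul_of_nonneg_left hc (Real.exp_pos _).le)) (th_nonneg _ _)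
          (by positivity)
    _ = Real.exp (1 / 4) * Real.exp (1 / 4) * (2 * gs (c • G) (toR (t + a) - (c0 + c2)) *
        th G c0) := by ring
    _ ≤ 2 * _ := mul_le_mul_of_nonneg_right h4 (by positivity)
    _ = _ := by ring

theorem ratio_gl (hG : G.PosDef) (c : ι → ℝ) {r : ℝ} {L : ℕ} (hL : 8 * r ≤ L) (a a' : ι → ℤ)
    (h : qq G (toR a' - c) ≤ r) : gl G c a ≤ 2 ^ L * gl G c a' := by
  rw [gl, gl, ← mul_div_assoc]
  refine div_le_div_of_nonneg_right ((gs_le_one hG.posSemidef _).trans ?_) (th_nonneg _ _)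
  have h0 := qq_nonneg hG.posSemidef (toR a' - c)
  have h1 : Real.exp (L * (1 / 2)) ≤ 2 ^ L := by
    rw [Real.exp_nat_mul]
    exact pow_le_pow_left₀ (Real.exp_pos _).le exp_half_le _
  refine le_trans ?_ (mul_le_mul_of_nonneg_right h1 (gs_pos _ _).le)
  unfold gs
  rw [← Real.exp_add]
  exact Real.one_le_exp (by nlinarith [Real.pi_le_four, Real.pi_pos])

theorem geo_gl {G0 G1 G2 : Matrix ι ι ℝ} (h0 : G0.PosDef) (h1 : G1.PosDef) (h2 : G2.PosDef)
    {c0 c1 c2 : ι → ℝ} (f0 : th G0 0 ≤ 2 * th G0 c0) (f1 : th G1 0 ≤ 2 * th G1 c1)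
    (f2 : th G2 0 ≤ 2 * th G2 c2) {c A B W η : ℝ} {L : ℕ} {R1 R2 S : Finset (ι → ℤ)}
    (hc0 : 0 < 1 - c) (hc1 : 1 - c ≤ 1 / 2) (hD : (1 - c) * Fintype.card ι ≤ 1 / 4)
    (hR1 : ∀ z, z ∈ R1 ↔ qq G1 (toR z - c1) ≤ A ^ 2) (hR2 : ∀ z, z ∈ R2 ↔ qq G2 (toR z - c2) ≤ A ^ 2)
    (hS : ∀ z, z ∈ S ↔ √(qq G2 (toR z)) ≤ B) (hA : 0 ≤ A) (hB : 0 ≤ B) (hBA : B ≤ A) (hW : 0 < W)
    (w0 : ∀ y, W ^ 2 * qq G0 y ≤ qq G2 y) (w1 : ∀ y, W ^ 2 * qq G1 y ≤ qq G2 y)
    (n1 : 4 * (2 * A * B + B ^ 2) ≤ 1) (n2 : 3 * A ≤ B * W) (n3 : 16 * A ^ 2 ≤ (1 - c) * W ^ 2)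
    (n4 : 8 * A ^ 2 ≤ L) (n5 : 2 * Real.exp (Fintype.card ι - A ^ 2) ≤ η) :
    Geo (gl G0 c0) (gl (c • G0) (c0 + c2)) (gl G1 c1) (gl G2 c2) R1 R2 S L η := by
  have h0' : (c • G0).PosDef := h0.smul (by linarith)
  obtain ⟨T, -, hT⟩ := exists_T h2
  have sq : ∀ y B, 0 ≤ B → (‖T y‖ ≤ B ↔ qq G2 y ≤ B ^ 2) := fun y B h => by
    rw [hT, Real.sqrt_le_left h]
  have sl : ∀ {G : Matrix ι ι ℝ} (hG : G.PosDef) (c : ι → ℝ) (a d : ι → ℤ),
      qq G (toR a - c) ≤ A ^ 2 → qq G (toR d) ≤ B ^ 2 → gl G c a ≤ 4 * gl G c (a + d) :=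
    fun hG c a d ha hd => by
    rw [gl, gl, ← mul_div_assoc, toR_add', add_sub_right_comm]
    exact div_le_div_of_nonneg_right (slow hG hA hB ha hd n1) (th_nonneg _ _)
  have W2 : 0 < W ^ 2 := by positivity
  refine ⟨fun x => (gl_pos h0 _ _).le, fun x => (gl_pos h0' _ _).le, fun x => (gl_pos h1 _ _).le,
    fun x => (gl_pos h2 _ _).le, hasSum_gl h0' _, hasSum_gl h1 _, hasSum_gl h2 _,
    fun t a ha => dom_gl h0 hc0 hc1 hD f0 t a ?_, by linarith [mass_ell h1 f1 hR1],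
    by linarith [mass_ell h2 f2 hR2], fun a _ => gl_pos h1 _ _, fun a _ => gl_pos h2 _ _,
    fun a _ a' ha' => ratio_gl h1 _ n4 a a' ((hR1 _).1 ha'),
    fun a _ a' ha' => ratio_gl h2 _ n4 a a' ((hR2 _).1 ha'),
    fun a ha a' ha' a'' ha'' x hx => sl h1 _ _ _ ((hR1 _).1 ha) ?_,
    fun a ha x hx => sl h2 _ _ _ ((hR2 _).1 ha) ((Real.sqrt_le_left hB).1 ((hS _).1 hx)),
    (hS _).2 (by rw [toR_zero, qq_zero, Real.sqrt_zero]; exact hB)⟩
  · have h3 := (w0 _).trans ((hR2 _).1 ha)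
    exact le_of_mul_le_mul_right (by linarith) W2
  · have e : toR (a' - a'' + x) = toR a' - c2 - (toR a'' - c2) + toR x := by
      rw [toR_add', toR_sub']; abel
    have h3 : ‖T (toR (a' - a'' + x))‖ ≤ B * W := by
      rw [e, map_add, map_sub]
      have k1 := (sq _ _ hA).2 ((hR2 _).1 ha')
      have k2 := (sq _ _ hA).2 ((hR2 _).1 ha'')
      have k3 := (hT _).trans_le ((hS _).1 hx)
      linarith [norm_add_le (T (toR a' - c2) - T (toR a'' - c2)) (T (toR x)),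
        norm_sub_le (T (toR a' - c2)) (T (toR a'' - c2))]
    have h4 := (w1 _).trans ((sq _ _ (by positivity)).1 h3)
    exact le_of_mul_le_mul_left (h4.trans_eq (by ring)) W2

end

end Vale.Agent.P057KR
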