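import Vale.Agent.P057KR.Kmu
import Vale.Agent.P057FT.Apb

/-! Relative Kelley-Meka step on a lattice, with explicit parameters. -/

set_option linter.all false

open Finset Filter Topology
open scoped BigOperators

namespace Vale.Agent.P057KR

open Vale.Agent.P057Z.Km Vale.Agent.P057FT Vale.Agent.P057HU

noncomputable section

theorem Geo.mono {G : Type} [AddCommGroup G] [DecidableEq G] {b0 b0' b1 b2 : G → ℝ}
    {R1 R2 B : Finset G} {L : ℕ} {η η' : ℝ} (g : Geo b0 b0' b1 b2 R1 R2 B L η) (h : η ≤ η') :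
    Geo b0 b0' b1 b2 R1 R2 B L η' :=
  { g with r1 := by linarith [g.r1], r2 := by linarith [g.r2] }

theorem psi_le {G : Type} [AddCommGroup G] [DecidableEq G] {A1 A2 : Finset G} (S : Finset G)
    (h1 : A1.Nonempty) (h2 : A2.Nonempty) (Ψ : G → ℝ) (c : ℝ) (h0 : ∀ x, 0 ≤ Ψ x)
    (hS : ∀ x ∈ S, c ≤ Ψ x) (x : G) :
    c * psi A1 A2 S x * (#A1 * #A2) ≤ ∑ a ∈ A1, ∑ a' ∈ A2, Ψ (a + a' + x) := by
  have h3 : (0 : ℝ) < #A1 * #A2 := by
    have := h1.card_pos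
    have := h2.card_pos
    positivity
  rw [psi, mul_assoc, div_mul_cancel₀ _ h3.ne', ← sum_product' (f := fun a a' => Ψ (a + a' + x)),
    mul_comm, ← nsmul_eq_mul]
  refine (card_nsmul_le_sum _ (fun p : G × G => Ψ (p.1 + p.2 + x)) _
    fun p hp => hS _ (mem_filter.1 hp).2).trans ?_
  exact sum_le_sum_of_subset_of_nonneg (filter_subset _ _) fun p _ _ => h0 _

theorem pw_le {X : ℝ} (hX : 100 ≤ X) (k : ℕ) : 100 * X ^ k ≤ X ^ (k + 1) := by
  rw [pow_succ']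
  exact mul_le_mul_of_nonneg_right hX (by positivity)

theorem decay {e X c : ℝ} {P : ℕ} (he : e ≤ 1) (hP : X ≤ e * P) (h0 : 0 ≤ c)
    (h : c ≤ Real.exp X) :
    (1 - e) ^ P * c ≤ 1 := by
  have h1 : (1 - e) ^ P ≤ Real.exp (-X) := by
    refine (pow_le_pow_left₀ (by linarith) (Real.one_sub_le_exp_neg e) P).trans ?_
    rw [← Real.exp_nat_mul, Real.exp_le_exp]
    linarith
  calc _ ≤ Real.exp (-X) * Real.exp X := mul_le_mul h1 h h0 (Real.exp_pos _).le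
    _ = 1 := by rw [← Real.exp_add]; simp

theorem fin_num {ε lam p : ℝ} (h0 : 0 < ε) (h1 : ε ≤ 1) (h2 : 0 < lam) (h3 : 1 - 2 * ε / 3 ≤ p) :
    (1 - ε) * lam ≤ (1 - 3 * (ε / 9)) * lam * p := by
  have h4 := mul_le_mul_of_nonneg_left h3 (mul_nonneg (show 0 ≤ 1 - 3 * (ε / 9) by linarith) h2.le)
  nlinarith [mul_pos (mul_pos h0 h0) h2]

/-- the conclusion of the relative step -/
structure Out {ι : Type} [Fintype ι] (N : (ι → ℤ) → ℝ) (ρ X ε lam W : ℝ)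
    (b0 b1 b2 v F χ : (ι → ℤ) → ℝ) (A1 A2 : Finset (ι → ℤ)) {r : ℕ} (θ : Fin r → ι → ℝ) : Prop where
  n1 : A1.Nonempty
  n2 : A2.Nonempty
  rk : (r : ℝ) ≤ X ^ 36
  d1 : ∀ a ∈ A1, 1 ≤ Real.exp (X ^ 6) * #A1 * b1 a
  d2 : ∀ a ∈ A2, 1 ≤ Real.exp (X ^ 6) * #A2 * b2 a
  mix : ∀ x, N x ≤ ρ →
    |∑ a ∈ A1, ∑ a' ∈ A2, (crt b0 v χ (a + a' + x) - W)| ≤ Real.exp (-X ^ 10) * (#A1 * #A2)
  big : ∀ x, N x ≤ ρ * Real.exp (-X ^ 7) →
    (∀ i, ∃ m : ℤ, |θ i ⬝ᵥ zc x - m| ≤ Real.exp (-X ^ 7)) →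
    (1 - ε) * lam * (#A1 * #A2) ≤ ∑ a ∈ A1, ∑ a' ∈ A2, crt b0 v F (a + a' + x)

theorem kma (ε : ℝ) (hε : 0 < ε) (hε1 : ε ≤ 1) : ∃ X0 : ℝ, ∀ X : ℝ, X0 ≤ X →
    ∀ (ι : Type) [Fintype ι] [DecidableEq ι] (N : (ι → ℤ) → ℝ) (bl : ℝ → Finset (ι → ℤ))
      (D L M : ℕ) (ρ lam SU SV W : ℝ) (b0 b0' b1 b2 v F ω χ : (ι → ℤ) → ℝ)
      (U n : (ι → ℤ) → (ι → ℤ) → ℝ) (R1 R2 : Finset (ι → ℤ)),
      Bl N bl D → (D : ℝ) ≤ Real.exp (X ^ 5) → (L : ℝ) ≤ Real.exp (X ^ 5) → 0 < ρ →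
      Geo b0 b0' b1 b2 R1 R2 (bl ρ) L (Real.exp (-X ^ 6)) →
      (∀ x y, 0 ≤ U x y ∧ U x y ≤ Real.exp X * n x y) →
      (∀ x, 0 ≤ F x ∧ F x ≤ Real.exp X * χ x) → (∀ x, 0 ≤ v x ∧ v x ≤ Real.exp X * ω x) →
      X ^ 6 ≤ M → LFCT b1 b2 b0' n (fun a τ => χ (a + τ)) (fun a τ => ω (τ - a)) M
        (Real.exp (-X ^ 12)) →
      (∀ x, Summable fun t => b0 t * (v t * F (x + t))) →
      (∀ x, Summable fun t => b0 t * (v t * χ (x + t))) → HasSum (fun t => b0 t * v t) W →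
      HasSum (fun q : (ι → ℤ) × (ι → ℤ) => b1 q.1 * b2 q.2 * U q.1 q.2) SU →
      HasSum (fun q : (ι → ℤ) × (ι → ℤ) × (ι → ℤ) => b1 q.1 * b2 q.2.1 * (U q.1 q.2.1 *
        if q.2.1 ∈ R2 then b0 q.2.2 * (v q.2.2 * F (q.1 + q.2.1 + q.2.2)) else 0)) SV →
      Real.exp (-X) ≤ SU → Real.exp (-X) ≤ 2 * lam → lam * SU ≤ SV →
      ∃ A1 ⊆ R1, ∃ A2 ⊆ R2, ∃ (r : ℕ) (θ : Fin r → ι → ℝ),
        Out N ρ X ε lam W b0 b1 b2 v F χ A1 A2 θ := by
  obtain ⟨X1, hA⟩ := apb_bl (ε / 3) (by linarith)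
  refine ⟨max X1 (20000 / ε), fun X hX0 ι _ _ N bl D L M ρ lam SU SV W b0 b0' b1 b2 v F ω χ U n R1 R2
    hB hD hL hρ g hU hF hv hM hLF sF sχ sW sU sV hSU hlam hcor => ?_⟩
  have hX1 : 20000 ≤ ε * X := by
    have := (le_max_right _ _).trans hX0
    rwa [div_le_iff₀ hε, mul_comm] at this
  have hX : 20000 ≤ X := by nlinarith
  have hX' : 100 ≤ X := by linarith
  have x1 := pw_le hX' 1
  have x2 := pw_le hX' 2
  have x3 := pw_le hX' 3
  have x4 := pw_le hX' 4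
  have x5 := pw_le hX' 5
  have x6 := pw_le hX' 6
  have x7 := pw_le hX' 7
  have x8 := pw_le hX' 8
  have x9 := pw_le hX' 9
  have x10 := pw_le hX' 10
  have x11 := pw_le hX' 11
  norm_num only [pow_one] at x1 x2 x3 x4 x5 x6 x7 x8 x9 x10 x11
  have ex : ∀ {c y z : ℝ}, c + y ≤ z → c * Real.exp y ≤ Real.exp z := fun {c y z} h => by
    refine le_trans ?_ (Real.exp_le_exp.2 h)
    rw [Real.exp_add]
    exact mul_le_mul_of_nonneg_right (by linarith [Real.add_one_le_exp c]) (Real.exp_pos _).le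
  have e2 : ∀ y, Real.exp y ^ 2 = Real.exp (2 * y) := fun y => by
    rw [← Real.exp_nat_mul]; norm_num
  have up : ∀ {a b : ℝ}, 0 ≤ a → a ≤ Real.exp X * b → 4 * a ≤ Real.exp (2 * X) * b :=
    fun {a b} h0 h => by
    have h1 : 0 ≤ b := le_of_mul_le_mul_left (by rw [mul_zero]; exact h0.trans h) (Real.exp_pos X)
    have h2 := mul_le_mul_of_nonneg_right (ex (c := 4) (y := X) (z := 2 * X) (by linarith)) h1
    linarith
  obtain ⟨P, hP, hP'⟩ : ∃ P : ℕ, X ^ 2 ≤ P ∧ (P : ℝ) ≤ X ^ 2 + 1 :=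
    ⟨_, Nat.le_ceil _, (Nat.ceil_lt_add_one (by positivity)).le⟩
  obtain ⟨m, hm, hm'⟩ : ∃ m : ℕ, X ^ 5 ≤ m ∧ (m : ℝ) ≤ X ^ 5 + 1 :=
    ⟨_, Nat.le_ceil _, (Nat.ceil_lt_add_one (by positivity)).le⟩
  obtain ⟨H, hH⟩ : ∃ H : ℝ, H = 2 ^ m * (4 * Real.exp (X ^ 4) ^ 2) := ⟨_, rfl⟩
  have hH0 : 0 < H := by rw [hH]; positivity
  have hH1 : H ≤ Real.exp (2 * X ^ 5) := by
    have h1 : (2 : ℝ) ^ m ≤ Real.exp (m * 1) := by
      rw [Real.exp_nat_mul]
      exact pow_le_pow_left₀ (by norm_num) (by linarith [Real.add_one_le_exp 1]) _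
    rw [hH, e2]
    calc _ ≤ Real.exp (m * 1) * Real.exp (4 + 2 * X ^ 4) := mul_le_mul h1 (ex le_rfl)
          (by positivity) (by positivity)
      _ ≤ _ := by rw [← Real.exp_add]; exact Real.exp_le_exp.2 (by linarith)
  have k0 : ∀ {y : ℝ}, Real.exp (-X) ≤ y → 4 ≤ Real.exp (2 * X) * y := fun {y} h => by
    refine le_trans ?_ (mul_le_mul_of_nonneg_left h (Real.exp_pos _).le)
    rw [← Real.exp_add]
    linarith [Real.add_one_le_exp (2 * X + -X)]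
  obtain ⟨A1, a1, A2, a2, U1, U2, S, n1, n2, c1, c2, m2, m1, p0, hS, d1, d2, mx⟩ :=
    kmu (K := Real.exp (2 * X)) (K1 := Real.exp (X ^ 4)) (H := H) (Hm := Real.exp (X ^ 6))
    (e := ε / 9) (s := ε / 1536) (δ := Real.exp (-X ^ 11)) (P := P) (m := m)
    (g.mono (by
      rw [Real.exp_neg]
      exact inv_anti₀ (by positivity) ((mul_le_mul_of_nonneg_left hH1 (by norm_num)).trans
        (ex (by linarith)))))
    (Real.one_le_exp (by linarith))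
    (fun x y => ⟨(hU x y).1, by linarith [up (hU x y).1 (hU x y).2, (hU x y).1]⟩)
    (fun x => ⟨(hF x).1, by linarith [up (hF x).1 (hF x).2, (hF x).1]⟩)
    (fun x => ⟨(hv x).1, up (hv x).1 (hv x).2⟩) hLF
    (by exact_mod_cast (show (2 : ℝ) ≤ M by linarith))
    (by exact_mod_cast (show (2 * P : ℝ) ≤ M by linarith))
    (by exact_mod_cast (show (m : ℝ) ≤ M by linarith)) (Real.exp_pos _).le
    (Real.exp_le_one_iff.2 (by linarith)) (by
      rw [← Real.exp_nat_mul]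
      refine (ex le_rfl).trans_lt (Real.exp_lt_exp.2 ?_)
      push_cast
      linarith) sF sχ sW sU sV (by linarith [k0 hSU]) (by
      have := mul_le_mul_of_nonneg_left (k0 hlam) (show 0 ≤ 1 - ε / 9 by linarith)
      linarith) hcor (by linarith) (by linarith) (by linarith) (by linarith) (by
      rw [e2]
      have h1 := decay (e := ε / 9) (X := 2 * X + 2 * (2 * X)) (P := P)
        (c := X * (2 * Real.exp (2 * (2 * X)))) (by linarith) (by nlinarith) (by positivity)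
        (by rw [← mul_assoc]; exact ex (by linarith))
      refine le_of_mul_le_mul_left (a := X) ?_ (by linarith)
      linarith) (by
      rw [← Real.exp_nat_mul]
      refine ex ?_
      push_cast
      nlinarith) (by
      rw [e2]
      exact decay (X := 2 + 2 * X ^ 4) (by linarith) (by nlinarith) (by positivity) (ex le_rfl))
    hH (by
      refine (mul_le_mul_of_nonneg_left (pow_le_pow_left₀ hH0.le hH1 _)
        (Real.exp_pos _).le).trans ?_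
      rw [← Real.exp_nat_mul, ← Real.exp_add, Real.exp_le_one_iff]
      push_cast
      have h1 : (m + 6 : ℝ) * (2 * X ^ 5) ≤ 2 * X ^ 5 * (2 * X ^ 5) := by gcongr; linarith
      have h2 : 2 * X ^ 5 * (2 * X ^ 5) = 4 * X ^ 10 := by ring
      linarith) (by
      have h1 : (L + 1 : ℝ) ≤ 2 * Real.exp (X ^ 5) := by
        linarith [Real.one_le_exp (show 0 ≤ X ^ 5 by linarith)]
      calc _ ≤ 64 * (2 * Real.exp (X ^ 5)) * Real.exp (2 * X ^ 5) := by gcongr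
        _ = 128 * Real.exp (X ^ 5 + 2 * X ^ 5) := by rw [Real.exp_add]; ring
        _ ≤ _ := ex (by linarith))
  obtain ⟨r, θ, hr, hθ⟩ := hA (X ^ 6) (((le_max_left _ _).trans hX0).trans (by linarith)) ι N bl D ρ
    A1 A2 S U1 U2 hB (hD.trans (Real.exp_le_exp.2 (by linarith))) hρ n1 n2 c1 c2
    (fun a ha x hx => m2 a ha x ((hB.mem _ _).2 hx))
    fun a ha a' ha' x hx => m1 a ha a' ha' x ((hB.mem _ _).2 hx)
  refine ⟨A1, a1, A2, a2, r, θ, n1, n2, hr.trans_eq (by ring), d1, d2,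
    fun x hx => (mx x ((hB.mem _ _).2 hx)).trans (mul_le_mul_of_nonneg_right ?_ (by positivity)),
    fun x hx hi => ?_⟩
  · rw [e2, mul_left_comm, ← Real.exp_add, ← Real.exp_add]
    exact ex (by linarith)
  · have h1 := (abs_le.1 (hθ x (hx.trans (mul_le_mul_of_nonneg_left
      (Real.exp_le_exp.2 (by linarith)) hρ.le)) fun i => (hi i).imp fun m h =>
        h.trans (Real.exp_le_exp.2 (by linarith)))).1
    refine le_trans (mul_le_mul_of_nonneg_right ?_ (by positivity)) (psi_le S n1 n2 _ _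
      (fun y => tsum_nonneg fun t => mul_nonneg (g.n0 _) (mul_nonneg (hv _).1 (hF _).1)) hS x)
    exact fin_num hε hε1 (by linarith only [hlam, Real.exp_pos (-X)]) (by linarith only [h1, p0])

end

end Vale.Agent.P057KR
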