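import Vale.Agent.P057KR.Gau

/-! Relative Kelley-Meka step for discrete Gaussian laws. -/

set_option linter.all false

open Finset Filter Topology Matrix
open scoped BigOperators Real

namespace Vale.Agent.P057KR

open Vale.Agent.P057FT Vale.Agent.P057HU Vale.Agent.P057G Vale.Agent.P267.H775

noncomputable section

variable {ι : Type} [Fintype ι] [DecidableEq ι] {G : Matrix ι ι ℝ}

theorem th_half (hG : G.PosDef) (x : ι → ℝ) :
    th ((1 / 2 : ℝ) • G) x ≤ Real.exp (Fintype.card ι) * th G 0 :=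
  th_wide hG (by norm_num) (by norm_num)
    (by nlinarith [Nat.cast_nonneg (α := ℝ) (Fintype.card ι)]) x

theorem gl_far (hG : G.PosDef) {c : ι → ℝ} (hc : th G 0 ≤ 2 * th G c) {r : ℝ} (hr : 0 ≤ r)
    {z : ι → ℤ} (hz : r ≤ qq G (toR z - c)) :
    gl G c z ≤ 2 * Real.exp (Fintype.card ι - r) * gl ((1 / 2 : ℝ) • G) c z := by
  have hG' : ((1 / 2 : ℝ) • G).PosDef := hG.smul (by norm_num)
  have h1 : gs G (toR z - c) ≤ Real.exp (-r) * gs ((1 / 2 : ℝ) • G) (toR z - c) := by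
    unfold gs
    rw [← Real.exp_add, qq_smul_mat]
    exact Real.exp_le_exp.2 (by nlinarith [Real.pi_gt_three])
  rw [gl, gl, ← mul_div_assoc, div_le_div_iff₀ (th_pos hG _) (th_pos hG' _)]
  have q := gs_pos ((1 / 2 : ℝ) • G) (toR z - c)
  calc _ ≤ Real.exp (-r) * gs ((1 / 2 : ℝ) • G) (toR z - c) *
        (Real.exp (Fintype.card ι) * (2 * th G c)) := mul_le_mul h1 ((th_half hG c).trans
          (mul_le_mul_of_nonneg_left hc (Real.exp_pos _).le)) (th_nonneg _ _) (by positivity)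
    _ = _ := by rw [sub_eq_add_neg (Fintype.card ι : ℝ), Real.exp_add]; ring

theorem far_num {X D : ℝ} (hX : 1000 ≤ X) (hD : D ≤ Real.exp X) :
    2 * Real.exp (D - Real.exp X ^ 2) ≤ Real.exp (-X ^ 6) := by
  have h1 := Real.pow_div_factorial_le_exp X (by linarith) 6
  rw [show ((Nat.factorial 6 : ℕ) : ℝ) = 720 by norm_num [Nat.factorial],
    div_le_iff₀ (by norm_num)] at h1
  have h2 := Real.add_one_le_exp X
  have h3 : Real.exp (D - Real.exp X ^ 2) * Real.exp 1 ≤ Real.exp (-X ^ 6) := by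
    rw [← Real.exp_add]
    exact Real.exp_le_exp.2 (by nlinarith)
  nlinarith [Real.add_one_le_exp 1, Real.exp_pos (D - Real.exp X ^ 2)]

theorem geo_X {X c : ℝ} {G0 G1 G2 : Matrix ι ι ℝ} {c0 c1 c2 : ι → ℝ} {R1 R2 S : Finset (ι → ℤ)}
    (hX : 1000 ≤ X) (h0 : G0.PosDef) (h1 : G1.PosDef) (h2 : G2.PosDef)
    (hD : (Fintype.card ι : ℝ) ≤ Real.exp X) (f0 : th G0 0 ≤ 2 * th G0 c0)
    (f1 : th G1 0 ≤ 2 * th G1 c1) (f2 : th G2 0 ≤ 2 * th G2 c2) (hc0 : Real.exp (-(3 * X)) ≤ 1 - c)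
    (hc1 : 1 - c ≤ Real.exp (-(2 * X))) (w0 : ∀ y, Real.exp (10 * X) * qq G0 y ≤ qq G2 y)
    (w1 : ∀ y, Real.exp (10 * X) * qq G1 y ≤ qq G2 y)
    (hR1 : ∀ z, z ∈ R1 ↔ qq G1 (toR z - c1) ≤ Real.exp X ^ 2)
    (hR2 : ∀ z, z ∈ R2 ↔ qq G2 (toR z - c2) ≤ Real.exp X ^ 2)
    (hS : ∀ z, z ∈ S ↔ √(qq G2 (toR z)) ≤ Real.exp (-(2 * X))) :
    Geo (gl G0 c0) (gl (c • G0) (c0 + c2)) (gl G1 c1) (gl G2 c2) R1 R2 S ⌈8 * Real.exp X ^ 2⌉₊
      (Real.exp (-X ^ 6)) := by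
  obtain ⟨y, hy⟩ : ∃ y, y = Real.exp X := ⟨_, rfl⟩
  have y0 : 1000 ≤ y := by rw [hy]; linarith [Real.add_one_le_exp X]
  have yp : 0 < y := by linarith
  have ey : ∀ k : ℕ, Real.exp (k * X) = y ^ k := fun k => by rw [hy, Real.exp_nat_mul]
  have e2 : Real.exp (-(2 * X)) = (y ^ 2)⁻¹ := by rw [Real.exp_neg, ← ey]; norm_num
  have e3 : Real.exp (-(3 * X)) = (y ^ 3)⁻¹ := by rw [Real.exp_neg, ← ey]; norm_num
  have e10 : Real.exp (10 * X) = (y ^ 5) ^ 2 := by rw [← pow_mul, ← ey]; norm_num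
  have y2 : 1000 * y ≤ y ^ 2 := by nlinarith
  have i2 : (y ^ 2)⁻¹ * y ≤ 1 / 1000 := by
    rw [inv_mul_le_iff₀ (by positivity)]
    linarith
  have i3 : (y ^ 2)⁻¹ ≤ 1 / 1000 :=
    (le_mul_of_one_le_right (by positivity) (by linarith)).trans i2
  have far := far_num hX hD
  exact geo_gl h0 h1 h2 f0 f1 f2 (c := c) (B := Real.exp (-(2 * X))) (W := y ^ 5)
    (L := ⌈8 * Real.exp X ^ 2⌉₊) (η := Real.exp (-X ^ 6)) ((Real.exp_pos _).trans_le hc0)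
    (by rw [e2] at hc1; linarith) (by
      rw [e2] at hc1
      have := mul_le_mul hc1 (hD.trans_eq hy.symm) (Nat.cast_nonneg _) (by positivity)
      linarith) hR1 hR2 hS (Real.exp_pos _).le (Real.exp_pos _).le
    (Real.exp_le_exp.2 (by linarith)) (by positivity) (e10 ▸ w0) (e10 ▸ w1) (by
      rw [e2, ← hy]
      nlinarith [inv_pos.2 (pow_pos yp 2)]) (by
      rw [e2, ← hy, show (y ^ 2)⁻¹ * y ^ 5 = y ^ 2 * y by field_simp]
      exact mul_le_mul_of_nonneg_right (by linarith) yp.le) (by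
      refine le_trans ?_ (mul_le_mul_of_nonneg_right hc0 (by positivity))
      rw [e3, ← hy, show (y ^ 3)⁻¹ * (y ^ 5) ^ 2 = y ^ 5 * y ^ 2 by field_simp]
      exact mul_le_mul_of_nonneg_right (le_trans (by linarith) (le_self_pow₀ (by linarith)
        (by norm_num))) (by positivity)) (Nat.le_ceil _) far

theorem num_L {X : ℝ} (hX : 1000 ≤ X) :
    X ≤ X ^ 5 ∧ (⌈8 * Real.exp X ^ 2⌉₊ : ℝ) ≤ Real.exp (X ^ 5) := by
  have x5 : 3 * X ≤ X ^ 5 := by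
    have := pow_le_pow_right₀ (show 1 ≤ X by linarith) (show 2 ≤ 5 by norm_num)
    nlinarith
  refine ⟨by linarith, (Nat.ceil_lt_add_one (by positivity)).le.trans
    (le_trans ?_ (Real.exp_le_exp.2 x5))⟩
  have h := Real.exp_nat_mul X 3
  push_cast at h
  rw [h]
  have h1 := Real.add_one_le_exp X
  have h2 : 1 ≤ Real.exp X ^ 2 := one_le_pow₀ (by linarith)
  nlinarith

theorem num_T {X ε lam SU ST : ℝ} (hX : 1000 ≤ X) (hX1 : 1000 ≤ ε * X) (hε : 0 < ε)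
    (hT : ST ≤ Real.exp X) (hSU : Real.exp (-X) ≤ SU) (hlam : Real.exp (-X) ≤ lam) :
    Real.exp X ^ 3 * Real.exp (-X ^ 6) * ST ≤ ε / 2 * (lam * SU) := by
  have k1 := mul_le_mul hlam hSU (Real.exp_pos _).le ((Real.exp_pos _).le.trans hlam)
  have k2 : Real.exp X ^ 3 * Real.exp (-X ^ 6) * Real.exp X ≤
      Real.exp (-X) * (Real.exp (-X) * Real.exp (-X)) := by
    rw [← Real.exp_nat_mul]
    simp only [← Real.exp_add]
    refine Real.exp_le_exp.2 ?_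
    have := pow_le_pow_right₀ (show 1 ≤ X by linarith) (show 2 ≤ 6 by norm_num)
    push_cast
    nlinarith
  have k3 : Real.exp (-X) ≤ ε / 2 := by
    rw [Real.exp_neg, inv_le_iff_one_le_mul₀ (Real.exp_pos _)]
    nlinarith [Real.add_one_le_exp X]
  have k4 := mul_le_mul k3 k1 (by positivity) (by linarith)
  have k5 := mul_le_mul_of_nonneg_left hT
    (show 0 ≤ Real.exp X ^ 3 * Real.exp (-X ^ 6) by positivity)
  linarith

theorem Out.mono {N : (ι → ℤ) → ℝ} {ρ X ε ε' lam lam' W : ℝ} {b0 b1 b2 v F χ : (ι → ℤ) → ℝ}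
    {A1 A2 : Finset (ι → ℤ)} {r : ℕ} {θ : Fin r → ι → ℝ}
    (h : Out N ρ X ε lam W b0 b1 b2 v F χ A1 A2 θ) (e : (1 - ε') * lam' ≤ (1 - ε) * lam) :
    Out N ρ X ε' lam' W b0 b1 b2 v F χ A1 A2 θ :=
  { h with big := fun x hx hi =>
      (mul_le_mul_of_nonneg_right e (by positivity)).trans (h.big x hx hi) }

theorem kmg (ε : ℝ) (hε : 0 < ε) (hε1 : ε ≤ 1) : ∃ X0 : ℝ, ∀ X : ℝ, X0 ≤ X →
    ∀ (ι : Type) [Fintype ι] [DecidableEq ι] (G0 G1 G2 : Matrix ι ι ℝ) (c0 c1 c2 : ι → ℝ)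
      (M : ℕ) (c lam SU SV ST W : ℝ) (v F ω χ : (ι → ℤ) → ℝ) (U n : (ι → ℤ) → (ι → ℤ) → ℝ),
      G0.PosDef → G1.PosDef → G2.PosDef → (Fintype.card ι : ℝ) ≤ Real.exp X →
      th G0 0 ≤ 2 * th G0 c0 → th G1 0 ≤ 2 * th G1 c1 → th G2 0 ≤ 2 * th G2 c2 →
      Real.exp (-(3 * X)) ≤ 1 - c → 1 - c ≤ Real.exp (-(2 * X)) →
      (∀ y, Real.exp (10 * X) * qq G0 y ≤ qq G2 y) → (∀ y, Real.exp (10 * X) * qq G1 y ≤ qq G2 y) →
      (∀ x y, 0 ≤ U x y ∧ U x y ≤ Real.exp X * n x y) →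
      (∀ x, 0 ≤ F x ∧ F x ≤ Real.exp X * χ x) → (∀ x, 0 ≤ v x ∧ v x ≤ Real.exp X * ω x) →
      X ^ 6 ≤ M → LFCT (gl G1 c1) (gl G2 c2) (gl (c • G0) (c0 + c2)) n (fun a τ => χ (a + τ))
        (fun a τ => ω (τ - a)) M (Real.exp (-X ^ 12)) →
      (∀ x, Summable fun t => gl G0 c0 t * (v t * χ (x + t))) →
      HasSum (fun t => gl G0 c0 t * v t) W →
      HasSum (fun q : (ι → ℤ) × (ι → ℤ) => gl G1 c1 q.1 * gl G2 c2 q.2 * U q.1 q.2) SU →
      HasSum (fun q : (ι → ℤ) × (ι → ℤ) × (ι → ℤ) => gl G1 c1 q.1 * gl G2 c2 q.2.1 *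
        (U q.1 q.2.1 * (gl G0 c0 q.2.2 * (v q.2.2 * F (q.1 + q.2.1 + q.2.2))))) SV →
      HasSum (fun q : (ι → ℤ) × (ι → ℤ) × (ι → ℤ) => gl G1 c1 q.1 * gl ((1 / 2 : ℝ) • G2) c2 q.2.1 *
        (n q.1 q.2.1 * (gl G0 c0 q.2.2 * (ω q.2.2 * χ (q.1 + q.2.1 + q.2.2))))) ST →
      ST ≤ Real.exp X → Real.exp (-X) ≤ SU → Real.exp (-X) ≤ lam → lam * SU ≤ SV →
      ∃ (A1 A2 : Finset (ι → ℤ)) (r : ℕ) (θ : Fin r → ι → ℝ),
        (∀ a ∈ A1, qq G1 (toR a - c1) ≤ Real.exp X ^ 2) ∧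
        (∀ a ∈ A2, qq G2 (toR a - c2) ≤ Real.exp X ^ 2) ∧
        Out (fun x => √(qq G2 (toR x))) (Real.exp (-(2 * X))) X ε lam W (gl G0 c0) (gl G1 c1)
          (gl G2 c2) v F χ A1 A2 θ := by
  obtain ⟨X1, hA⟩ := kma (ε / 2) (by linarith) (by linarith)
  refine ⟨max X1 (1000 / ε), fun X hX0 ι _ _ G0 G1 G2 c0 c1 c2 M c lam SU SV ST W v F ω χ U n h0 h1
    h2 hD f0 f1 f2 hc0 hc1 w0 w1 hU hF hv hM hLF sχ sW sU sV sT hT hSU hlam hcor => ?_⟩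
  have hX1 : 1000 ≤ ε * X := by
    have := (le_max_right _ _).trans hX0
    rwa [div_le_iff₀ hε, mul_comm] at this
  have hX : 1000 ≤ X := by nlinarith
  obtain ⟨T, hT1, hT2⟩ := exists_T h2
  have hB := bl_lb T hT1
  have eN : ln T = fun x => √(qq G2 (toR x)) := funext fun x => hT2 _
  rw [eN] at hB
  obtain ⟨R1, hR1⟩ := exists_ell h1 c1 (Real.exp X ^ 2)
  obtain ⟨R2, hR2⟩ := exists_ell h2 c2 (Real.exp X ^ 2)
  have far := far_num hX hD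
  have g := geo_X hX h0 h1 h2 hD f0 f1 f2 hc0 hc1 w0 w1 hR1 hR2 (hB.mem _)
  have pχ : ∀ x, 0 ≤ χ x := fun x =>
    le_of_mul_le_mul_left (by rw [mul_zero]; exact (hF x).1.trans (hF x).2) (Real.exp_pos X)
  have p0 := gl_pos h0 c0
  have p1 := gl_pos h1 c1
  have p2 := gl_pos h2 c2
  have t0 : ∀ q : (ι → ℤ) × (ι → ℤ) × (ι → ℤ),
      0 ≤ gl G0 c0 q.2.2 * (v q.2.2 * F (q.1 + q.2.1 + q.2.2)) := fun q =>
    mul_nonneg (p0 _).le (mul_nonneg (hv _).1 (hF _).1)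
  have sV' : Summable fun q : (ι → ℤ) × (ι → ℤ) × (ι → ℤ) => gl G1 c1 q.1 * gl G2 c2 q.2.1 *
      (U q.1 q.2.1 * if q.2.1 ∈ R2 then gl G0 c0 q.2.2 * (v q.2.2 * F (q.1 + q.2.1 + q.2.2))
        else 0) := by
    refine sV.summable.of_nonneg_of_le (fun q => mul_nonneg (mul_pos (p1 _) (p2 _)).le
      (mul_nonneg (hU _ _).1 ?_)) fun q => mul_le_mul_of_nonneg_left
      (mul_le_mul_of_nonneg_left ?_ (hU _ _).1) (mul_pos (p1 _) (p2 _)).le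
    · split_ifs; exacts [t0 q, le_rfl]
    · split_ifs; exacts [le_rfl, t0 q]
  have tl := hasSum_le (fun q => ?_) sV
    (sV'.hasSum.add (sT.mul_left (Real.exp X ^ 3 * Real.exp (-X ^ 6))))
  · obtain ⟨A1, a1, A2, a2, r, θ, o⟩ := hA X ((le_max_left _ _).trans hX0) ι _ _ _ _ M _
      ((1 - ε / 2) * lam) SU _ W _ _ _ _ v F ω χ U n R1 R2 hB
      (hD.trans (Real.exp_le_exp.2 (num_L hX).1)) (num_L hX).2 (Real.exp_pos _) g hU hF hv hM hLF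
      (fun x => (sχ x).mul_left (Real.exp X) |>.of_nonneg_of_le
        (fun t => mul_nonneg (p0 _).le (mul_nonneg (hv _).1 (hF _).1)) fun t => by
          exact (mul_le_mul_of_nonneg_left (mul_le_mul_of_nonneg_left (hF _).2 (hv _).1)
            (p0 _).le).trans_eq (by ring))
      sχ sW sU sV'.hasSum hSU (by
        have := mul_le_mul_of_nonneg_right hε1 ((Real.exp_pos _).le.trans hlam)
        linarith only [this, hlam])
      (by linarith only [num_T hX hX1 hε hT hSU hlam, tl, hcor])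
    exact ⟨A1, A2, r, θ, fun a ha => (hR1 a).1 (a1 ha), fun a ha => (hR2 a).1 (a2 ha),
      o.mono (by linarith only [mul_nonneg (sq_nonneg ε) ((Real.exp_pos _).le.trans hlam)])⟩
  · have k1 : U q.1 q.2.1 * (gl G0 c0 q.2.2 * (v q.2.2 * F (q.1 + q.2.1 + q.2.2))) ≤
        Real.exp X ^ 3 * (n q.1 q.2.1 * (gl G0 c0 q.2.2 * (ω q.2.2 * χ (q.1 + q.2.1 + q.2.2)))) :=
      (mul_le_mul (hU _ _).2 (mul_le_mul_of_nonneg_left (mul_le_mul (hv _).2 (hF _).2 (hF _).1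
        ((hv _).1.trans (hv _).2)) (p0 _).le) (t0 q) ((hU _ _).1.trans (hU _ _).2)).trans_eq
        (by ring)
    have k0 := mul_nonneg (hU q.1 q.2.1).1 (t0 q)
    have k2 := gl_pos (h2.smul (show (0 : ℝ) < 1 / 2 by norm_num)) c2 q.2.1
    have k3 : gl G1 c1 q.1 * (Real.exp (-X ^ 6) * gl ((1 / 2 : ℝ) • G2) c2 q.2.1) *
        (Real.exp X ^ 3 * (n q.1 q.2.1 * (gl G0 c0 q.2.2 * (ω q.2.2 * χ (q.1 + q.2.1 + q.2.2))))) =
        Real.exp X ^ 3 * Real.exp (-X ^ 6) * (gl G1 c1 q.1 * gl ((1 / 2 : ℝ) • G2) c2 q.2.1 *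
          (n q.1 q.2.1 * (gl G0 c0 q.2.2 * (ω q.2.2 * χ (q.1 + q.2.1 + q.2.2))))) := by ring
    rw [← k3]
    split_ifs with hq
    · exact le_add_of_nonneg_right (mul_nonneg (mul_pos (p1 _) (by positivity)).le (k0.trans k1))
    · rw [mul_zero, mul_zero, zero_add]
      refine mul_le_mul (mul_le_mul_of_nonneg_left ((gl_far h2 f2 (by positivity)
        (not_le.1 (mt (hR2 _).2 hq)).le).trans (mul_le_mul_of_nonneg_right far k2.le)) (p1 _).le)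
        k1 k0 (mul_pos (p1 _) (by positivity)).le

end

end Vale.Agent.P057KR
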