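import Vale.Agent.P057KR.Pat

/-! Relative Kelley-Meka step in one fibre: preparations. -/

set_option linter.all false

open Finset Filter Topology Matrix
open scoped BigOperators Real

namespace Vale.Agent.P057KR

open Vale.Agent.P057FT Vale.Agent.P057HU Vale.Agent.P057G Vale.Agent.P267.H775

noncomputable section

section Grp

variable {G : Type} [AddCommGroup G]

theorem hs_sub (a : G) {f : G → ℝ} {s : ℝ} (h : HasSum f s) : HasSum (fun τ => f (τ - a)) s :=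
  (Equiv.subRight a).hasSum_iff.2 h

theorem hs_add (a : G) {f : G → ℝ} {s : ℝ} (h : HasSum f s) : HasSum (fun τ => f (τ + a)) s :=
  (Equiv.addRight a).hasSum_iff.2 h

theorem shear2 {b g : G → ℝ} {m s : ℝ} (hb : HasSum b m) (hg : HasSum g s) (b0 : ∀ x, 0 ≤ b x)
    (g0 : ∀ x, 0 ≤ g x) : HasSum (fun q : G × G => b q.2 * g (q.1 + q.2)) (m * s) :=
  (⟨fun q => (q.2, q.1 + q.2), fun p => (p.2 - p.1, p.1), fun q => by simp, fun p => by simp⟩ :
    G × G ≃ G × G).hasSum_iff.2 (hs_mul hb hg b0 g0)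

theorem shear3 {T : Type} {b : G → ℝ} {g : G × T → ℝ} {m s : ℝ} (hb : HasSum b m)
    (hg : HasSum g s) (b0 : ∀ x, 0 ≤ b x) (g0 : ∀ x, 0 ≤ g x) :
    HasSum (fun q : G × G × T => b q.2.1 * g (q.1 + q.2.1, q.2.2)) (m * s) :=
  (⟨fun q => (q.2.1, q.1 + q.2.1, q.2.2), fun p => (p.2.1 - p.1, p.1, p.2.2), fun q => by simp,
    fun p => by simp⟩ : G × G × T ≃ G × G × T).hasSum_iff.2 (hs_mul hb hg b0 g0)

theorem w_bd {b0 b0' b2 w Ω : G → ℝ} {R : Finset G} {S T : ℝ} (n0' : ∀ t, 0 ≤ b0' t)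
    (n2 : ∀ t, 0 ≤ b2 t) (w0 : ∀ t, 0 ≤ w t) (dom : ∀ t, ∀ a ∈ R, b0 t ≤ 4 * b0' (t + a))
    (hw : ∀ τ, HasSum (fun a => b2 a * w (τ - a)) (Ω τ)) (hS : HasSum (fun τ => b0' τ * Ω τ) S)
    (hT : HasSum (fun t => b0 t * w t) T) : (∑ a ∈ R, b2 a) * T ≤ 4 * S := by
  rw [sum_mul]
  refine hasSum_le (fun τ => ?_) (hasSum_sum fun a (_ : a ∈ R) => (hs_sub a hT).mul_left (b2 a))
    (hS.mul_left 4)
  refine le_trans ?_ ((mul_le_mul_of_nonneg_left (sum_le_hasSum R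
    (fun a _ => mul_nonneg (n2 _) (w0 _)) (hw τ)) (mul_nonneg zero_le_four (n0' τ))).trans_eq
      (mul_assoc _ _ _))
  rw [mul_sum]
  refine sum_le_sum fun a ha => ?_
  have k := dom (τ - a) a ha
  rw [sub_add_cancel] at k
  linarith [mul_le_mul_of_nonneg_left k (mul_nonneg (n2 a) (w0 (τ - a)))]

/-- the weight on sums can be removed from a product -/
theorem mix0 [DecidableEq G] {b b0 b0' b1 b2 U v w χ : G → ℝ} {R : Finset G} {N : ℕ}
    {K δ δ0 W SU SC M : ℝ}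
    (h : LFCT b1 b2 b0' (fun _ _ => 1) (fun a τ => χ (a + τ)) (fun a τ => w (τ - a)) N δ0)
    (h2 : 2 ≤ N) (n : ∀ t, 0 ≤ b t) (n0 : ∀ t, 0 ≤ b0 t) (p0 : ∀ t, 0 < b0' t) (p1 : ∀ t, 0 < b1 t)
    (n2 : ∀ t, 0 ≤ b2 t) (s0 : HasSum b0' 1) (s1 : HasSum b1 1) (s2 : HasSum b2 1) (hK : 0 < K)
    (d0 : ∀ t, ∀ a ∈ R, b0 t ≤ 4 * b0' (t + a)) (d1 : ∀ x, ∀ a ∈ R, b (x + a) ≤ 4 * b1 x)
    (hU : ∀ x, 0 ≤ U x ∧ U x ≤ K) (hv : ∀ t, 0 ≤ v t ∧ v t ≤ K * w t)
    (hχ : ∀ x, 0 ≤ χ x ∧ χ x ≤ M) (sW : HasSum (fun t => b0 t * v t) W)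
    (sU : HasSum (fun x => b x * U x) SU)
    (sC : HasSum (fun p : G × G => b p.1 * U p.1 * (b0 p.2 * v p.2 * χ (p.1 + p.2))) SC)
    (hδ0 : 0 ≤ δ) (hδ1 : δ ≤ 1) (hδ : 16 * δ0 < δ ^ 4) :
    (∑ a ∈ R, b2 a) * |SC - W * SU| ≤ 32 * K ^ 2 * δ := by
  have sc := fun z => (summable_mul_real sW.summable (fun t => mul_nonneg (n0 t) (hv t).1)
    fun t => (abs_of_nonneg (hχ (z + t)).1).trans_le (hχ _).2).hasSum
  generalize hc : (fun z => ∑' t, b0 t * v t * χ (z + t)) = cr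
  simp only [fun z => congrFun hc z] at sc
  have k1 := (sC.prod_fiberwise fun x => (sc x).mul_left (b x * U x)).sub (sU.mul_left W)
  have k2 := (hasSum_sum fun y (_ : y ∈ R) => (hs_add y k1).mul_left (b2 y)).div_const (16 * K ^ 2)
  have K2 : 0 < 16 * K ^ 2 := by positivity
  rw [← abs_of_nonneg (sum_nonneg fun a (_ : a ∈ R) => n2 a), ← abs_mul, sum_mul]
  refine le_trans ((div_le_iff₀ K2).1 ?_) (show 2 * δ * _ ≤ _ from le_of_eq (by ring))
  rw [← abs_of_pos K2, ← abs_div]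
  refine le_of_tendsto' (Tendsto.abs k2) fun A => le_trans (le_of_eq (congrArg _ ?_))
    (h.cut13 h2 (fun t => (p1 t).le) n2 (fun t => (p0 t).le) s1 s2 s0 hδ0 hδ1 hδ A R
      (u := fun y x => if y ∈ R then b (x + y) * U (x + y) / (b1 x * (4 * K)) else 0)
      (r := fun y z => if y ∈ R then b0 (z - y) * v (z - y) / (b0' z * (4 * K)) else 0)
      (S := fun x y => (cr (x + y) - W) / (4 * K)) (fun y x => ?_) (fun y z => ?_)
      fun x _ y hy => ?_)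
  · rw [sum_comm (s := R)]
    refine sum_congr rfl fun x _ => (sum_div _ _ _).trans (sum_congr rfl fun y hy => ?_)
    have := (p1 x).ne'
    rw [if_pos hy]
    field_simp
    ring
  · split_ifs with hy
    · have := p1 x
      rw [abs_of_nonneg (div_nonneg (mul_nonneg (n _) (hU _).1) (by positivity)),
        div_le_one (by positivity)]
      linarith [mul_le_mul (d1 x y hy) (hU (x + y)).2 (hU _).1 (by positivity)]
    · simp
  · have w0 : 0 ≤ w (z - y) := le_of_mul_le_mul_left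
      (by rw [mul_zero]; exact (hv _).1.trans (hv _).2) hK
    split_ifs with hy
    · have := p0 z
      have k := d0 (z - y) y hy
      rw [sub_add_cancel] at k
      rw [abs_of_nonneg (div_nonneg (mul_nonneg (n0 _) (hv _).1) (by positivity)),
        div_le_iff₀ (by positivity)]
      linarith [mul_le_mul k (hv (z - y)).2 (hv _).1 (by positivity)]
    · simpa using w0
  · refine HasSum.congr_fun ((hs_sub y ((sc (x + y)).sub sW)).div_const (4 * K)) fun z => ?_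
    have := (p0 z).ne'
    rw [if_pos hy, add_assoc, add_sub_cancel]
    field_simp

end Grp

theorem LFCT.tri {α β γ : Type} {a : α → ℝ} {b : β → ℝ} {c : γ → ℝ} {n : α → γ → ℝ}
    {n' : β → γ → ℝ} {N : ℕ} {δ : ℝ} (h : LFCT a b c (fun _ _ => 1) n n' N δ) (h1 : 1 ≤ N) :
    ∃ S ≤ 1 + δ, HasSum (fun q : α × β × γ =>
      a q.1 * (b q.2.1 * c q.2.2) * (n q.1 q.2.2 * n' q.2.1 q.2.2)) S := by
  obtain ⟨S, k1, k2⟩ := h 1 1 1 h1 h1 h1 (fun _ _ => false) (fun _ _ => true) fun _ _ => true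
  simp only [pat_one] at k2
  refine ⟨S, by linarith [(abs_le.1 k1).2], HasSum.congr_fun (((Equiv.funUnique (Fin 1) α).prodCongr
    ((Equiv.funUnique (Fin 1) β).prodCongr (Equiv.funUnique (Fin 1) γ))).symm.hasSum_iff.2 k2)
    fun q => ?_⟩
  simp [pt2]

variable {ι : Type} [Fintype ι] [DecidableEq ι] {H : Matrix ι ι ℝ}

/-- a Gaussian weight normalised by the volume -/
def nb (a : ℝ) (H : Matrix ι ι ℝ) (c : ι → ℝ) (z : ι → ℤ) : ℝ := gs (a • H) (toR z - c) / vol (a • H)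

theorem nb_pos (hH : H.PosDef) {a : ℝ} (ha : 0 < a) (c : ι → ℝ) (z : ι → ℤ) : 0 < nb a H c z :=
  div_pos (gs_pos _ _) (vol_pos (hH.smul ha))

theorem hasSum_nb (hH : H.PosDef) {a : ℝ} (ha : 0 < a) (c : ι → ℝ) :
    HasSum (nb a H c) (th (a • H) c / vol (a • H)) := (hasSum_th (hH.smul ha) c).div_const _

theorem gl_eq (hH : H.PosDef) {a : ℝ} (ha : 0 < a) (c : ι → ℝ) :
    gl (a • H) c = fun z => nb a H c z / (th (a • H) c / vol (a • H)) := funext fun z => by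
  rw [nb, div_div_div_cancel_right₀ (vol_pos (hH.smul ha)).ne', gl]

theorem sm_near (hH : H.PosDef) {a Λ δ : ℝ} (ha : 0 < a) (hΛ : a ≤ Λ)
    (hs : th (Λ • H)⁻¹ 0 ≤ 1 + δ) (x : ι → ℝ) : |th (a • H) x / vol (a • H) - 1| ≤ δ := by
  have p := vol_pos (hH.smul ha)
  have k := th_inv_mono (hH.smul ha) (hH.smul (ha.trans_le hΛ)) (fun y => by
    rw [qq_smul_mat, qq_smul_mat]
    exact mul_le_mul_of_nonneg_right hΛ (qq_nonneg hH.posSemidef y)) 0
  rw [div_sub_one p.ne', abs_div, abs_of_pos p, div_le_iff₀ p, mul_comm]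
  exact (abs_th_sub_vol (hH.smul ha) x).trans (mul_le_mul_of_nonneg_left (by linarith) p.le)

theorem sm_bd (hH : H.PosDef) {a Λ : ℝ} (ha : 0 < a) (hΛ : a ≤ Λ)
    (hs : th (Λ • H)⁻¹ 0 ≤ 1 + 1 / 10) (x : ι → ℝ) :
    9 / 10 * vol (a • H) ≤ th (a • H) x ∧ th (a • H) x ≤ 11 / 10 * vol (a • H) := by
  obtain ⟨k1, k2⟩ := abs_le.1 (sm_near hH ha hΛ hs x)
  have p := vol_pos (hH.smul ha)
  exact ⟨(le_div_iff₀ p).1 (by linarith), (div_le_iff₀ p).1 (by linarith)⟩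

theorem sm_two (hH : H.PosDef) {a Λ : ℝ} (ha : 0 < a) (hΛ : a ≤ Λ)
    (hs : th (Λ • H)⁻¹ 0 ≤ 1 + 1 / 10) (x : ι → ℝ) : th (a • H) 0 ≤ 2 * th (a • H) x := by
  linarith [(sm_bd hH ha hΛ hs x).1, (sm_bd hH ha hΛ hs 0).2, vol_pos (hH.smul ha)]

theorem qq_shift (hH : H.PosDef) {c K : ℝ} (h0 : 0 < 1 - c) (hK : c ≤ K * (1 - c))
    (u d : ι → ℝ) : c * qq H (u + d) ≤ qq H u + K * qq H d := by
  have h4 := qq_nonneg hH.posSemidef ((1 - c) • u - c • d)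
  have h5 : bb H ((1 - c) • u) (c • d) = (1 - c) * c * bb H u d := by
    simp only [bb, mulVec_smul, dotProduct_smul, smul_dotProduct, smul_eq_mul]
    ring
  rw [qq_sub hH.1, qq_smul, qq_smul, h5] at h4
  rw [qq_add hH.1]
  refine le_of_mul_le_mul_left ?_ h0
  nlinarith [mul_le_mul_of_nonneg_right hK (qq_nonneg hH.posSemidef d)]

theorem vol_two (hH : H.PosDef) {c : ℝ} (hc : 0 < c) :
    vol ((2 : ℝ) • c • H) * vol ((c / 2) • H) = vol (c • H) * vol (c • H) := by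
  rw [show (c / 2) • H = (2 : ℝ)⁻¹ • c • H by rw [smul_smul]; congr 1; ring,
    vol_smul two_pos, vol_smul (c := 2⁻¹) (by norm_num), Real.sqrt_inv, inv_inv, mul_mul_mul_comm,
    ← mul_pow, inv_mul_cancel₀ (by positivity), one_pow, one_mul]

/-- the law of the sum, normalised by the volume -/
theorem conv_nb (hH : H.PosDef) {c Λ : ℝ} (hc : 0 < c) (hΛ : 2 * c ≤ Λ)
    (hs : th (Λ • H)⁻¹ 0 ≤ 1 + 1 / 10) (cx cy : ι → ℝ) {f : (ι → ℤ) → ℝ} {M : ℝ}
    (hf : ∀ z, 0 ≤ f z ∧ f z ≤ M) :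
    ∑' p : (ι → ℤ) × (ι → ℤ), gl (c • H) cx p.1 * gl (c • H) cy p.2 * f (p.1 + p.2) ≤
      2 * ∑' z, nb (c / 2) H (cx + cy) z * f z := by
  have hc' := hH.smul hc
  refine (conv_gl hc' hc' hc' (fun _ => le_rfl) (fun _ => le_rfl) cx cy hf).trans ?_
  have p2 := vol_pos (hH.smul (half_pos hc))
  have e : ∀ z, gs ((1 / 2 : ℝ) • c • H) (toR z - (cx + cy)) * f z =
      vol ((c / 2) • H) * (nb (c / 2) H (cx + cy) z * f z) := fun z => by
    rw [nb, smul_smul, show 1 / 2 * c = c / 2 by ring]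
    field_simp
  simp only [e]
  rw [tsum_mul_left, ← mul_assoc]
  refine mul_le_mul_of_nonneg_right ?_
    (tsum_nonneg fun z => mul_nonneg (nb_pos hH (half_pos hc) _ _).le (hf z).1)
  have k1 := (sm_bd hH hc (by linarith) hs cx).1
  have k2 := (sm_bd hH hc (by linarith) hs cy).1
  have k3 := (sm_bd hH (mul_pos two_pos hc) hΛ hs 0).2
  rw [← smul_smul] at k3
  have p := vol_pos hc'
  rw [div_mul_eq_mul_div, div_le_iff₀ (mul_pos (th_pos hc' _) (th_pos hc' _))]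
  have k4 := mul_le_mul k1 k2 (by positivity) (th_nonneg _ _)
  have k5 := mul_le_mul_of_nonneg_right k3 p2.le
  rw [mul_assoc, vol_two hH hc] at k5
  nlinarith [mul_pos p p]

end

end Vale.Agent.P057KR
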