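import Vale.Agent.P057KR.Kmp
import Vale.Agent.P057CV.Ker

/-! Relative Kelley-Meka step in one fibre: the two auxiliary masses. -/

set_option linter.all false

open Finset Filter Topology Matrix
open scoped BigOperators Real

namespace Vale.Agent.P057KR

open Vale.Agent.P057FT Vale.Agent.P057HU Vale.Agent.P057G Vale.Agent.P267.H775

noncomputable section

variable {ι : Type} [Fintype ι] [DecidableEq ι] {H : Matrix ι ι ℝ}

theorem exp_quarter : Real.exp (1 / 4) * Real.exp (1 / 4) ≤ 2 := by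
  rw [← Real.exp_add]
  exact le_trans (le_of_eq (by norm_num)) exp_half_le

theorem st_bd (hH : H.PosDef) {c β : ℝ} (h0 : 0 < 1 - c) (h1 : 1 - c ≤ 1 / 2)
    (hD : (1 - c) * Fintype.card ι ≤ 1 / 4) (hβ : c ≤ β / 2 * (1 - c) * (1 - c)) (β0 : 0 < β)
    {cx cy : ι → ℝ} (f0 : th H 0 ≤ 2 * th H cy) {w χ : (ι → ℤ) → ℝ} (w0 : ∀ x, 0 ≤ w x)
    (χ0 : ∀ x, 0 ≤ χ x) {N : ℕ} (h : LFCT (gl (c • H) cx) (gl ((c * β / 2) • H) 0) (gl (c • H) cy)
      (fun _ _ => 1) (fun a τ => χ (a + τ)) (fun a τ => w (τ - a)) N 1) (hN : 1 ≤ N) :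
    ∃ S ≤ 8, HasSum (fun q : (ι → ℤ) × (ι → ℤ) × (ι → ℤ) => gl (c • H) cx q.1 *
      gl ((1 / 2 : ℝ) • β • H) 0 q.2.1 *
        (1 * (gl H cy q.2.2 * (w q.2.2 * χ (q.1 + q.2.1 + q.2.2))))) S := by
  obtain ⟨S, k1, k2⟩ := h.tri hN
  have c0 : 0 < c := by linarith
  have hc := hH.smul c0
  have hb : ((1 / 2 : ℝ) • β • H).PosDef := (hH.smul β0).smul (by norm_num)
  have e1 : (c * β / 2) • H = c • (1 / 2 : ℝ) • β • H := by
    rw [smul_smul, smul_smul]; congr 1; ring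
  have k3 := ((⟨fun q => (q.1, q.2.1, q.2.2 + q.2.1), fun q => (q.1, q.2.1, q.2.2 - q.2.1),
    fun q => by simp, fun q => by simp⟩ : (ι → ℤ) × (ι → ℤ) × (ι → ℤ) ≃ _).hasSum_iff.2 k2).mul_left 4
  have key : ∀ a t, gl ((1 / 2 : ℝ) • β • H) 0 a * gl H cy t ≤
      4 * (gl ((c * β / 2) • H) 0 a * gl (c • H) cy (t + a)) := fun a t => by
    have t1 := th_wide hb h0.le h1 hD 0
    have t2 := (th_wide hH h0.le h1 hD cy).trans (mul_le_mul_of_nonneg_left f0 (Real.exp_pos _).le)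
    have t3 := mul_le_mul t1 t2 (th_nonneg _ _) (mul_pos (Real.exp_pos _) (th_pos hb _)).le
    have g1 : gs ((1 / 2 : ℝ) • β • H) (toR a - 0) * gs H (toR t - cy) ≤
        gs (c • (1 / 2 : ℝ) • β • H) (toR a - 0) * gs (c • H) (toR (t + a) - cy) := by
      have := qq_shift hH h0 hβ (toR t - cy) (toR a)
      rw [toR_add', add_sub_right_comm]
      unfold gs
      rw [← Real.exp_add, ← Real.exp_add]
      simp only [qq_smul_mat, sub_zero]
      exact Real.exp_le_exp.2 (by linarith [mul_le_mul_of_nonneg_left this Real.pi_pos.le])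
    have p := mul_pos (th_pos hb 0) (th_pos hH cy)
    rw [e1, gl, gl, gl, gl, div_mul_div_comm, div_mul_div_comm, ← mul_div_assoc,
      div_le_div_iff₀ p (mul_pos (th_pos (hb.smul c0) _) (th_pos hc _))]
    have q := mul_pos (gs_pos (c • (1 / 2 : ℝ) • β • H) (toR a - 0))
      (gs_pos (c • H) (toR (t + a) - cy))
    refine (mul_le_mul g1 t3 (mul_nonneg (th_nonneg _ _) (th_nonneg _ _)) q.le).trans ?_
    linarith [mul_le_mul_of_nonneg_left exp_quarter (mul_pos q p).le]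
  have le : ∀ q : (ι → ℤ) × (ι → ℤ) × (ι → ℤ), gl (c • H) cx q.1 *
      gl ((1 / 2 : ℝ) • β • H) 0 q.2.1 *
        (1 * (gl H cy q.2.2 * (w q.2.2 * χ (q.1 + q.2.1 + q.2.2)))) ≤ 4 * (gl (c • H) cx q.1 *
      (gl ((c * β / 2) • H) 0 q.2.1 * gl (c • H) cy (q.2.2 + q.2.1)) *
        (χ (q.1 + (q.2.2 + q.2.1)) * w (q.2.2 + q.2.1 - q.2.1))) := fun q => by
    rw [add_sub_cancel_right, add_comm q.2.2 q.2.1, ← add_assoc, add_comm q.2.1 q.2.2]
    linarith [mul_le_mul_of_nonneg_left (key q.2.1 q.2.2) (mul_nonneg (gl_pos hc cx q.1).le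
      (mul_nonneg (w0 q.2.2) (χ0 (q.1 + q.2.1 + q.2.2))))]
  have sm := k3.summable.of_nonneg_of_le (fun q => mul_nonneg (mul_pos (gl_pos hc _ _)
    (gl_pos hb _ _)).le (mul_nonneg zero_le_one (mul_nonneg (gl_pos hH _ _).le
      (mul_nonneg (w0 _) (χ0 _))))) le
  exact ⟨_, (hasSum_le le sm.hasSum k3).trans (by linarith), sm.hasSum⟩

theorem avg_bd {α : Type} {b f : α → ℝ} {M : ℝ} (hb : HasSum b 1) (b0 : ∀ x, 0 ≤ b x)
    (hf : ∀ x, 0 ≤ f x ∧ f x ≤ M) : HasSum (fun x => b x * f x) (∑' x, b x * f x) ∧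
      0 ≤ ∑' x, b x * f x ∧ ∑' x, b x * f x ≤ M := by
  have h := (summable_mul_real hb.summable b0 fun x =>
    (abs_of_nonneg (hf x).1).trans_le (hf x).2).hasSum
  refine ⟨h, h.nonneg fun x => mul_nonneg (b0 x) (hf x).1, ?_⟩
  simpa using hasSum_le (fun x => mul_le_mul_of_nonneg_left (hf x).2 (b0 x)) h (hb.mul_right M)

theorem mom_bd (hH : H.PosDef) {c β γ Λ δ M : ℝ} (h0 : 0 < 1 - c) (h1 : 1 - c ≤ 1 / 2)
    (hD : (1 - c) * Fintype.card ι ≤ 1 / 4) (β0 : 0 < β) (γ1 : 1 ≤ γ) (hΛ : 2 ≤ Λ)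
    (hs : th (Λ • H)⁻¹ 0 ≤ 1 + 1 / 10) {cx cy : ι → ℝ} {a0 : ι → ℤ}
    (ha : 16 * (γ * qq H (toR a0 - cx)) ≤ 1 - c) {w χ : (ι → ℤ) → ℝ}
    (hw : ∀ x, 0 ≤ w x ∧ w x ≤ M) (hχ : ∀ x, 0 ≤ χ x ∧ χ x ≤ M) {N : ℕ}
    (L1 : LFCT (gl (c • H) cx) (gl (β • H) 0) (gl (c • H) cy) (fun _ _ => 1)
      (fun a τ => χ (a + τ)) (fun a τ => w (τ - a)) N δ) (hδ : δ ≤ 1)
    (L3 : LFCT (gl ((c * γ) • H) cx) (gl (β • H) 0) (gl ((c * c / 2) • H) cy) (fun _ _ => 1)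
      (fun a τ => χ (a + τ)) (fun a τ => w (τ - a)) N 1) (hN : 4 ≤ N) :
    ∃ S ≤ 5000, HasSum (fun p : (ι → ℤ) × (ι → ℤ) => gl (c • H) cx p.1 * gl (c • H) cy p.2 *
      ((∑' x, gl (γ • H) 0 x * χ (p.1 + p.2 + x)) * ∑' a, gl (β • H) 0 a * w (p.2 - a)) ^ 2) S := by
  have c0 : 0 < c := by linarith
  have hc := hH.smul c0
  have hb := hH.smul β0
  have hγ := hH.smul (show 0 < γ by linarith)
  have hγ' := hH.smul (show 0 < c * γ by positivity)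
  have hc2 := hH.smul (half_pos c0)
  have gp : ∀ {G : Matrix ι ι ℝ}, G.PosDef → ∀ c x, 0 ≤ gl G c x := fun h c x => (gl_pos h c x).le
  have u1 := fun z => avg_bd (hasSum_gl hγ 0) (gp hγ 0) fun x => hχ (z + x)
  have u2 := fun z => avg_bd (hasSum_gl hb 0) (gp hb 0) fun x => hw (z - x)
  have u3 := fun z => avg_bd (hasSum_gl hγ' cx) (gp hγ' cx) fun x => hχ (x + z)
  have u4 := fun z => avg_bd (hasSum_gl hc cx) (gp hc cx) fun x => hχ (x + z)
  obtain ⟨S1, a1, a2⟩ := L1.mom (i := 0) (j := 4) (by omega) hN (by omega) (fun z => (u4 z).1)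
    (fun z => (u2 z).1) (fun x z => mul_nonneg (gp hc _ _) (hχ _).1)
    fun x z => mul_nonneg (gp hb _ _) (hw _).1
  obtain ⟨S3, b1, b2⟩ := L3.mom (i := 4) (j := 0) hN (by omega) (by omega) (fun z => (u3 z).1)
    (fun z => (u2 z).1) (fun x z => mul_nonneg (gp hγ' _ _) (hχ _).1)
    fun x z => mul_nonneg (gp hb _ _) (hw _).1
  simp only [pow_zero, one_mul, mul_one] at a2 b2
  have k1 : ∀ z, ∑' x, gl (γ • H) 0 x * χ (z + x) ≤
      4 * ∑' x, gl ((c * γ) • H) cx x * χ (x + (z - a0)) := fun z =>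
    hasSum_le (fun x => by
      have := dom_gl hγ h0 h1 hD (c0 := 0) (c2 := cx) (by linarith [th_nonneg (γ • H) 0]) x a0
        (by rwa [qq_smul_mat])
      rw [zero_add, smul_smul] at this
      rw [add_add_sub_cancel, add_comm x z, ← mul_assoc]
      exact mul_le_mul_of_nonneg_right this (hχ _).1) (u1 z).1
      ((hs_add a0 (u3 (z - a0)).1).mul_left 4)
  have k2 : ∀ z, nb (c / 2) H (cx + cy) z ≤ 5 * gl ((c * c / 2) • H) cy (z - a0) := fun z => by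
    have := dom_gl hc2 h0 h1 hD (c0 := cx + cy) (c2 := -cx)
      (sm_two hH (half_pos c0) (by linarith) hs _) z (-a0) (by
        rw [toR_neg, neg_sub_neg, ← qq_neg, neg_sub, qq_smul_mat]
        nlinarith [qq_nonneg hH.posSemidef (toR a0 - cx)])
    rw [add_neg_cancel_comm, smul_smul, ← mul_div_assoc, ← sub_eq_add_neg,
      gl_eq hH (half_pos c0), div_le_iff₀ (div_pos (th_pos hc2 _) (vol_pos hc2))] at this
    have k := (div_le_iff₀ (vol_pos hc2)).2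
      (sm_bd hH (half_pos c0) (by linarith) hs (cx + cy)).2
    have q := gp (hH.smul (show 0 < c * c / 2 by positivity)) cy (z - a0)
    nlinarith
  generalize hu : (fun z => ∑' x, gl (γ • H) 0 x * χ (z + x)) = u
  generalize hΩ : (fun z => ∑' x, gl (β • H) 0 x * w (z - x)) = Ω
  simp only [fun z => congrFun hu z, fun z => congrFun hΩ z] at u1 u2 a2 k1 ⊢
  have sp := hs_mul (hasSum_gl hc cx) (hasSum_gl hc cy) (gp hc _) (gp hc _)
  have p0 : ∀ p : (ι → ℤ) × (ι → ℤ), 0 ≤ gl (c • H) cx p.1 * gl (c • H) cy p.2 := fun p =>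
    mul_nonneg (gp hc _ _) (gp hc _ _)
  have f4 : ∀ z, 0 ≤ u z ^ 4 ∧ u z ^ 4 ≤ M ^ 4 := fun z =>
    ⟨by positivity, pow_le_pow_left₀ (u1 z).2.1 (u1 z).2.2 4⟩
  have s1 := (summable_mul_real sp.summable p0 (C := (M * M) ^ 2) (f := fun p =>
    (u (p.1 + p.2) * Ω p.2) ^ 2) fun p => (abs_of_nonneg (sq_nonneg _)).trans_le
      (pow_le_pow_left₀ (mul_nonneg (u1 _).2.1 (u2 _).2.1) (mul_le_mul (u1 _).2.2 (u2 _).2.2
        (u2 _).2.1 ((hw 0).1.trans (hw 0).2)) 2)).hasSum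
  have s2 := (summable_mul_real sp.summable p0 fun p =>
    (abs_of_nonneg (f4 (p.1 + p.2)).1).trans_le (f4 _).2).hasSum
  have s3 := hs_mul (hasSum_gl hc cx) a2 (gp hc _) fun z => mul_nonneg (gp hc _ _) (by positivity)
  have s4 := hasSum_le (fun z => ?_) (summable_mul_real (hasSum_nb hH (half_pos c0) (cx + cy)).summable
    (fun z => (nb_pos hH (half_pos c0) _ z).le) fun z =>
      (abs_of_nonneg (f4 z).1).trans_le (f4 z).2).hasSum ((hs_sub a0 b2).mul_left 1280)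
  · refine ⟨_, (hasSum_le (fun p => ?_) s1 ((s2.add s3).div_const 2)).trans ?_, s1⟩
    · nlinarith [mul_nonneg (p0 p) (sq_nonneg (u (p.1 + p.2) ^ 2 - Ω p.2 ^ 2))]
    · linarith [conv_nb hH c0 (by linarith) hs cx cy f4]
  · have k3 := pow_le_pow_left₀ (u1 z).2.1 (k1 z) 4
    refine (mul_le_mul (k2 z) k3 (f4 z).1 ((nb_pos hH (half_pos c0) _ z).le.trans (k2 z))).trans_eq ?_
    ring

theorem Out.pad {N : (ι → ℤ) → ℝ} {ρ X ε lam W : ℝ} {b0 b1 b2 v F χ : (ι → ℤ) → ℝ}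
    {A1 A2 : Finset (ι → ℤ)} {r : ℕ} {θ : Fin r → ι → ℝ}
    (h : Out N ρ X ε lam W b0 b1 b2 v F χ A1 A2 θ) :
    ∃ θ' : Fin ⌊X ^ 36⌋₊ → ι → ℝ, Out N ρ X ε lam W b0 b1 b2 v F χ A1 A2 θ' := by
  have k : r ≤ ⌊X ^ 36⌋₊ := Nat.le_floor h.rk
  refine ⟨fun i => if hi : i.1 < r then θ ⟨i, hi⟩ else 0,
    { h with rk := Nat.floor_le (by positivity), big := fun x hx hi => h.big x hx fun i => ?_ }⟩
  simpa using hi ⟨i, i.2.trans_le k⟩

end

end Vale.Agent.P057KR
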