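import Vale.Agent.P057KR.Kmq

/-! Relative Kelley-Meka step in one fibre, from a signed excess to a set of base points. -/

set_option linter.all false

open Finset Filter Topology Matrix
open scoped BigOperators Real

namespace Vale.Agent.P057KR

open Vale.Agent.P057FT Vale.Agent.P057HU Vale.Agent.P057G Vale.Agent.P267.H775

noncomputable section

theorem num_36 {Y : ℝ} (hY : 3 * (Nat.factorial 37 : ℝ) ≤ Y) : 3 * Y ^ 36 ≤ Real.exp Y := by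
  have p : (0 : ℝ) < Nat.factorial 37 := Nat.cast_pos.2 (Nat.factorial_pos _)
  have h := Real.pow_div_factorial_le_exp Y (by linarith) 37
  rw [div_le_iff₀ p, pow_succ] at h
  refine le_of_mul_le_mul_right (le_trans ?_ h) p
  linarith [mul_le_mul_of_nonneg_left hY (show 0 ≤ Y ^ 36 by positivity)]

theorem num_eps {Y ε : ℝ} (hε : 0 < ε) (h : 1000 ≤ ε * Y) : Real.exp (-Y) ≤ ε / 1000 := by
  rw [Real.exp_neg, inv_le_iff_one_le_mul₀ (Real.exp_pos _)]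
  nlinarith [Real.add_one_le_exp Y]

theorem num_mix {K y m lam SF SC W SU : ℝ} (hK : 1 ≤ K) (hy : 128 * K ^ 5 ≤ y) (hm : 1 / 2 ≤ m)
    (l1 : 1 ≤ K * lam) (l2 : lam ≤ K) (ex : 1 ≤ K ^ 2 * (SF - lam * SC)) (c0 : 0 ≤ SC)
    (fc : SF ≤ K * SC) (mx : m * |SC - W * SU| ≤ 32 * K ^ 2 * y⁻¹) (u0 : 0 ≤ SU) (u1 : SU ≤ K)
    (w0 : 0 ≤ W) (w1 : m * W ≤ 8 * K) :
    y⁻¹ ≤ m * SU ∧ y⁻¹ ≤ lam * W ∧ y⁻¹ ≤ W ∧ lam * W * (m * SU) ≤ m * SF := by
  have K0 : 0 < K := by linarith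
  have y0 : 0 < y := lt_of_lt_of_le (by positivity) hy
  have l0 : 0 < lam := (mul_pos_iff_of_pos_left K0).1 (by linarith)
  have k0 : K ^ 5 * y⁻¹ ≤ 1 / 128 := by
    rw [← div_eq_mul_inv, div_le_iff₀ y0]; linarith
  have i0 := inv_pos.2 y0
  generalize y⁻¹ = e at *
  have k0' : K ^ 4 * e ≤ 1 / 128 :=
    (mul_le_mul_of_nonneg_right (pow_le_pow_right₀ hK (by norm_num)) i0.le).trans k0
  have k1 : |SC - W * SU| ≤ 64 * K ^ 2 * e := by
    linarith [mul_le_mul_of_nonneg_right hm (abs_nonneg (SC - W * SU))]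
  obtain ⟨k2, k3⟩ := abs_le.1 k1
  have w2 : W ≤ 16 * K := by linarith [mul_le_mul_of_nonneg_right hm w0]
  have k4 : 1 / 2 ≤ K ^ 3 * (W * SU) := by
    linarith [mul_le_mul_of_nonneg_left fc (sq_nonneg K), mul_nonneg (sq_nonneg K)
      (mul_nonneg l0.le c0), mul_le_mul_of_nonneg_left k3 (pow_pos K0 3).le]
  have k5 : 1 / 2 ≤ K ^ 4 * W := by
    linarith [mul_le_mul_of_nonneg_left u1 (mul_nonneg (pow_pos K0 3).le w0)]
  have k6 : 1 / 32 ≤ K ^ 4 * SU := by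
    linarith [mul_le_mul_of_nonneg_left w2 (mul_nonneg (pow_pos K0 3).le u0)]
  refine ⟨le_of_mul_le_mul_left ?_ (pow_pos K0 4), le_of_mul_le_mul_left ?_ (pow_pos K0 5),
    le_of_mul_le_mul_left (by linarith) (pow_pos K0 4), ?_⟩
  · linarith [mul_le_mul_of_nonneg_right hm (mul_nonneg (pow_pos K0 4).le u0)]
  · linarith [mul_le_mul_of_nonneg_left l1 (mul_nonneg (pow_pos K0 4).le w0)]
  · have k7 : lam * (W * SU) ≤ SF := by
      refine le_of_mul_le_mul_left ?_ (pow_pos K0 2)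
      linarith [mul_le_mul_of_nonneg_left k2 (mul_pos (pow_pos K0 2) l0).le,
        mul_le_mul_of_nonneg_left l2 (mul_pos (pow_pos K0 4) i0).le]
    linarith [mul_le_mul_of_nonneg_left k7 (show 0 ≤ m by linarith)]

theorem num_eta {Y ε D r M : ℝ} (hY : 1000 ≤ Y) (hε : Real.exp (-Y) ≤ ε) (hD : D ≤ Real.exp Y)
    (hr : r ≤ Real.exp Y) (hM : M ≤ Real.exp (Real.exp Y)) :
    Real.exp (D + r - Real.exp Y ^ 2) * (1 + Real.exp Y * M) ≤ ε := by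
  have k1 := Real.add_one_le_exp Y
  have k2 : 1 + Real.exp Y * M ≤ Real.exp (1 + (Y + Real.exp Y)) := by
    rw [Real.exp_add, Real.exp_add]
    have k3 := mul_le_mul_of_nonneg_left hM (Real.exp_pos Y).le
    have k4 : 1 ≤ Real.exp Y * Real.exp (Real.exp Y) :=
      one_le_mul_of_one_le_of_one_le (by linarith) (Real.one_le_exp (by linarith))
    nlinarith [Real.add_one_le_exp 1]
  refine (mul_le_mul_of_nonneg_left k2 (Real.exp_pos _).le).trans (le_trans ?_ hε)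
  rw [← Real.exp_add]
  exact Real.exp_le_exp.2 (by nlinarith)

theorem num_fin {Y σ a S t b : ℝ} {r : ℕ} (hY : 1000 ≤ Y) (h36 : 3 * Y ^ 36 ≤ Real.exp Y)
    (hr : (r : ℝ) ≤ Y ^ 36) (σ0 : 0 ≤ σ) (hσ : σ ≤ Real.exp (Y ^ 8)) (t0 : 0 ≤ t)
    (ht : t ≤ (σ * (r + 1)) ^ r * 2) (ha : Real.exp (-Y) * Real.exp (-Y) ≤ a) (hS : S ≤ 5000)
    (b0 : 0 ≤ b) (h : a ^ 2 ≤ (4 * Real.exp (Y ^ 6) ^ 2 * Real.exp Y ^ 2 * t) ^ 2 * S * b) :
    2 * Real.exp (-Y ^ 45) ≤ b := by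
  have y1 : 1 ≤ Y := by linarith
  have p : ∀ {i j : ℕ}, i ≤ j → Y ^ i ≤ Y ^ j := fun h => pow_le_pow_right₀ y1 h
  have k1 : σ * (r + 1) ≤ Real.exp (2 * Y ^ 8) := by
    rw [two_mul, Real.exp_add]
    refine mul_le_mul hσ (le_trans ?_ (Real.exp_le_exp.2 (show Y ≤ Y ^ 8 by simpa using p (i := 1) (by norm_num)))) (by positivity) (by positivity)
    linarith [one_le_pow₀ (n := 36) y1]
  have k2 : t ≤ Real.exp (2 * Y ^ 44) * 2 := by
    refine ht.trans (mul_le_mul_of_nonneg_right ((pow_le_pow_left₀ (by positivity) k1 r).trans ?_)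
      zero_le_two)
    rw [← Real.exp_nat_mul]
    exact Real.exp_le_exp.2 (by
      linarith [mul_le_mul_of_nonneg_right hr (show 0 ≤ 2 * Y ^ 8 by positivity)])
  have k3 : (4 * Real.exp (Y ^ 6) ^ 2 * Real.exp Y ^ 2 * t) ^ 2 * S ≤
      (4 * Real.exp (Y ^ 6) ^ 2 * Real.exp Y ^ 2 * (Real.exp (2 * Y ^ 44) * 2)) ^ 2 * 5000 := by
    rcases le_total 0 S with s | s
    · gcongr
    · exact (mul_nonpos_of_nonneg_of_nonpos (sq_nonneg _) s).trans (by positivity)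
  have k4 := (pow_le_pow_left₀ (by positivity) ha 2).trans
    (h.trans (mul_le_mul_of_nonneg_right k3 b0))
  refine le_of_mul_le_mul_left (le_trans ?_ k4) (by positivity)
  have k5 : (640000 : ℝ) ≤ Real.exp (Y ^ 2) := by nlinarith [Real.add_one_le_exp (Y ^ 2)]
  calc _ = 640000 * (Real.exp (Y ^ 6) ^ 4 * Real.exp Y ^ 4 * Real.exp (2 * Y ^ 44) ^ 2 *
        Real.exp (-Y ^ 45)) := by ring
    _ ≤ Real.exp (Y ^ 2) * _ := mul_le_mul_of_nonneg_right k5 (by positivity)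
    _ ≤ _ := by
      simp only [← Real.exp_nat_mul, ← Real.exp_add]
      refine Real.exp_le_exp.2 ?_
      have q1 := p (show 2 ≤ 44 by norm_num)
      have q2 := p (show 6 ≤ 44 by norm_num)
      have q3 : Y ≤ Y ^ 44 := by simpa using p (i := 1) (by norm_num)
      have q4 : 100 * Y ^ 44 ≤ Y ^ 45 := pw_le (show 100 ≤ Y by linarith) 44
      push_cast
      linarith

variable {ι : Type} [Fintype ι] [DecidableEq ι]

/-- the excess at the base point z against the kernel of a Bohr set -/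
def exc {r : ℕ} (γ σ : ℝ) (H : Matrix ι ι ℝ) (θ : Fin r → ι → ℝ) (f : (ι → ℤ) → ℝ) (z : ι → ℤ) : ℝ :=
  ∑' x, nb γ H 0 x * (th (σ ^ 2 • (1 : Matrix (Fin r) (Fin r) ℝ)) (Matrix.of θ *ᵥ toR x) /
    vol (σ ^ 2 • (1 : Matrix (Fin r) (Fin r) ℝ))) * f (z + x)

theorem exc_ge {r : ℕ} {γ σ κ : ℝ} {H : Matrix ι ι ℝ} (hH : H.PosDef) (γ0 : 0 < γ) (σ0 : 0 < σ)
    (κ0 : 0 ≤ κ) (θ : Fin r → ι → ℝ) (f : (ι → ℤ) → ℝ) (z : ι → ℤ)
    (h : κ * ∑' x, ker (γ • H) (σ ^ 2 • 1) (Matrix.of θ) x ≤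
      ∑' x, ker (γ • H) (σ ^ 2 • 1) (Matrix.of θ) x * f (z + x)) : κ ≤ exc γ σ H θ f z := by
  have hB : (σ ^ 2 • (1 : Matrix (Fin r) (Fin r) ℝ)).PosDef := PosDef.one.smul (by positivity)
  have h3 := hH.smul γ0
  have k := (mul_le_mul_of_nonneg_left (vol_le_th_zero h3) (vol_pos hB).le).trans
    (fib_ge h3 hB (Matrix.of θ))
  have e : exc γ σ H θ f z = (∑' x, ker (γ • H) (σ ^ 2 • 1) (Matrix.of θ) x * f (z + x)) /
      (vol (σ ^ 2 • (1 : Matrix (Fin r) (Fin r) ℝ)) * vol (γ • H)) := by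
    rw [exc, ← tsum_div_const]
    refine tsum_congr fun x => ?_
    rw [nb, ker, sub_zero]
    ring
  rw [e, le_div_iff₀ (mul_pos (vol_pos hB) (vol_pos h3))]
  exact (mul_le_mul_of_nonneg_left k κ0).trans h

theorem num_par {Y c β D : ℝ} (hY : 1000 ≤ Y) (hc : c = 1 - Real.exp (-(2 * Y)))
    (hβ : β = Real.exp (10 * Y)) (hD : D ≤ Real.exp Y) : 0 < 1 - c ∧ 1 - c ≤ 1 / 2 ∧
    (1 - c) * D ≤ 1 / 4 ∧ 2 ≤ β ∧ (∀ q, β * q ≤ Real.exp Y ^ 2 → 16 * q ≤ 1 - c) ∧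
    c ≤ β / 2 * (1 - c) * (1 - c) ∧ 2 * Real.exp (D - Real.exp Y ^ 2) ≤ 1 / 2 ∧
    16 * Real.exp (-Y ^ 12) < Real.exp (-Y) ^ 4 := by
  have far := far_num hY hD
  obtain ⟨y, hy⟩ : ∃ y, y = Real.exp Y := ⟨_, rfl⟩
  have y0 : 1000 ≤ y := by rw [hy]; linarith [Real.add_one_le_exp Y]
  have yp : 0 < y := by linarith
  have y1 : 1 ≤ y := by linarith
  have ey : ∀ k : ℕ, Real.exp (k * Y) = y ^ k := fun k => by rw [hy, Real.exp_nat_mul]
  have e2 : 1 - c = (y ^ 2)⁻¹ := by rw [hc, sub_sub_cancel, Real.exp_neg, ← ey]; norm_num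
  have e10 : β = y ^ 10 := by rw [hβ, ← ey]; norm_num
  have i2 : (y ^ 2)⁻¹ * y ≤ 1 / 1000 := by
    rw [inv_mul_le_iff₀ (by positivity)]
    nlinarith
  have h0 : 0 < 1 - c := by rw [e2]; positivity
  have p6 : Y ≤ Y ^ 6 := le_self_pow₀ (by linarith) (by norm_num)
  refine ⟨h0, ?_, ?_, ?_, fun q hq => ?_, ?_, ?_, ?_⟩
  · rw [e2]; linarith [le_mul_of_one_le_right (inv_pos.2 (pow_pos yp 2)).le y1]
  · linarith [mul_le_mul_of_nonneg_left (hD.trans_eq hy.symm) h0.le, e2 ▸ i2]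
  · rw [e10]; linarith [le_self_pow₀ y1 (show 10 ≠ 0 by norm_num)]
  · rw [e2, ← one_div, le_div_iff₀ (by positivity)]
    rw [e10, ← hy] at hq
    refine le_of_mul_le_mul_left (a := y ^ 8) ?_ (by positivity)
    nlinarith [pow_le_pow_right₀ y1 (show 3 ≤ 8 by norm_num), pow_pos yp 2]
  · rw [e2, e10, show y ^ 10 / 2 * (y ^ 2)⁻¹ * (y ^ 2)⁻¹ = y ^ 6 / 2 by field_simp]
    linarith [le_self_pow₀ y1 (show 6 ≠ 0 by norm_num)]
  · refine far.trans ((Real.exp_le_exp.2 (neg_le_neg p6)).trans ?_)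
    rw [Real.exp_neg, ← hy, ← one_div]
    exact one_div_le_one_div_of_le two_pos (by linarith)
  · rw [← Real.exp_nat_mul]
    have k : Real.exp (-Y ^ 12) * Real.exp Y ≤ Real.exp ((4 : ℕ) * -Y) := by
      rw [← Real.exp_add]
      have := pow_le_pow_right₀ (show 1 ≤ Y by linarith) (show 7 ≤ 12 by norm_num)
      have q : 100 * Y ^ 6 ≤ Y ^ 7 := pw_le (by linarith) 6
      exact Real.exp_le_exp.2 (by push_cast; linarith)
    nlinarith [Real.exp_pos (-Y ^ 12)]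

theorem pre_km {G : Type} [AddCommGroup G] [DecidableEq G] {b b0 b0' b1 b2 U v F w χ : G → ℝ}
    {R : Finset G} {N : ℕ} {K y δ0 lam M : ℝ}
    (h : LFCT b1 b2 b0' (fun _ _ => 1) (fun a τ => χ (a + τ)) (fun a τ => w (τ - a)) N δ0)
    (h2 : 2 ≤ N) (n : ∀ t, 0 ≤ b t) (n0 : ∀ t, 0 ≤ b0 t) (p0 : ∀ t, 0 < b0' t) (p1 : ∀ t, 0 < b1 t)
    (n2 : ∀ t, 0 ≤ b2 t) (s : HasSum b 1) (s0 : HasSum b0 1) (s0' : HasSum b0' 1)
    (s1 : HasSum b1 1) (s2 : HasSum b2 1) (d0 : ∀ t, ∀ a ∈ R, b0 t ≤ 4 * b0' (t + a))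
    (d1 : ∀ x, ∀ a ∈ R, b (x + a) ≤ 4 * b1 x) (hm : 1 / 2 ≤ ∑ a ∈ R, b2 a) (hK : 1 ≤ K)
    (hy : 128 * K ^ 5 ≤ y) (l1 : 1 ≤ K * lam) (l2 : lam ≤ K) (hδ : 16 * δ0 < y⁻¹ ^ 4)
    (hU : ∀ x, 0 ≤ U x ∧ U x ≤ K) (hv : ∀ t, 0 ≤ v t ∧ v t ≤ K * w t)
    (hF : ∀ t, 0 ≤ F t ∧ F t ≤ K * χ t) (hw : ∀ x, 0 ≤ w x ∧ w x ≤ M)
    (hχ : ∀ x, 0 ≤ χ x ∧ χ x ≤ M) (ex : 1 ≤ K ^ 2 * ∑' p : G × G, b p.1 * U p.1 *
      (b0 p.2 * v p.2 * (F (p.1 + p.2) - lam * χ (p.1 + p.2)))) :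
    ∃ W SU SV, HasSum (fun t => b0 t * v t) W ∧ HasSum (fun q : G × G => b1 q.1 * b2 q.2 *
      if q.2 ∈ R then b (q.1 + q.2) * U (q.1 + q.2) / b1 q.1 else 0) SU ∧
      HasSum (fun q : G × G × G => b1 q.1 * b2 q.2.1 *
        ((if q.2.1 ∈ R then b (q.1 + q.2.1) * U (q.1 + q.2.1) / b1 q.1 else 0) *
          (b0 q.2.2 * (v q.2.2 * F (q.1 + q.2.1 + q.2.2))))) SV ∧
      y⁻¹ ≤ SU ∧ y⁻¹ ≤ lam * W ∧ y⁻¹ ≤ W ∧ lam * W * SU ≤ SV := by
  have K0 : 0 < K := by linarith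
  have y1 : 1 ≤ y := by linarith [one_le_pow₀ (n := 5) hK]
  have i1 : y⁻¹ ≤ 1 := inv_le_one_of_one_le₀ y1
  have i0 : 0 ≤ y⁻¹ := by positivity
  have δ1 : δ0 ≤ 1 := by linarith [pow_le_one₀ (n := 4) i0 i1]
  obtain ⟨sU, u0, u1⟩ := avg_bd s n hU
  have sW := (avg_bd s0 n0 fun t => And.intro (hv t).1
    ((hv t).2.trans (mul_le_mul_of_nonneg_left (hw t).2 K0.le))).1
  have sT := (avg_bd s0 n0 hw).1
  have pU := fun x => mul_nonneg (n x) (hU x).1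
  have pW := fun x => mul_nonneg (n0 x) (hv x).1
  have sm : ∀ {f : G → ℝ} {M : ℝ}, (∀ x, 0 ≤ f x ∧ f x ≤ M) →
      Summable fun p : G × G => b p.1 * U p.1 * (b0 p.2 * v p.2 * f (p.1 + p.2)) := fun hf => by
    simpa only [mul_assoc] using summable_mul_real (hs_mul sU sW pU pW).summable
      (fun p => mul_nonneg (pU _) (pW _)) fun p =>
        (abs_of_nonneg (hf (p.1 + p.2)).1).trans_le (hf _).2
  have sF := (sm fun x => And.intro (hF x).1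
    ((hF x).2.trans (mul_le_mul_of_nonneg_left (hχ x).2 K0.le))).hasSum
  have sC := (sm hχ).hasSum
  rw [(HasSum.congr_fun (sF.sub (sC.mul_left lam)) fun p => by ring).tsum_eq] at ex
  have fc := hasSum_le (fun p => (mul_le_mul_of_nonneg_left (mul_le_mul_of_nonneg_left (hF _).2
    (pW _)) (pU _)).trans_eq (by ring)) sF (sC.mul_left K)
  have mx := mix0 h h2 n n0 p0 p1 n2 s0' s1 s2 K0 d0 d1 hU hv hχ sW sU sC i0 i1 hδ
  have u2 := fun z => avg_bd s2 n2 fun x => hw (z - x)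
  obtain ⟨S1, a1, a2⟩ := h.mom (i := 0) (j := 1) (by omega) (by omega) (by omega)
    (fun z => (avg_bd s1 (fun x => (p1 x).le) fun x => hχ (x + z)).1)
    (fun z => (u2 z).1) (fun x z => mul_nonneg (p1 _).le (hχ _).1)
    fun x z => mul_nonneg (n2 _) (hw _).1
  simp only [pow_zero, one_mul, pow_one] at a2
  have wb := w_bd (fun t => (p0 t).le) n2 (fun t => (hw t).1) d0 (fun z => (u2 z).1) a2 sT
  have wt := hasSum_le (fun t => (mul_le_mul_of_nonneg_left (hv t).2 (n0 t)).trans_eq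
    (mul_left_comm _ _ _)) sW (sT.mul_left K)
  have sb : HasSum (fun a => if a ∈ R then b2 a else 0) (∑ a ∈ R, b2 a) := by
    have := hasSum_sum_of_ne_finset_zero (L := .unconditional _) (s := R)
      (f := fun z => if z ∈ R then b2 z else 0) fun z hz => if_neg hz
    rwa [sum_congr rfl fun z hz => if_pos hz] at this
  have pb : ∀ a, 0 ≤ if a ∈ R then b2 a else 0 := fun a => by split_ifs; exacts [n2 _, le_rfl]
  obtain ⟨k1, k2, k3, k4⟩ := num_mix hK hy hm l1 l2 ex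
    (sC.nonneg fun p => mul_nonneg (pU _) (mul_nonneg (pW _) (hχ _).1)) fc mx u0 u1 (sW.nonneg pW)
    (by linarith [mul_le_mul_of_nonneg_left wt (show 0 ≤ ∑ a ∈ R, b2 a by linarith),
      mul_le_mul_of_nonneg_left (wb.trans (show _ ≤ 8 by linarith)) K0.le])
  refine ⟨_, _, _, sW, HasSum.congr_fun (shear2 sb sU pb pU) fun q => ?_, HasSum.congr_fun
    (shear3 sb sF pb fun p => mul_nonneg (pU _) (mul_nonneg (pW _) (hF _).1)) fun q => ?_,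
    k1, k2, k3, k4⟩
  all_goals
    have := (p1 q.1).ne'
    split_ifs
    · field_simp
    · simp

end

end Vale.Agent.P057KR
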