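import Vale.Agent.P057KR.Kms

/-! Relative Kelley-Meka step in one fibre: the theorem. -/

set_option linter.all false

open Finset Filter Topology Matrix
open scoped BigOperators Real

namespace Vale.Agent.P057KR

open Vale.Agent.P057FT Vale.Agent.P057HU Vale.Agent.P057G Vale.Agent.P267.H775

noncomputable section

variable {ι : Type} [Fintype ι] [DecidableEq ι]

theorem ind_bd (P : Prop) [Decidable P] : (0 : ℝ) ≤ (if P then 1 else 0) ∧
    (if P then 1 else 0 : ℝ) ≤ 1 := by split_ifs <;> norm_num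

theorem post_km {H : Matrix ι ι ℝ} {cx cy : ι → ℝ} {ε Y c β γ σ lam M W S : ℝ}
    {v F w χ : (ι → ℤ) → ℝ} {A1 A2 : Finset (ι → ℤ)} {r : ℕ} {θ : Fin r → ι → ℝ}
    (o : Out (fun x => √(qq (β • H) (toR x))) (Real.exp (-(2 * Y))) Y (ε / 4) (lam * W) W
      (gl H cy) (gl (c • H) cx) (gl (β • H) 0) v F χ A1 A2 θ) (hH : H.PosDef) (hε : 0 < ε)
    (hε1 : ε ≤ 1) (hY : 1000 ≤ Y) (h36 : 3 * Y ^ 36 ≤ Real.exp Y) (he : Real.exp (-Y) ≤ ε / 1000)
    (hD : (Fintype.card ι : ℝ) ≤ Real.exp Y) (c0 : 0 < c) (β0 : 0 < β)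
    (hγ : Real.exp (3 * Y ^ 7) * β ≤ γ) (σ1 : Real.exp (2 * Y ^ 7) ≤ σ) (σ2 : σ ≤ Real.exp (Y ^ 8))
    (hM : M ≤ Real.exp (Real.exp Y)) {Λ : ℝ} (hΛ : 2 * c ≤ Λ) (hs : th (Λ • H)⁻¹ 0 ≤ 1 + 1 / 10)
    (l0 : 0 < lam) (n2 : Real.exp (-Y) ≤ lam * W) (n3 : Real.exp (-Y) ≤ W)
    (hv : ∀ x, 0 ≤ v x ∧ v x ≤ Real.exp Y * w x) (hF : ∀ x, 0 ≤ F x ∧ F x ≤ Real.exp Y * χ x)
    (hw : ∀ x, 0 ≤ w x ∧ w x ≤ M) (hχ : ∀ x, 0 ≤ χ x ∧ χ x ≤ M)
    (sW : HasSum (fun t => gl H cy t * v t) W)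
    (d0 : ∀ t, ∀ a ∈ A2, gl H cy t ≤ 4 * gl (c • H) cy (t + a)) (t3 : S ≤ 5000)
    (t4 : HasSum (fun p : (ι → ℤ) × (ι → ℤ) => gl (c • H) cx p.1 * gl (c • H) cy p.2 *
      ((∑' x, gl (γ • H) 0 x * χ (p.1 + p.2 + x)) * ∑' a, gl (β • H) 0 a * w (p.2 - a)) ^ 2) S) :
    Real.exp (-Y ^ 45) ≤ ∑' z, nb (c / 2) H (cx + cy) z *
      if ε * lam / 8 ≤ exc γ σ H θ (fun s => F s - (1 - ε) * lam * χ s) z then 1 else 0 := by
  have y1 : 1 ≤ Y := by linarith
  have p2 : 100 * Y ≤ Y ^ 7 := (mul_le_mul_of_nonneg_left (le_self_pow₀ y1 (by norm_num))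
    (by norm_num)).trans (pw_le (by linarith) 6)
  have γ0 : 0 < γ := (mul_pos (Real.exp_pos _) β0).trans_le hγ
  have hc' := hH.smul c0
  have hb := hH.smul β0
  have gp : ∀ {G : Matrix ι ι ℝ}, G.PosDef → ∀ c x, 0 ≤ gl G c x := fun h c x => (gl_pos h c x).le
  have σ0 : 1 ≤ σ := (Real.one_le_exp (by positivity)).trans σ1
  have M1 : M ≤ Real.exp Y * M :=
    le_mul_of_one_le_left ((hw 0).1.trans (hw 0).2) (Real.one_le_exp (by linarith))
  have k := o.base (G3 := γ • H) (B := σ ^ 2 • 1) (M := Real.exp Y * M) (R := Real.exp Y ^ 2)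
    (by linarith) (by linarith) l0.le (by linarith) (by
      refine le_trans ?_ (mul_le_mul (he.trans (by linarith)) n3 (by positivity) (by linarith))
      rw [← Real.exp_add]
      exact Real.exp_le_exp.2 (by linarith [pow_le_pow_right₀ y1 (show 7 ≤ 10 by norm_num)]))
    (gp hH cy) hv sW
    (fun x => ⟨(hF x).1, (hF x).2.trans (mul_le_mul_of_nonneg_left (hχ x).2 (by positivity))⟩)
    (fun x => (hF x).2) (fun x => ⟨(hχ x).1, (hχ x).2.trans M1⟩)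
    (fun x => ⟨(hw x).1, (hw x).2.trans M1⟩) (hH.smul γ0)
    (PosDef.one.smul (by positivity)) (by positivity) (fun u => by
      rw [qq_smul_mat, qq_smul_mat, ← mul_assoc, ← mul_assoc]
      refine mul_le_mul_of_nonneg_right (le_trans ?_ (mul_le_mul_of_nonneg_left hγ (sq_nonneg _)))
        (qq_nonneg hH.posSemidef u)
      rw [← mul_assoc]
      refine mul_le_mul_of_nonneg_right ?_ β0.le
      simp only [← Real.exp_nat_mul, ← Real.exp_add]
      exact Real.exp_le_exp.2 (by push_cast; linarith)) (fun u i => by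
      rw [qq_smul_mat, ← mul_assoc]
      refine mul_le_mul (le_trans ?_ (mul_le_mul_of_nonneg_left
        (pow_le_pow_left₀ (Real.exp_pos _).le σ1 2) (sq_nonneg _))) (P057CV.sq_le_qq_one u i)
        (sq_nonneg _) (by positivity)
      simp only [← Real.exp_nat_mul, ← Real.exp_add]
      exact Real.exp_le_exp.2 (by push_cast; linarith)) (Real.exp_pos _)
    (num_eta hY (he.trans (by linarith)) hD
      (by linarith [o.rk, pow_pos (show 0 < Y by linarith) 36]) hM) (gp hc' cy) (gp hc' cx)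
    (gp hb 0) (hasSum_gl hc' _).summable (hasSum_gl hc' _).summable (hasSum_gl hb _).summable d0 t4
  have tb := P057CV.th_one_inv_le (κ := Fin r) (b := r + 1) σ0 (by
    rw [Fintype.card_fin]
    exact le_self_pow₀ (by linarith [Nat.cast_nonneg (α := ℝ) r]) two_ne_zero) (by positivity)
  rw [Fintype.card_fin] at tb
  have k2 := num_fin hY h36 o.rk (by linarith) σ2 (th_nonneg _ _) tb (by
      have := mul_le_mul (he.trans (show _ ≤ ε / 8 by linarith)) n2 (by positivity) (by linarith)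
      linarith) t3
    (tsum_nonneg fun p => mul_nonneg (mul_nonneg (gp hc' _ _) (gp hc' _ _)) (ind_bd _).1) k
  have k3 := k2.trans (conv_nb hH c0 hΛ hs cx cy (M := 1) (f := fun z =>
    if ε / 4 * lam / 2 * ∑' x, ker (γ • H) (σ ^ 2 • 1) (Matrix.of θ) x ≤
      ∑' x, ker (γ • H) (σ ^ 2 • 1) (Matrix.of θ) x * (F (z + x) -
        (1 - 4 * (ε / 4)) * lam * χ (z + x)) then 1 else 0) fun z => ind_bd _)
  have sn := fun (P : (ι → ℤ) → Prop) [DecidablePred P] => summable_mul_real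
    (hasSum_nb hH (half_pos c0) (cx + cy)).summable (fun z => (nb_pos hH (half_pos c0) _ z).le)
    fun z => (abs_of_nonneg (ind_bd (P z)).1).trans_le (ind_bd _).2
  refine (le_of_mul_le_mul_left k3 two_pos).trans ((sn _).tsum_le_tsum (fun z =>
    mul_le_mul_of_nonneg_left ?_ (nb_pos hH (half_pos c0) _ z).le) (sn _))
  split_ifs with g1 g2
  · exact le_rfl
  · rw [show 4 * (ε / 4) = ε by ring, show ε / 4 * lam / 2 = ε * lam / 8 by ring] at g1
    exact (g2 (exc_ge hH γ0 (by linarith) (by positivity) θ _ z g1)).elim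
  exacts [zero_le_one, le_rfl]

theorem kms (ε : ℝ) (hε : 0 < ε) (hε1 : ε ≤ 1) : ∃ Y0 : ℝ, ∀ Y : ℝ, Y0 ≤ Y →
    ∀ (ι : Type) [Fintype ι] [DecidableEq ι] (H : Matrix ι ι ℝ) (cx cy : ι → ℝ) (N : ℕ)
      (K c β γ σ lam M : ℝ) (U v F w χ : (ι → ℤ) → ℝ), H.PosDef →
      (Fintype.card ι : ℝ) ≤ Real.exp Y → c = 1 - Real.exp (-(2 * Y)) → β = Real.exp (10 * Y) →
      Real.exp (3 * Y ^ 7) * β ≤ γ → Real.exp (2 * Y ^ 7) ≤ σ → σ ≤ Real.exp (Y ^ 8) →
      Y ^ 6 ≤ N → M ≤ Real.exp (Real.exp Y) → th ((β * γ) • H)⁻¹ 0 ≤ 1 + 1 / 10 → 1 ≤ K →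
      128 * K ^ 5 ≤ Real.exp Y → 1 ≤ K * lam → lam ≤ K → (∀ x, 0 ≤ U x ∧ U x ≤ K) →
      (∀ x, 0 ≤ v x ∧ v x ≤ K * w x) → (∀ x, 0 ≤ F x ∧ F x ≤ K * χ x) →
      (∀ x, 0 ≤ w x ∧ w x ≤ M) → (∀ x, 0 ≤ χ x ∧ χ x ≤ M) →
      LFCT (gl (c • H) cx) (gl (β • H) 0) (gl (c • H) cy) (fun _ _ => 1)
        (fun a τ => χ (a + τ)) (fun a τ => w (τ - a)) N (Real.exp (-Y ^ 12)) →
      LFCT (gl (c • H) cx) (gl ((c * β / 2) • H) 0) (gl (c • H) cy) (fun _ _ => 1)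
        (fun a τ => χ (a + τ)) (fun a τ => w (τ - a)) N 1 →
      LFCT (gl ((c * γ) • H) cx) (gl (β • H) 0) (gl ((c * c / 2) • H) cy) (fun _ _ => 1)
        (fun a τ => χ (a + τ)) (fun a τ => w (τ - a)) N 1 →
      1 ≤ K ^ 2 * ∑' p : (ι → ℤ) × (ι → ℤ), gl H cx p.1 * U p.1 *
        (gl H cy p.2 * v p.2 * (F (p.1 + p.2) - lam * χ (p.1 + p.2))) →
      ∃ θ : Fin ⌊Y ^ 36⌋₊ → ι → ℝ, Real.exp (-Y ^ 45) ≤ ∑' z, nb (c / 2) H (cx + cy) z *
        if ε * lam / 8 ≤ exc γ σ H θ (fun s => F s - (1 - ε) * lam * χ s) z then 1 else 0 := by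
  obtain ⟨X1, hA⟩ := kmg (ε / 4) (by linarith) (by linarith)
  refine ⟨max X1 (max (1000 / ε) (3 * (Nat.factorial 37 : ℝ))), fun Y hY0 ι _ _ H cx cy N K c β γ σ
    lam M U v F w χ hH hD hc hβ hγ σ1 σ2 hN hM hs hK hKY l1 l2 hU hv hF hw hχ L1 L2 L3 ex => ?_⟩
  have hY1 : 1000 ≤ ε * Y := by
    have := (le_max_left _ _).trans ((le_max_right _ _).trans hY0)
    rwa [div_le_iff₀ hε, mul_comm] at this
  have hY : 1000 ≤ Y := by nlinarith only [hY1, hε, hε1]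
  have N4 : 4 ≤ N := Nat.cast_le.1 ((le_trans (by norm_num) hY).trans
    ((le_self_pow₀ (le_trans (by norm_num) hY) (by norm_num)).trans hN))
  obtain ⟨h0, h1, hD', β2, sm, sβ, far, hδ⟩ := num_par hY hc hβ hD
  have c0 : 0 < c := by linarith only [h1]
  have β0 : 0 < β := two_pos.trans_le β2
  have βγ : β ≤ γ := (le_mul_of_one_le_left β0.le (Real.one_le_exp (by positivity))).trans hγ
  have Λ2 : 2 ≤ β * γ := by nlinarith only [β2, βγ]
  have hc' := hH.smul c0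
  have hb := hH.smul β0
  have f0 : ∀ x, th H 0 ≤ 2 * th H x := fun x => by
    simpa using sm_two hH one_pos (one_le_two.trans Λ2) hs x
  have f2 : th (β • H) 0 ≤ 2 * th (β • H) 0 := by linarith only [th_nonneg (β • H) 0]
  have gp : ∀ {G : Matrix ι ι ℝ}, G.PosDef → ∀ c x, 0 ≤ gl G c x := fun h c x => (gl_pos h c x).le
  obtain ⟨R, hR⟩ := exists_ell hb 0 (Real.exp Y ^ 2)
  have d0 : ∀ t a, qq (β • H) (toR a - 0) ≤ Real.exp Y ^ 2 →
      gl H cy t ≤ 4 * gl (c • H) cy (t + a) := fun t a ha => by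
    rw [qq_smul_mat] at ha
    have := dom_gl hH h0 h1 hD' (f0 cy) t a (sm _ ha)
    rwa [add_zero] at this
  have d1 : ∀ x, ∀ a ∈ R, gl H cx (x + a) ≤ 4 * gl (c • H) cx x := fun x a ha => by
    have k := (hR a).1 ha
    rw [qq_smul_mat, sub_zero, ← qq_neg, ← toR_neg, ← sub_zero (toR _)] at k
    have := dom_gl hH h0 h1 hD' (f0 cx) (x + a) (-a) (sm _ k)
    rwa [add_zero, add_neg_cancel_right] at this
  have hΛ := hH.smul (two_pos.trans_le Λ2)
  obtain ⟨R', hR'⟩ := exists_ell hΛ cx (Real.exp Y ^ 2)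
  obtain ⟨a0, ha0⟩ : R'.Nonempty := nonempty_of_sum_ne_zero (ne_of_gt (lt_of_lt_of_le
    (by linarith only [far]) (mass_ell hΛ (sm_two hH (two_pos.trans_le Λ2) le_rfl hs cx) hR')))
  obtain ⟨ST, t1, t2⟩ := st_bd hH h0 h1 hD' sβ β0 (f0 cy) (fun x => (hw x).1) (fun x => (hχ x).1) L2
    (by omega)
  obtain ⟨SM, t3, t4⟩ := mom_bd hH h0 h1 hD' β0 (one_le_two.trans (β2.trans βγ)) Λ2 hs
    (sm _ (by simpa only [qq_smul_mat, mul_assoc] using (hR' a0).1 ha0)) hw hχ L1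
    (Real.exp_le_one_iff.2 (neg_nonpos.2 (by positivity))) L3 N4
  obtain ⟨W, SU, SV, sW, sU, sV, n1, n2, n3, n4⟩ := pre_km L1 (by omega) (gp hH cx) (gp hH cy)
    (gl_pos hc' _) (gl_pos hc' _) (gp hb _) (hasSum_gl hH _) (hasSum_gl hH _) (hasSum_gl hc' _)
    (hasSum_gl hc' _) (hasSum_gl hb _) (fun t a ha => d0 t a ((hR a).1 ha)) d1
    (by linarith only [far, mass_ell hb f2 hR]) hK hKY l1 l2 (by rwa [← Real.exp_neg]) hU hv hF hw
    hχ ex
  rw [← Real.exp_neg] at n1 n2 n3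
  have K4 : 4 * K ≤ Real.exp Y := by
    linarith only [hK, hKY, le_self_pow₀ hK (show 5 ≠ 0 by norm_num)]
  have K1 : K ≤ Real.exp Y := by linarith only [hK, K4]
  have hv' : ∀ x, 0 ≤ v x ∧ v x ≤ Real.exp Y * w x := fun x =>
    ⟨(hv x).1, (hv x).2.trans (mul_le_mul_of_nonneg_right K1 (hw x).1)⟩
  have hF' : ∀ x, 0 ≤ F x ∧ F x ≤ Real.exp Y * χ x := fun x =>
    ⟨(hF x).1, (hF x).2.trans (mul_le_mul_of_nonneg_right K1 (hχ x).1)⟩
  obtain ⟨A1, A2, r, θ, -, b2, o⟩ := hA Y ((le_max_left _ _).trans hY0) ι H (c • H) (β • H) cy cx 0 N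
    c (lam * W) SU SV ST W v F w χ (fun a a' => if a' ∈ R then
      gl H cx (a + a') * U (a + a') / gl (c • H) cx a else 0) (fun _ _ => 1) hH hc' hb hD (f0 cy)
    (sm_two hH c0 (by linarith only [h0, Λ2]) hs cx) f2
    (by rw [hc, sub_sub_cancel]; exact Real.exp_le_exp.2 (by linarith only [hY]))
    (by rw [hc, sub_sub_cancel]) (fun y => by rw [qq_smul_mat, hβ]) (fun y => by
      rw [qq_smul_mat, qq_smul_mat, ← hβ]
      exact mul_le_mul_of_nonneg_left (mul_le_of_le_one_left (qq_nonneg hH.posSemidef y)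
        (by linarith only [h0])) β0.le)
    (fun a a' => by
      split_ifs with ha
      · refine ⟨div_nonneg (mul_nonneg (gp hH _ _) (hU _).1) (gp hc' _ _),
          (div_le_iff₀ (gl_pos hc' _ _)).2 ?_⟩
        linarith only [mul_le_mul (d1 a a' ha) (hU (a + a')).2 (hU _).1
          (mul_nonneg zero_le_four (gp hc' _ _)), mul_le_mul_of_nonneg_right K4 (gp hc' cx a)]
      · exact ⟨le_rfl, by positivity⟩) hF' hv' hN (by rwa [add_zero]) (fun x => by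
      simpa only [mul_assoc] using summable_mul_real sW.summable
        (fun t => mul_nonneg (gp hH cy t) (hv t).1) fun t =>
          (abs_of_nonneg (hχ (x + t)).1).trans_le (hχ _).2) sW sU sV t2
    (by linarith only [t1, hY, Real.add_one_le_exp Y]) n1 n2 n4
  obtain ⟨θ', o'⟩ := o.pad
  exact ⟨θ', post_km o' hH hε hε1 hY (num_36 ((le_max_right _ _).trans
    ((le_max_right _ _).trans hY0))) (num_eps hε hY1) hD c0 β0 hγ σ1 σ2 hM
    (by linarith only [h0, Λ2]) hs ((mul_pos_iff_of_pos_left (one_pos.trans_le hK)).1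
      (one_pos.trans_le l1)) n2 n3 hv' hF' hw hχ sW (fun t a ha => d0 t a (b2 a ha)) t3 t4⟩

end

end Vale.Agent.P057KR
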