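import Vale.Agent.P057KR.Shell

/-! Relative Kelley-Meka step on a group: two flat sets whose sums have large correlation. -/

set_option linter.all false

open Finset Filter Topology
open scoped BigOperators

namespace Vale.Agent.P057KR

open Vale.Agent.P057Z.Km

noncomputable section

variable {G : Type} [AddCommGroup G] [DecidableEq G]

/-- the hypotheses on the four laws -/
structure Geo (b0 b0' b1 b2 : G → ℝ) (R1 R2 B : Finset G) (L : ℕ) (η : ℝ) : Prop where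
  n0 : ∀ x, 0 ≤ b0 x
  n0' : ∀ x, 0 ≤ b0' x
  n1 : ∀ x, 0 ≤ b1 x
  n2 : ∀ x, 0 ≤ b2 x
  s0' : HasSum b0' 1
  s1 : HasSum b1 1
  s2 : HasSum b2 1
  dom : ∀ t, ∀ a ∈ R2, b0 t ≤ 4 * b0' (t + a)
  r1 : 1 - η ≤ ∑ x ∈ R1, b1 x
  r2 : 1 - η ≤ ∑ x ∈ R2, b2 x
  p1 : ∀ a ∈ R1, 0 < b1 a
  p2 : ∀ a ∈ R2, 0 < b2 a
  q1 : ∀ a ∈ R1, ∀ a' ∈ R1, b1 a ≤ 2 ^ L * b1 a'
  q2 : ∀ a ∈ R2, ∀ a' ∈ R2, b2 a ≤ 2 ^ L * b2 a'
  w1 : ∀ a ∈ R1, ∀ a' ∈ R2, ∀ a'' ∈ R2, ∀ x ∈ B, b1 a ≤ 4 * b1 (a + (a' - a'' + x))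
  w2 : ∀ a ∈ R2, ∀ x ∈ B, b2 a ≤ 4 * b2 (a + x)
  z : (0 : G) ∈ B

/-- the correlation of v with translates of f -/
def crt (b v f : G → ℝ) (x : G) : ℝ := ∑' t, b t * (v t * f (x + t))

theorem card_le_of_mass {b : G → ℝ} (h0 : ∀ x, 0 ≤ b x) (h1 : HasSum b 1) (U : Finset G) (c : G)
    {M : ℝ} (hM : 0 ≤ M) (h : ∀ u ∈ U, 1 ≤ M * b (u - c)) : (#U : ℝ) ≤ M := by
  have h2 := sum_le_hasSum U (fun x _ => h0 _) ((Equiv.subRight c).hasSum_iff.2 h1)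
  have h3 := card_nsmul_le_sum U (fun u => M * b (u - c)) 1 h
  rw [← mul_sum, nsmul_eq_mul, mul_one] at h3
  exact h3.trans (mul_le_of_le_one_right hM h2)

theorem psi_ge {A1 A2 S : Finset G} {e : ℝ} (h1 : A1.Nonempty) (h2 : A2.Nonempty)
    {bad : G → G → ℝ} (hb : ∀ a ∈ A1, ∀ a' ∈ A2, (if a + a' ∈ S then (0 : ℝ) else 1) ≤ bad a a')
    (h : ∑ a ∈ A1, ∑ a' ∈ A2, bad a a' ≤ e * (#A1 * #A2)) : 1 - e ≤ psi A1 A2 S 0 := by
  have h0 : (0 : ℝ) < #A1 * #A2 := by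
    have := h1.card_pos
    have := h2.card_pos
    positivity
  have h3 := sum_le_sum fun a ha => sum_le_sum (hb a ha)
  have e1 : (#{p ∈ A1 ×ˢ A2 | p.1 + p.2 + 0 ∈ S} : ℝ) +
      ∑ a ∈ A1, ∑ a' ∈ A2, (if a + a' ∈ S then (0 : ℝ) else 1) = #A1 * #A2 := by
    rw [← sum_product' (f := fun a a' => if a + a' ∈ S then (0 : ℝ) else 1),
      card_filter, Nat.cast_sum, ← sum_add_distrib, ← Nat.cast_mul, ← card_product,
      card_eq_sum_ones, Nat.cast_sum]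
    refine sum_congr rfl fun p _ => ?_
    by_cases hp : p.1 + p.2 ∈ S <;> simp [hp]
  rw [psi, le_div_iff₀ h0]
  linarith

theorem kmu {b0 b0' b1 b2 v F ω χ : G → ℝ} {U n : G → G → ℝ} {R1 R2 B : Finset G}
    {K K1 H Hm e s lam δ δ0 SU SV W : ℝ} {P m N L : ℕ} (g : Geo b0 b0' b1 b2 R1 R2 B L (4 * H)⁻¹)
    (hK : 1 ≤ K) (hU : ∀ x y, 0 ≤ U x y ∧ U x y ≤ K * n x y)
    (hF : ∀ x, 0 ≤ F x ∧ F x ≤ K * χ x) (hv : ∀ x, 0 ≤ v x ∧ 4 * v x ≤ K * ω x)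
    (hL : LFCT b1 b2 b0' n (fun a τ => χ (a + τ)) (fun a τ => ω (τ - a)) N δ0)
    (h2 : 2 ≤ N) (hP : 2 * P ≤ N) (hmN : m ≤ N) (hδ0 : 0 ≤ δ) (hδ1 : δ ≤ 1)
    (hδδ : 16 * δ0 < δ ^ 4) (sF : ∀ x, Summable fun t => b0 t * (v t * F (x + t)))
    (sχ : ∀ x, Summable fun t => b0 t * (v t * χ (x + t))) (sW : HasSum (fun t => b0 t * v t) W)
    (sU : HasSum (fun q : G × G => b1 q.1 * b2 q.2 * U q.1 q.2) SU)
    (sV : HasSum (fun q : G × G × G => b1 q.1 * b2 q.2.1 * (U q.1 q.2.1 *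
      if q.2.1 ∈ R2 then b0 q.2.2 * (v q.2.2 * F (q.1 + q.2.1 + q.2.2)) else 0)) SV)
    (hU1 : 1 < K * SU) (hl : 1 ≤ K * ((1 - e) * lam)) (hcor : lam * SU ≤ SV)
    (he0 : 0 < e) (he1 : 3 * e ≤ 1) (hs : 0 < s) (hs' : 8 * s ≤ 1)
    (hes : (1 - e) ^ P * (2 * K ^ 2) ≤ s) (hK1 : 16 * K ^ (2 * P + 2) ≤ K1)
    (hm : (1 - 2 * s) ^ m * (2 * K1 ^ 2) ≤ 1) (hH : H = 2 ^ m * (4 * K1 ^ 2))
    (hδ : δ * H ^ (m + 6) ≤ 1) (hHm : 64 * (L + 1) * H ≤ Hm) :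
    ∃ A1 ⊆ R1, ∃ A2 ⊆ R2, ∃ U1 U2 S : Finset G, A1.Nonempty ∧ A2.Nonempty ∧
      (#U1 : ℝ) ≤ Hm * #A1 ∧ (#U2 : ℝ) ≤ Hm * #A2 ∧ (∀ a ∈ A2, ∀ x ∈ B, a + x ∈ U2) ∧
      (∀ a ∈ A1, ∀ a' ∈ A2, ∀ x ∈ B, a + a' + x ∈ U1) ∧ 1 - 512 * s ≤ psi A1 A2 S 0 ∧
      (∀ x ∈ S, (1 - 3 * e) * lam ≤ crt b0 v F x) ∧ (∀ a ∈ A1, 1 ≤ Hm * #A1 * b1 a) ∧
      (∀ a ∈ A2, 1 ≤ Hm * #A2 * b2 a) ∧ ∀ x ∈ B,
        |∑ a ∈ A1, ∑ a' ∈ A2, (crt b0 v χ (a + a' + x) - W)| ≤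
          K * Hm ^ 2 * (2 * δ) * (#A1 * #A2) := by
  have hK0 : 0 < K := by linarith
  have hH0 : 0 < H := by
    have : 0 < K1 := lt_of_lt_of_le (by positivity) hK1
    rw [hH]; positivity
  have hHm0 : 0 < Hm := lt_of_lt_of_le (by positivity) hHm
  have hl0 : 0 < lam := pos_of_mul_pos_left ((pos_of_mul_pos_left
    ((one_pos.trans_le hl).trans_eq (mul_comm _ _)) hK0.le).trans_eq (mul_comm _ _)) (by linarith)
  obtain ⟨r, hr⟩ : ∃ r : G → G → ℝ, r = fun a' τ =>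
    if a' ∈ R2 then b0 (τ - a') / b0' τ * v (τ - a') else 0 := ⟨_, rfl⟩
  have r1 : ∀ a' τ, 0 ≤ r a' τ ∧ r a' τ ≤ K * ω (τ - a') := fun a' τ => by
    rw [hr]
    dsimp only
    have h3 := hv (τ - a')
    split_ifs with h
    · have h2 := g.dom (τ - a') a' h
      rw [sub_add_cancel] at h2
      exact ⟨mul_nonneg (div_nonneg (g.n0 _) (g.n0' _)) h3.1, (mul_le_mul_of_nonneg_right
        (div_le_of_le_mul₀ (g.n0' _) (by norm_num) h2) h3.1).trans h3.2⟩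
    · exact ⟨le_rfl, by linarith [h3.1, h3.2]⟩
  have r2 : ∀ y τ (z : ℝ), b0' τ * (z * r y τ) =
      if y ∈ R2 then b0 (τ - y) * (v (τ - y) * z) else 0 := fun y τ z => by
    rw [hr]
    dsimp only
    split_ifs with h
    · rcases eq_or_ne (b0' τ) 0 with h3 | h3
      · have h2 := g.dom (τ - y) y h
        rw [sub_add_cancel, h3, mul_zero] at h2
        rw [le_antisymm h2 (g.n0 _), h3, zero_mul, zero_mul]
      · field_simp
    · simp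
  have r3 : ∀ f : G → ℝ, (∀ x, Summable fun t => b0 t * (v t * f (x + t))) → ∀ x y,
      HasSum (fun τ => b0' τ * (f (x + τ) * r y τ)) (if y ∈ R2 then crt b0 v f (x + y) else 0) :=
    fun f hf x y => by
    simp only [r2]
    split_ifs
    · refine HasSum.congr_fun ((Equiv.subRight y).hasSum_iff.2 (hf (x + y)).hasSum) fun τ => ?_
      simp only [Function.comp, Equiv.subRight_apply, show x + y + (τ - y) = x + τ by abel]
    · exact hasSum_zero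
  obtain ⟨A1, A2, k1, k2, k3⟩ := siftT (F := fun a τ => F (a + τ)) (r := r) (SV := SV) g.n1 g.n2
    g.n0' g.s1 g.s2 g.s0' hK hU (fun _ _ => hF _) r1 hL h2 hP hmN hδ0 hδ1 hδδ
    (fun x y => (r3 F sF x y).summable) sU (by
      convert (Equiv.prodCongr (Equiv.refl G) (Equiv.prodShear (Equiv.refl G)
        fun y => Equiv.subRight y)).hasSum_iff.2 sV using 2 with q
      simp only [r2, Function.comp, Equiv.prodCongr_apply, Equiv.coe_refl, Prod.map_fst, id,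
        Prod.map_snd, Equiv.prodShear_apply, Equiv.refl_apply, Equiv.subRight_apply,
        show q.1 + q.2.1 + (q.2.2 - q.2.1) = q.1 + q.2.2 by abel])
    hU1 hl hcor he0 (by linarith) hs hs' hes hK1 hm hH hδ
  have e4 : 2 * (4 * H)⁻¹ = (2 * H)⁻¹ := by field_simp; norm_num
  obtain ⟨B1, b1', B2, b2', n1, n2, m1, m2, m3⟩ := shell2 g.n1 g.n2 g.s1 g.s2 (by positivity)
    (e4.trans_le k1) (e4.trans_le k2) g.r1 g.r2 g.p1 g.p2 g.q1 g.q2
    (fun x y => by split_ifs <;> norm_num) (by linarith) k3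
  have up : ∀ {c x y : ℝ}, 0 ≤ c → 0 ≤ y → (4 * H)⁻¹ ≤ 4 * (L + 1) * c * x → x ≤ 4 * y →
      1 ≤ Hm * c * y := fun {c x y} h0 h1 h2 h3 => by
    rw [inv_le_iff_one_le_mul₀' (by positivity)] at h2
    calc (1 : ℝ) ≤ 4 * H * (4 * (L + 1) * c * (4 * y)) := h2.trans (by gcongr)
      _ = 64 * (L + 1) * H * c * y := by ring
      _ ≤ _ := by gcongr
  have u1 : ∀ a ∈ B1, ∀ a' ∈ B2, ∀ a'' ∈ B2, ∀ x ∈ B, 1 ≤ Hm * #B1 * b1 (a + (a' - a'' + x)) :=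
    fun a ha a' ha' a'' ha'' x hx => up (Nat.cast_nonneg _) (g.n1 _) (m1 a ha)
      (g.w1 a (b1' ha) a' (b2' ha') a'' (b2' ha'') x hx)
  have u2 : ∀ a ∈ B2, ∀ x ∈ B, 1 ≤ Hm * #B2 * b2 (a + x) := fun a ha x hx =>
    up (Nat.cast_nonneg _) (g.n2 _) (m2 a ha) (g.w2 a (b2' ha) x hx)
  obtain ⟨a0, ha0⟩ := id n2
  have u3 : ∀ a ∈ B1, ∀ x ∈ B, 1 ≤ Hm * #B1 * b1 (a + x) := fun a ha x hx => by
    simpa using u1 a ha a0 ha0 a0 ha0 x hx
  have u4 : ∀ a ∈ B2, 1 ≤ Hm * #B2 * b2 a := fun a ha => by simpa using u2 a ha 0 g.z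
  set U1 := (B1 ×ˢ B2 ×ˢ B).image fun p => p.1 + p.2.1 + p.2.2 with hU1'
  have mem : ∀ a ∈ B1, ∀ a' ∈ B2, ∀ x ∈ B, a + a' + x ∈ U1 := fun a ha a' ha' x hx =>
    mem_image.2 ⟨(a, a', x), by simp [ha, ha', hx], rfl⟩
  refine ⟨B1, b1', B2, b2', U1, (B2 ×ˢ B).image fun p => p.1 + p.2,
    U1.filter fun x => (1 - 3 * e) * lam ≤ crt b0 v F x, n1, n2,
    card_le_of_mass g.n1 g.s1 _ a0 (by positivity) fun u hu => ?_,
    card_le_of_mass g.n2 g.s2 _ 0 (by positivity) fun u hu => ?_,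
    fun a ha x hx => mem_image.2 ⟨(a, x), by simp [ha, hx], rfl⟩, mem,
    psi_ge n1 n2 (fun a ha a' ha' => ?_) (m3.trans_eq (by ring)),
    fun x hx => (mem_filter.1 hx).2, fun a ha => by simpa using u3 a ha 0 g.z, u4, fun x hx => ?_⟩
  · obtain ⟨p, hp, rfl⟩ := mem_image.1 hu
    simp only [mem_product] at hp
    rw [show p.1 + p.2.1 + p.2.2 - a0 = p.1 + (p.2.1 - a0 + p.2.2) by abel]
    exact u1 _ hp.1 _ hp.2.1 _ ha0 _ hp.2.2
  · obtain ⟨p, hp, rfl⟩ := mem_image.1 hu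
    rw [sub_zero]
    exact u2 _ (mem_product.1 hp).1 _ (mem_product.1 hp).2
  · rw [(r3 F sF a a').tsum_eq, if_pos (b2' ha')]
    have h3 := mem a ha a' ha' 0 g.z
    rw [add_zero] at h3
    simp only [mem_filter, h3, true_and]
    split_ifs with h4 h5 h5
    · norm_num
    · exact le_rfl
    · exact le_rfl
    · exact absurd (not_lt.1 h5) h4
  · have c1 : (0 : ℝ) < #B1 := by exact_mod_cast n1.card_pos
    have c2 : (0 : ℝ) < #B2 := by exact_mod_cast n2.card_pos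
    have h3 := hL.cut13 h2 g.n1 g.n2 g.n0' g.s1 g.s2 g.s0' hδ0 hδ1 hδδ
      (B1.map (addRightEmbedding x)) B2
      (u := fun y z => if z - x ∈ B1 ∧ y ∈ B2 then (Hm * #B1 * b1 z * (Hm * #B2 * b2 y))⁻¹ else 0)
      (r := fun y τ => r y τ / K) (S := fun z y => (crt b0 v χ (z + y) - W) / K)
      (fun y z => by
        split_ifs with h
        · have h4 := u3 _ h.1 x hx
          rw [sub_add_cancel] at h4
          have h5 := one_le_mul_of_one_le_of_one_le h4 (u4 y h.2)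
          rw [abs_of_nonneg (inv_nonneg.2 (by linarith))]
          exact inv_le_one_of_one_le₀ h5
        · simp)
      (fun y τ => by
        rw [abs_of_nonneg (div_nonneg (r1 y τ).1 hK0.le), div_le_iff₀' hK0]
        exact (r1 y τ).2)
      fun z _ y hy => by
        have h4 := r3 χ sχ z y
        have h5 := r3 (fun _ => 1) (fun _ => by simpa using sW.summable) z y
        rw [if_pos (b2' hy)] at h4 h5
        have h6 : crt b0 v (fun _ => 1) (z + y) = W := by simpa [crt] using sW.tsum_eq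
        rw [h6] at h5
        exact HasSum.congr_fun ((h4.sub h5).div_const K) fun τ => by ring
    have h4 : ∑ a ∈ B1, ∑ a' ∈ B2, (crt b0 v χ (a + a' + x) - W) = K * Hm ^ 2 * (#B1 * #B2) *
        ∑ y ∈ B2, ∑ z ∈ B1.map (addRightEmbedding x), b1 z * b2 y *
          ((if z - x ∈ B1 ∧ y ∈ B2 then (Hm * #B1 * b1 z * (Hm * #B2 * b2 y))⁻¹ else 0) *
            ((crt b0 v χ (z + y) - W) / K)) := by
      rw [sum_comm, mul_sum]
      refine sum_congr rfl fun y hy => ?_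
      rw [sum_map, mul_sum]
      refine sum_congr rfl fun a ha => ?_
      have h5 : b1 (a + x) ≠ 0 := fun h => by
        have := u3 a ha x hx
        rw [h, mul_zero] at this
        linarith
      have h6 := (g.p2 y (b2' hy)).ne'
      simp only [addRightEmbedding_apply, add_sub_cancel_right, ha, hy, and_self, if_true,
        add_right_comm a x y]
      field_simp
    rw [h4, abs_mul, abs_of_pos (show 0 < K * Hm ^ 2 * (#B1 * #B2) by positivity),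
      mul_right_comm _ (2 * δ)]
    exact mul_le_mul_of_nonneg_left h3 (by positivity)

end

end Vale.Agent.P057KR
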