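import Vale.Agent.P057KR.Kmt

/-! Families of fibres: the counting hypothesis and its second moments. -/

set_option linter.all false

open Finset Filter Topology Matrix
open scoped BigOperators Real

namespace Vale.Agent.P057KR

open Vale.Agent.P057FT Vale.Agent.P057HU Vale.Agent.P057G Vale.Agent.P267.H775

noncomputable section

variable {ι Om : Type} [Fintype ι] [DecidableEq ι]

/-- the count of a pattern in one fibre -/
def cn (H : Matrix ι ι ℝ) (cx cy : ι → ℝ) (χ w : (ι → ℤ) → ℝ) (al be ga : ℝ) {I J K : Type}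
    [Fintype I] [Fintype J] [Fintype K] (E : I → K → Bool) (E' : J → K → Bool) : ℝ :=
  ∑' q, pt2 (nb al H cx) (nb be H 0) (nb ga H cy) (fun a τ => χ (a + τ)) (fun a τ => w (τ - a)) E E' q

/-- all patterns have total count close to one -/
def Pat (μ : Om → ℝ) (H : Om → Matrix ι ι ℝ) (cx cy : Om → ι → ℝ) (χ w : Om → (ι → ℤ) → ℝ) (N : ℕ)
    (Λ η : ℝ) : Prop :=
  ∀ (I J K : Type) [Fintype I] [Fintype J] [Fintype K] [DecidableEq I] [DecidableEq J]
    [DecidableEq K], Fintype.card I ≤ N → Fintype.card J ≤ N → Fintype.card K ≤ N →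
    ∀ al be ga : ℝ, 0 < al ∧ al ≤ Λ → 0 < be ∧ be ≤ Λ → 0 < ga ∧ ga ≤ Λ →
    ∀ (E : I → K → Bool) (E' : J → K → Bool), ∃ S, |S - 1| ≤ η ∧
      HasSum (fun o => μ o * cn (H o) (cx o) (cy o) (χ o) (w o) al be ga E E') S

variable {H : Matrix ι ι ℝ} {cx cy : ι → ℝ} {χ w : (ι → ℤ) → ℝ} {al be ga M : ℝ}

theorem bd_nb (hH : H.PosDef) (ha : 0 < al) (hb : 0 < be) (hc : 0 < ga)
    (hw : ∀ x, 0 ≤ w x ∧ w x ≤ M) (hχ : ∀ x, 0 ≤ χ x ∧ χ x ≤ M) :
    Bd (nb al H cx) (nb be H 0) (nb ga H cy) (fun a τ => χ (a + τ)) (fun a τ => w (τ - a)) M :=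
  ⟨fun x => (nb_pos hH ha _ x).le, fun x => (nb_pos hH hb _ x).le, fun x => (nb_pos hH hc _ x).le,
    (hasSum_nb hH ha _).summable, (hasSum_nb hH hb _).summable, (hasSum_nb hH hc _).summable,
    fun _ _ => hχ _, fun _ _ => hw _⟩

theorem cn_empty (E : Fin 0 → Fin 0 → Bool) (E' : Fin 0 → Fin 0 → Bool) :
    cn H cx cy χ w al be ga E E' = 1 := by
  simp [cn, pt2]

theorem cn_mid (hH : H.PosDef) (hb : 0 < be) (E : Fin 0 → Fin 0 → Bool)
    (E' : Fin 1 → Fin 0 → Bool) : cn H cx cy χ w al be ga E E' = th (be • H)⁻¹ 0 := by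
  let e : (ι → ℤ) ≃ (Fin 0 → ι → ℤ) × (Fin 1 → ι → ℤ) × (Fin 0 → ι → ℤ) :=
    { toFun := fun y => (default, fun _ => y, default)
      invFun := fun q => q.2.1 0
      left_inv := fun _ => rfl
      right_inv := fun q => Prod.ext (Subsingleton.elim _ _) (Prod.ext
        (funext fun i => congrArg q.2.1 (Subsingleton.elim _ _)) (Subsingleton.elim _ _)) }
  rw [cn, ← e.tsum_eq, ← mul_div_cancel_left₀ (th (be • H)⁻¹ 0) (vol_pos (hH.smul hb)).ne',
    ← th_zero_eq (hH.smul hb), ← (hasSum_nb hH hb 0).tsum_eq]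
  refine tsum_congr fun y => ?_
  rw [show e y = (default, fun _ => y, default) from rfl]
  simp [pt2]

theorem cn_tri (hH : H.PosDef) (ha : 0 < al) (hb : 0 < be) (hc : 0 < ga)
    (hw : ∀ x, 0 ≤ w x ∧ w x ≤ M) (hχ : ∀ x, 0 ≤ χ x ∧ χ x ≤ M) :
    HasSum (fun q : (ι → ℤ) × (ι → ℤ) × (ι → ℤ) => nb al H cx q.1 * (nb be H 0 q.2.1 *
      nb ga H cy q.2.2) * (χ (q.1 + q.2.2) * w (q.2.2 - q.2.1)))
      (cn H cx cy χ w al be ga (fun (_ : Fin 1) (_ : Fin 1) => true) fun (_ : Fin 1) _ => true) :=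
  HasSum.congr_fun (((Equiv.funUnique (Fin 1) _).prodCongr ((Equiv.funUnique (Fin 1) _).prodCongr
    (Equiv.funUnique (Fin 1) _))).symm.hasSum_iff.2
      ((bd_nb hH ha hb hc hw hχ).summable _ _).hasSum) fun q => by simp [pt2]

theorem vol_wide (hH : H.PosDef) {c : ℝ} (h0 : 0 ≤ 1 - c) (h1 : 1 - c ≤ 1 / 2)
    (hD : (1 - c) * Fintype.card ι ≤ 1 / 4) : vol (c • H) ≤ Real.exp (1 / 4) * vol H := by
  rw [vol_smul (by linarith)]
  refine mul_le_mul_of_nonneg_right ?_ (vol_pos hH).le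
  refine le_trans ?_ (Real.exp_le_exp.2 ((mul_comm _ _).trans_le hD))
  rw [Real.exp_nat_mul]
  refine pow_le_pow_left₀ (by positivity) ?_ _
  rw [← inv_inv (Real.exp _)]
  refine inv_anti₀ (by positivity) (Real.le_sqrt_of_sq_le ?_)
  rw [inv_pow, inv_le_iff_one_le_mul₀ (by positivity), sq, ← Real.exp_add]
  have h2 := mul_le_mul_of_nonneg_left (Real.add_one_le_exp (1 - c + (1 - c)))
    (show 0 ≤ c by linarith)
  nlinarith

/-- the excess of a fibre is bounded by a triangle count -/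
theorem ex_le (hH : H.PosDef) {c β K lam : ℝ} (h0 : 0 < 1 - c) (h1 : 1 - c ≤ 1 / 2)
    (hD : (1 - c) * Fintype.card ι ≤ 1 / 4) (hβ : 4 ≤ β * (1 - c) * (1 - c)) (β0 : 0 < β)
    {U v F : (ι → ℤ) → ℝ} (hK : 0 ≤ K) (l0 : 0 ≤ lam) (hU : ∀ x, 0 ≤ U x ∧ U x ≤ K)
    (hv : ∀ x, 0 ≤ v x ∧ v x ≤ K * w x) (hF : ∀ x, 0 ≤ F x ∧ F x ≤ K * χ x)
    (hw : ∀ x, 0 ≤ w x ∧ w x ≤ M) (hχ : ∀ x, 0 ≤ χ x ∧ χ x ≤ M) :
    ∑' p : (ι → ℤ) × (ι → ℤ), nb 1 H cx p.1 * U p.1 *
      (nb 1 H cy p.2 * v p.2 * (F (p.1 + p.2) - lam * χ (p.1 + p.2))) ≤ 4 * K ^ 3 *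
      cn H cx cy χ w c (c * β / 2) c (fun (_ : Fin 1) (_ : Fin 1) => true)
        fun (_ : Fin 1) _ => true := by
  have c0 : 0 < c := by linarith
  have b0 := half_pos β0
  have np := fun {a : ℝ} (ha : 0 < a) c z => (nb_pos hH ha c z).le
  have k2 := cn_tri (cx := cx) (cy := cy) hH c0 (show 0 < c * β / 2 by positivity) c0 hw hχ
  have k3 := ((⟨fun q => (q.1, q.2.1, q.2.2 + q.2.1), fun q => (q.1, q.2.1, q.2.2 - q.2.1),
    fun q => by simp, fun q => by simp⟩ : (ι → ℤ) × (ι → ℤ) × (ι → ℤ) ≃ _).hasSum_iff.2 k2).mul_left 4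
  have p0 : ∀ p : (ι → ℤ) × (ι → ℤ), 0 ≤ nb 1 H cx p.1 * nb 1 H cy p.2 := fun p =>
    mul_nonneg (np one_pos _ _) (np one_pos _ _)
  have sp := (hs_mul (hasSum_nb hH one_pos cx) (hasSum_nb hH one_pos cy) (np one_pos _)
    (np one_pos _)).summable
  have M0 : 0 ≤ M := (hw 0).1.trans (hw 0).2
  have sT := (summable_mul_real sp p0 (f := fun p => w p.2 * χ (p.1 + p.2)) fun p =>
    (abs_of_nonneg (mul_nonneg (hw _).1 (hχ _).1)).trans_le
      (mul_le_mul (hw _).2 (hχ _).2 (hχ _).1 M0)).hasSum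
  have t0 := fun p : (ι → ℤ) × (ι → ℤ) => mul_nonneg (p0 p) (mul_nonneg (hw p.2).1 (hχ (p.1 + p.2)).1)
  have k4 := hasSum_le (fun q => ?_) (shear3 (hasSum_nb hH b0 0) sT (np b0 _) t0) k3
  · have k5 := mul_le_mul_of_nonneg_right ((one_le_div (vol_pos (hH.smul b0))).2
      (vol_le_th_zero (hH.smul b0))) (sT.nonneg t0)
    have k6 := mul_le_mul_of_nonneg_left ((one_mul _).symm.trans_le (k5.trans k4)) (pow_nonneg hK 3)
    refine le_trans ?_ (k6.trans_eq (by ring))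
    by_cases hs : Summable fun p : (ι → ℤ) × (ι → ℤ) => nb 1 H cx p.1 * U p.1 *
      (nb 1 H cy p.2 * v p.2 * (F (p.1 + p.2) - lam * χ (p.1 + p.2)))
    · refine hasSum_le (fun p => ?_) hs.hasSum (sT.mul_left _)
      have j1 : F (p.1 + p.2) - lam * χ (p.1 + p.2) ≤ F (p.1 + p.2) :=
        sub_le_self _ (mul_nonneg l0 (hχ _).1)
      have j2 := mul_le_mul (mul_le_mul (hU p.1).2 (hv p.2).2 (hv _).1 hK) (hF (p.1 + p.2)).2
        (hF _).1 (mul_nonneg hK (mul_nonneg hK (hw _).1))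
      linarith [mul_le_mul_of_nonneg_left j2 (p0 p), mul_le_mul_of_nonneg_left j1
        (mul_nonneg (p0 p) (mul_nonneg (hU p.1).1 (hv p.2).1))]
    · rw [tsum_eq_zero_of_not_summable hs]
      exact mul_nonneg (pow_nonneg hK 3) (sT.nonneg t0)
  · obtain ⟨a, a', t⟩ := q
    change nb (β / 2) H 0 a' * (nb 1 H cx (a + a') * nb 1 H cy t * (w t * χ (a + a' + t))) ≤
      4 * (nb c H cx a * (nb (c * β / 2) H 0 a' * nb c H cy (t + a')) *
        (χ (a + (t + a')) * w (t + a' - a')))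
    rw [add_sub_cancel_right, add_comm t a', ← add_assoc, add_comm a' t]
    have hk : c ≤ β * (1 - c) / 4 * (1 - c) := by linarith
    have g1 : gs ((β / 2) • H) (toR a' - 0) * (gs ((1 : ℝ) • H) (toR (a + a') - cx) *
        gs ((1 : ℝ) • H) (toR t - cy)) ≤ gs (c • H) (toR a - cx) *
          (gs ((c * β / 2) • H) (toR a' - 0) * gs (c • H) (toR (t + a') - cy)) := by
      have j1 := qq_shift hH h0 hk (toR t - cy) (toR a')
      have j2 := qq_shift hH h0 hk (toR a - cx + toR a') (-toR a')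
      rw [add_neg_cancel_right, qq_neg] at j2
      rw [toR_add', toR_add', add_sub_right_comm, add_sub_right_comm (toR t)]
      unfold gs
      simp only [← Real.exp_add, qq_smul_mat, sub_zero]
      exact Real.exp_le_exp.2 (by
        linarith [mul_le_mul_of_nonneg_left (add_le_add j1 j2) Real.pi_pos.le])
    have v1 := vol_wide hH h0.le h1 hD
    have v2 := vol_wide (hH.smul b0) h0.le h1 hD
    rw [smul_smul, ← mul_div_assoc] at v2
    have q1 := vol_pos hH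
    have q2 := vol_pos (hH.smul b0)
    have q3 := vol_pos (hH.smul c0)
    have q4 := vol_pos (hH.smul (show 0 < c * β / 2 by positivity))
    have v3 : vol (c • H) * (vol ((c * β / 2) • H) * vol (c • H)) ≤
        4 * (vol ((β / 2) • H) * (vol H * vol H)) := by
      have e1 := Real.one_le_exp (show (0 : ℝ) ≤ 1 / 4 by norm_num)
      have e2 : Real.exp (1 / 4) * (Real.exp (1 / 4) * Real.exp (1 / 4)) ≤ 4 := by
        nlinarith [exp_quarter]
      refine (mul_le_mul v1 (mul_le_mul v2 v1 q3.le (by positivity)) (by positivity)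
        (by positivity)).trans ?_
      linarith [mul_le_mul_of_nonneg_right e2 (mul_pos q2 (mul_pos q1 q1)).le]
    have key : nb (β / 2) H 0 a' * (nb 1 H cx (a + a') * nb 1 H cy t) ≤
        4 * (nb c H cx a * (nb (c * β / 2) H 0 a' * nb c H cy (t + a'))) := by
      simp only [nb, div_mul_div_comm]
      rw [← mul_div_assoc, div_le_div_iff₀ (by rw [one_smul]; positivity) (by positivity)]
      refine (mul_le_mul g1 v3 (by positivity) ((mul_pos (gs_pos _ _) (mul_pos (gs_pos _ _)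
        (gs_pos _ _))).le.trans g1)).trans_eq ?_
      rw [one_smul]
      ring
    linarith [mul_le_mul_of_nonneg_right key (mul_nonneg (hw t).1 (hχ (a + a' + t)).1)]

/-- patterns with at most N vertices in each class, and one of four choices of scales -/
abbrev Pt (N : ℕ) := Σ t : Fin (N + 1) × Fin (N + 1) × Fin (N + 1),
  Fin 4 × (Fin t.1 → Fin t.2.2 → Bool) × (Fin t.2.1 → Fin t.2.2 → Bool)

theorem card_Pt (N : ℕ) : (Fintype.card (Pt N) : ℝ) ≤ 4 * Real.exp (3 * N + 2 * N ^ 2) := by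
  have k : ∀ i j : Fin (N + 1), Fintype.card (Fin i → Fin j → Bool) ≤ 2 ^ N ^ 2 := fun i j => by
    simp only [Fintype.card_fun, Fintype.card_bool, Fintype.card_fin, ← pow_mul]
    exact Nat.pow_le_pow_right two_pos (sq N ▸ Nat.mul_le_mul (Nat.lt_succ_iff.1 j.2)
      (Nat.lt_succ_iff.1 i.2))
  have h : Fintype.card (Pt N) ≤ (N + 1) ^ 3 * (4 * (2 ^ N ^ 2 * 2 ^ N ^ 2)) := by
    rw [Fintype.card_sigma]
    refine (sum_le_card_nsmul _ _ (4 * (2 ^ N ^ 2 * 2 ^ N ^ 2)) fun t _ => ?_).trans_eq ?_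
    · rw [Fintype.card_prod, Fintype.card_prod, Fintype.card_fin]
      exact Nat.mul_le_mul_left _ (Nat.mul_le_mul (k _ _) (k _ _))
    · simp only [card_univ, Fintype.card_prod, Fintype.card_fin, smul_eq_mul]
      ring
  refine (Nat.cast_le.2 h).trans ?_
  have e1 : ((N : ℝ) + 1) ^ 3 ≤ Real.exp N ^ 3 :=
    pow_le_pow_left₀ (by positivity) (Real.add_one_le_exp _) 3
  have e2 : (2 : ℝ) ^ N ^ 2 ≤ Real.exp 1 ^ N ^ 2 :=
    pow_le_pow_left₀ zero_le_two (by linarith [Real.add_one_le_exp 1]) _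
  push_cast
  calc _ ≤ Real.exp N ^ 3 * (4 * (Real.exp 1 ^ N ^ 2 * Real.exp 1 ^ N ^ 2)) := by gcongr
    _ = _ := by
      simp only [← Real.exp_nat_mul, ← Real.exp_add]
      rw [mul_left_comm, ← Real.exp_add]
      congr 2
      push_cast
      ring

theorem Pat.sq {μ : Om → ℝ} {H : Om → Matrix ι ι ℝ} {cx cy : Om → ι → ℝ}
    {χ w : Om → (ι → ℤ) → ℝ} {N : ℕ} {Λ η : ℝ} (h : Pat μ H cx cy χ w N Λ η)
    (hH : ∀ o, (H o).PosDef) (hw : ∀ o x, 0 ≤ w o x ∧ w o x ≤ M) (hχ : ∀ o x, 0 ≤ χ o x ∧ χ o x ≤ M)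
    (ha : 0 < al ∧ al ≤ Λ) (hb : 0 < be ∧ be ≤ Λ) (hc : 0 < ga ∧ ga ≤ Λ) {i j k : ℕ}
    (hi : 2 * i ≤ N) (hj : 2 * j ≤ N) (hk : 2 * k ≤ N) (E : Fin i → Fin k → Bool)
    (E' : Fin j → Fin k → Bool) : ∃ S ≤ 4 * η,
      HasSum (fun o => μ o * (cn (H o) (cx o) (cy o) (χ o) (w o) al be ga E E' - 1) ^ 2) S := by
  obtain ⟨S0, a0, b0⟩ := h (Fin 0) (Fin 0) (Fin 0) (by simp) (by simp) (by simp) al be ga ha hb hc
    default default
  obtain ⟨S1, a1, b1⟩ := h _ _ _ (by simp; omega) (by simp; omega) (by simp; omega) al be ga ha hb hc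
    E E'
  obtain ⟨S2, a2, b2⟩ := h _ _ _ (by simp; omega) (by simp; omega) (by simp; omega) al be ga ha hb hc
    (db E) (db E')
  refine ⟨S2 - 2 * S1 + S0, by linarith [abs_le.1 a0, abs_le.1 a1, abs_le.1 a2],
    HasSum.congr_fun ((b2.sub (b1.mul_left 2)).add b0) fun o => ?_⟩
  rw [cn_empty, cn, cn, (bd_nb (hH o) ha.1 hb.1 hc.1 (hw o) (hχ o)).db]
  ring

end

end Vale.Agent.P057KR
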