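import Vale.Agent.P057KR.Kmv

/-! Relative Kelley-Meka step for a family of fibres. -/

set_option linter.all false

open Finset Filter Topology Matrix
open scoped BigOperators Real

namespace Vale.Agent.P057KR

open Vale.Agent.P057FT Vale.Agent.P057HU Vale.Agent.P057G Vale.Agent.P267.H775

noncomputable section

variable {ι Om : Type} [Fintype ι] [DecidableEq ι]

/-- the four choices of scales -/
def scs (c β γ : ℝ) : Fin 4 → ℝ × ℝ × ℝ :=
  ![(c, β, c), (c, c * β / 2, c), (c * γ, β, c * c / 2), (1, β * γ, 1)]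

theorem scs_bd {c β γ : ℝ} (c0 : 0 < c) (c1 : c ≤ 1) (β2 : 2 ≤ β) (βγ : β ≤ γ) (s : Fin 4) :
    (0 < (scs c β γ s).1 ∧ (scs c β γ s).1 ≤ β * γ) ∧
      (0 < (scs c β γ s).2.1 ∧ (scs c β γ s).2.1 ≤ β * γ) ∧
        0 < (scs c β γ s).2.2 ∧ (scs c β γ s).2.2 ≤ β * γ := by
  have k1 : γ ≤ β * γ := le_mul_of_one_le_left (by linarith) (by linarith)
  have k2 : c * γ ≤ γ := mul_le_of_le_one_left (by linarith) c1
  have k3 : c * β ≤ β := mul_le_of_le_one_left (by linarith) c1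
  have k4 : c * c ≤ c := mul_le_of_le_one_left c0.le c1
  have k5 : 0 < c * γ := mul_pos c0 (by linarith)
  have k6 : 0 < c * β := mul_pos c0 (by linarith)
  have k7 := mul_pos c0 c0
  fin_cases s <;> simp only [scs, Fin.zero_eta, Fin.mk_one, Fin.reduceFinMk, Matrix.cons_val] <;>
    refine ⟨⟨?_, ?_⟩, ⟨?_, ?_⟩, ?_, ?_⟩ <;> linarith

/-- the deviation of a pattern -/
def dv (H : Matrix ι ι ℝ) (cx cy : ι → ℝ) (χ w : (ι → ℤ) → ℝ) (c β γ : ℝ) {N : ℕ} (p : Pt N) : ℝ :=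
  (cn H cx cy χ w (scs c β γ p.2.1).1 (scs c β γ p.2.1).2.1 (scs c β γ p.2.1).2.2 p.2.2.1 p.2.2.2 -
    1) ^ 2

theorem good {H : Matrix ι ι ℝ} {cx cy : ι → ℝ} {χ w : (ι → ℤ) → ℝ} {c β γ δ M : ℝ} {N : ℕ}
    (hH : H.PosDef) (c0 : 0 < c) (c1 : c ≤ 1) (β2 : 2 ≤ β) (βγ : β ≤ γ) (δ0 : 0 ≤ δ)
    (hN : N * δ ≤ 1 / 10) (h1 : 1 ≤ N) (hw : ∀ x, 0 ≤ w x ∧ w x ≤ M) (hχ : ∀ x, 0 ≤ χ x ∧ χ x ≤ M)
    (h : ∑ p : Pt N, dv H cx cy χ w c β γ p ≤ δ ^ 2) :
    th ((β * γ) • H)⁻¹ 0 ≤ 1 + δ ∧ ∀ s, LFCT (gl ((scs c β γ s).1 • H) cx)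
      (gl ((scs c β γ s).2.1 • H) 0) (gl ((scs c β γ s).2.2 • H) cy) (fun _ _ => 1)
      (fun a τ => χ (a + τ)) (fun a τ => w (τ - a)) N (20 * (N * δ)) := by
  have k : ∀ (s : Fin 4) (i j k : ℕ), i ≤ N → j ≤ N → k ≤ N → ∀ (E : Fin i → Fin k → Bool)
      (E' : Fin j → Fin k → Bool), |cn H cx cy χ w (scs c β γ s).1 (scs c β γ s).2.1
        (scs c β γ s).2.2 E E' - 1| ≤ δ := fun s i j k hi hj hk E E' =>
    abs_le_of_sq_le_sq' ((single_le_sum (f := dv H cx cy χ w c β γ) (fun _ _ => sq_nonneg _)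
      (mem_univ (⟨(⟨i, Nat.lt_succ_of_le hi⟩, ⟨j, Nat.lt_succ_of_le hj⟩, ⟨k, Nat.lt_succ_of_le hk⟩),
        s, E, E'⟩ : Pt N))).trans h) δ0 |> abs_le.2
  have k1 := k 3 0 1 0 (by omega) h1 (by omega) default default
  rw [cn_mid hH (scs_bd c0 c1 β2 βγ 3).2.1.1] at k1
  have k2 : th ((β * γ) • H)⁻¹ 0 ≤ 1 + δ := by
    have := (abs_le.1 k1).2
    change th ((β * γ) • H)⁻¹ 0 - 1 ≤ δ at this
    linarith
  refine ⟨k2, fun s => ?_⟩
  obtain ⟨a, b, d⟩ := scs_bd c0 c1 β2 βγ s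
  rw [gl_eq hH a.1, gl_eq hH b.1, gl_eq hH d.1]
  exact (bd_nb hH a.1 b.1 d.1 hw hχ).lfct (sm_near hH a.1 a.2 k2 _) (sm_near hH b.1 b.2 k2 _)
    (sm_near hH d.1 d.2 k2 _) hN h1 (k s)

theorem LFCT.mono {α β γ : Type} {a : α → ℝ} {b : β → ℝ} {c : γ → ℝ} {n12 : α → β → ℝ}
    {n13 : α → γ → ℝ} {n23 : β → γ → ℝ} {N : ℕ} {δ δ' : ℝ} (h : LFCT a b c n12 n13 n23 N δ)
    (e : δ ≤ δ') : LFCT a b c n12 n13 n23 N δ' := fun i j k hi hj hk E1 E2 E3 =>
  (h i j k hi hj hk E1 E2 E3).imp fun _ hS => ⟨hS.1.trans e, hS.2⟩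

theorem num_w {Y N : ℝ} (hY : 1000 ≤ Y) (N0 : 0 ≤ N) (hN : N ≤ 2 * Y ^ 6) :
    20 * (N * Real.exp (-Y ^ 13)) ≤ Real.exp (-Y ^ 12) ∧ Real.exp (-Y ^ 12) ≤ 1 / 10 ∧
      48 * Real.exp Y * Real.exp (Y ^ 13) ^ 2 * (4 * Real.exp (3 * N + 2 * N ^ 2) *
        (4 * Real.exp (-Y ^ 14))) ≤ Real.exp (-Y) := by
  have y1 : 1 ≤ Y := by linarith
  have p : ∀ {i j : ℕ}, i ≤ j → Y ^ i ≤ Y ^ j := fun h => pow_le_pow_right₀ y1 h
  have q1 : 100 * Y ^ 12 ≤ Y ^ 13 := pw_le (by linarith) 12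
  have q2 : 100 * Y ^ 13 ≤ Y ^ 14 := pw_le (by linarith) 13
  have q3 := p (show 6 ≤ 12 by norm_num)
  have q4 : Y ≤ Y ^ 6 := le_self_pow₀ y1 (by norm_num)
  refine ⟨?_, ?_, ?_⟩
  · have k1 : 20 * N ≤ Real.exp (40 * Y ^ 6) := by linarith [Real.add_one_le_exp (40 * Y ^ 6)]
    rw [← mul_assoc]
    refine (mul_le_mul_of_nonneg_right k1 (Real.exp_pos _).le).trans ?_
    rw [← Real.exp_add]
    exact Real.exp_le_exp.2 (by linarith)
  · rw [Real.exp_neg, ← one_div]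
    exact one_div_le_one_div_of_le (by norm_num) (by linarith [Real.add_one_le_exp (Y ^ 12)])
  · have k1 : N ^ 2 ≤ 4 * Y ^ 12 := (pow_le_pow_left₀ N0 hN 2).trans_eq (by ring)
    calc _ = 768 * (Real.exp Y * Real.exp (Y ^ 13) ^ 2 * Real.exp (3 * N + 2 * N ^ 2) *
          Real.exp (-Y ^ 14)) := by ring
      _ ≤ Real.exp Y * _ := mul_le_mul_of_nonneg_right (by linarith [Real.add_one_le_exp Y])
          (by positivity)
      _ ≤ _ := by
        simp only [← Real.exp_nat_mul, ← Real.exp_add]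
        exact Real.exp_le_exp.2 (by push_cast; linarith)

theorem ex_gl {H : Matrix ι ι ℝ} (hH : H.PosDef) (cx cy : ι → ℝ) (U v : (ι → ℤ) → ℝ)
    (f : (ι → ℤ) × (ι → ℤ) → ℝ) : ∑' p : (ι → ℤ) × (ι → ℤ), gl H cx p.1 * U p.1 *
      (gl H cy p.2 * v p.2 * f p) = (∑' p : (ι → ℤ) × (ι → ℤ), nb 1 H cx p.1 * U p.1 *
        (nb 1 H cy p.2 * v p.2 * f p)) / (th ((1 : ℝ) • H) cx / vol ((1 : ℝ) • H) *
          (th ((1 : ℝ) • H) cy / vol ((1 : ℝ) • H))) := by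
  have e := fun c => one_smul ℝ H ▸ gl_eq hH one_pos c
  rw [← tsum_div_const]
  refine tsum_congr fun p => ?_
  rw [e cx, e cy, one_smul]
  ring

theorem hs_flat {Q : Type} {μ : Om → ℝ} {f : Om → Q → ℝ} {S : ℝ} (hf : ∀ o, Summable (f o))
    (h : HasSum (fun p : Om × Q => μ p.1 * f p.1 p.2) S) : HasSum (fun o => μ o * ∑' q, f o q) S :=
  h.prod_fiberwise fun o => (hf o).hasSum.mul_left (μ o)

/-- the relative Kelley-Meka step in the fibres of a family -/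
theorem kmw (ε : ℝ) (hε : 0 < ε) (hε1 : ε ≤ 1) : ∃ Y0 : ℝ, ∀ X Y : ℝ, Y0 ≤ Y → 0 ≤ X →
    5 * X + 10 ≤ Y → ∀ (ι Om : Type) [Fintype ι] [DecidableEq ι] (μ : Om → ℝ)
      (H : Om → Matrix ι ι ℝ) (cx cy : Om → ι → ℝ) (N : ℕ) (γ σ lam M Λ η : ℝ)
      (U v F w χ : Om → (ι → ℤ) → ℝ), (∀ o, 0 ≤ μ o) → (∀ o, (H o).PosDef) →
      (Fintype.card ι : ℝ) ≤ Real.exp Y → Real.exp (4 * Y ^ 7) ≤ γ → Real.exp (10 * Y) * γ ≤ Λ →
      Real.exp (2 * Y ^ 7) ≤ σ → σ ≤ Real.exp (Y ^ 8) → Y ^ 7 ≤ N → η ≤ Real.exp (-Y ^ 14) →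
      M ≤ Real.exp (Real.exp Y) → Real.exp (-X) ≤ lam → lam ≤ Real.exp X →
      (∀ o x, 0 ≤ U o x ∧ U o x ≤ Real.exp X) → (∀ o x, 0 ≤ v o x ∧ v o x ≤ Real.exp X * w o x) →
      (∀ o x, 0 ≤ F o x ∧ F o x ≤ Real.exp X * χ o x) → (∀ o x, 0 ≤ w o x ∧ w o x ≤ M) →
      (∀ o x, 0 ≤ χ o x ∧ χ o x ≤ M) → Pat μ H cx cy χ w N Λ η →
      Real.exp (-X) ≤ ∑' o, μ o * ∑' p : (ι → ℤ) × (ι → ℤ), nb 1 (H o) (cx o) p.1 * U o p.1 *
        (nb 1 (H o) (cy o) p.2 * v o p.2 * (F o (p.1 + p.2) - lam * χ o (p.1 + p.2))) →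
      ∃ (θ : Om → Fin ⌊Y ^ 36⌋₊ → ι → ℝ) (S : ℝ), Real.exp (-Y ^ 46) ≤ S ∧
        HasSum (fun o => μ o * ∑' z, nb ((1 - Real.exp (-(2 * Y))) / 2) (H o) (cx o + cy o) z *
          if ε * lam / 8 ≤ exc γ σ (H o) (θ o) (fun s => F o s - (1 - ε) * lam * χ o s) z then 1
          else 0) S := by
  obtain ⟨Y1, hA⟩ := kms ε hε hε1
  refine ⟨max Y1 1000, fun X Y hY0 X0 hXY ι Om _ _ μ H cx cy N γ σ lam M Λ η U v F w χ μ0 hH hD hγ
    hΛ σ1 σ2 hN hη hM l1 l2 hU hv hF hw hχ hP ex => ?_⟩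
  have hY : 1000 ≤ Y := (le_max_right _ _).trans hY0
  have y1 : 1 ≤ Y := by linarith only [hY]
  obtain ⟨c, hc⟩ : ∃ c, c = 1 - Real.exp (-(2 * Y)) := ⟨_, rfl⟩
  obtain ⟨β, hβ⟩ : ∃ β, β = Real.exp (10 * Y) := ⟨_, rfl⟩
  rw [← hc]
  rw [← hβ] at hΛ
  obtain ⟨h0, h1, hD', β2, -⟩ := num_par hY hc hβ hD
  have c0 : 0 < c := by linarith only [h1]
  have q7 : 100 * Y ^ 6 ≤ Y ^ 7 := pw_le (by linarith only [hY]) 6
  have q6 : Y ≤ Y ^ 6 := le_self_pow₀ y1 (by norm_num)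
  have hγ' : Real.exp (3 * Y ^ 7) * β ≤ γ := by
    rw [hβ, ← Real.exp_add]
    exact (Real.exp_le_exp.2 (by linarith only [q7, q6, hY])).trans hγ
  have βγ : β ≤ γ :=
    (le_mul_of_one_le_left (by linarith only [β2]) (Real.one_le_exp (by positivity))).trans hγ'
  have β4 : 4 ≤ β * (1 - c) * (1 - c) := by
    rw [hc, hβ, sub_sub_cancel, ← Real.exp_add, ← Real.exp_add]
    linarith only [hY, Real.add_one_le_exp (10 * Y + -(2 * Y) + -(2 * Y))]
  obtain ⟨n, n1, n2⟩ : ∃ n : ℕ, Y ^ 6 ≤ n ∧ (n : ℝ) ≤ 2 * Y ^ 6 := ⟨_, Nat.le_ceil _,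
    (Nat.ceil_lt_add_one (by positivity)).le.trans (by linarith only [q6, y1])⟩
  have n3 : 1 ≤ n := Nat.one_le_cast.1 (y1.trans (q6.trans n1))
  have n4 : 2 * n ≤ N := Nat.cast_le.1 (show ((2 * n : ℕ) : ℝ) ≤ N by
    push_cast; linarith only [n2, hN, q7, q6, y1])
  obtain ⟨w1, w2, w3⟩ := num_w hY (Nat.cast_nonneg n) n2
  have sb := scs_bd c0 (by linarith only [h0]) β2 βγ
  choose SD d1 d2 using fun p : Pt n => hP.sq hH hw hχ ((sb p.2.1).1.imp_right (·.trans hΛ))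
    ((sb p.2.1).2.1.imp_right (·.trans hΛ)) ((sb p.2.1).2.2.imp_right (·.trans hΛ))
    (by have := p.1.1.2; omega) (by have := p.1.2.1.2; omega) (by have := p.1.2.2.2; omega)
    p.2.2.1 p.2.2.2
  have d3 := hasSum_sum fun p (_ : p ∈ univ) => d2 p
  simp only [← mul_sum] at d3
  have d4 : ∑ p, SD p ≤ 4 * Real.exp (3 * n + 2 * n ^ 2) * (4 * Real.exp (-Y ^ 14)) := by
    refine (sum_le_card_nsmul _ _ _ fun p _ => (d1 p).trans (mul_le_mul_of_nonneg_left hη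
      zero_le_four)).trans ?_
    rw [nsmul_eq_mul]
    exact mul_le_mul_of_nonneg_right (card_Pt n) (by positivity)
  obtain ⟨K, hK⟩ : ∃ K, K = Real.exp (X + 1) := ⟨_, rfl⟩
  have K0 : Real.exp X ≤ K := hK ▸ Real.exp_le_exp.2 (by linarith only)
  have K1 : 1 ≤ K := (Real.one_le_exp X0).trans K0
  have K5 : 128 * K ^ 5 ≤ Real.exp Y := by
    have e5 : (128 : ℝ) ≤ Real.exp 1 ^ 5 :=
      le_trans (by norm_num) (pow_le_pow_left₀ (by norm_num) Real.exp_one_gt_d9.le 5)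
    refine (mul_le_mul_of_nonneg_right e5 (by positivity)).trans ?_
    rw [hK, ← Real.exp_nat_mul, ← Real.exp_nat_mul, ← Real.exp_add]
    exact Real.exp_le_exp.2 (by push_cast; linarith only [hXY])
  have K3 : K ^ 3 ≤ Real.exp Y := by
    linarith only [K5, pow_le_pow_right₀ K1 (show 3 ≤ 5 by norm_num), pow_pos (one_pos.trans_le K1) 5]
  have K2 : 5 ≤ K ^ 2 * Real.exp (-X) := by
    rw [hK, ← Real.exp_nat_mul, ← Real.exp_add]
    refine le_trans ?_ (Real.exp_le_exp.2 (show 1 + 1 ≤ _ by push_cast; linarith only [X0]))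
    rw [Real.exp_add]
    nlinarith only [Real.exp_one_gt_d9]
  have l0 : 0 < lam := (Real.exp_pos _).trans_le l1
  have l3 : 1 ≤ K * lam := by
    refine le_trans ?_ (mul_le_mul K0 l1 (Real.exp_pos _).le (by linarith only [K1]))
    rw [← Real.exp_add, add_neg_cancel, Real.exp_zero]
  have δ0 := Real.exp_pos (-Y ^ 13)
  have hU' := fun o x => And.intro (hU o x).1 ((hU o x).2.trans K0)
  have hv' := fun o x => And.intro (hv o x).1
    ((hv o x).2.trans (mul_le_mul_of_nonneg_right K0 (hw o x).1))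
  have hF' := fun o x => And.intro (hF o x).1
    ((hF o x).2.trans (mul_le_mul_of_nonneg_right K0 (hχ o x).1))
  have np := fun o z => (nb_pos (hH o) (half_pos c0) (cx o + cy o) z).le
  have key : ∀ o, ∃ θ : Fin ⌊Y ^ 36⌋₊ → ι → ℝ, ∑' p : (ι → ℤ) × (ι → ℤ), nb 1 (H o) (cx o) p.1 *
      U o p.1 * (nb 1 (H o) (cy o) p.2 * v o p.2 * (F o (p.1 + p.2) - lam * χ o (p.1 + p.2))) ≤
      Real.exp (-X) / 4 + 8 * Real.exp Y * Real.exp (Y ^ 45) * (∑' z, nb (c / 2) (H o)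
        (cx o + cy o) z * if ε * lam / 8 ≤ exc γ σ (H o) θ
          (fun s => F o s - (1 - ε) * lam * χ o s) z then 1 else 0) +
        12 * Real.exp Y * Real.exp (Y ^ 13) ^ 2 *
          ∑ p : Pt n, dv (H o) (cx o) (cy o) (χ o) (w o) c β γ p := fun o => by
    have e1 := ex_le (cx := cx o) (cy := cy o) (hH o) h0 h1 hD' β4 (two_pos.trans_le β2)
      (zero_le_one.trans K1) l0.le (hU' o) (hv' o) (hF' o) (hw o) (hχ o)
    have e2 := single_le_sum (f := dv (H o) (cx o) (cy o) (χ o) (w o) c β γ)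
      (fun _ _ => sq_nonneg _) (mem_univ (⟨(⟨1, Nat.lt_succ_of_le n3⟩, ⟨1, Nat.lt_succ_of_le n3⟩,
        ⟨1, Nat.lt_succ_of_le n3⟩), 1, fun _ _ => true, fun _ _ => true⟩ : Pt n))
    change (cn (H o) (cx o) (cy o) (χ o) (w o) c (c * β / 2) c
      (fun (_ : Fin 1) (_ : Fin 1) => true) (fun (_ : Fin 1) _ => true) - 1) ^ 2 ≤ _ at e2
    have e3 := ex_gl (hH o) (cx o) (cy o) (U o) (v o)
      fun p => F o (p.1 + p.2) - lam * χ o (p.1 + p.2)
    have b0 : ∀ θ : Fin ⌊Y ^ 36⌋₊ → ι → ℝ, 0 ≤ ∑' z, nb (c / 2) (H o) (cx o + cy o) z *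
        if ε * lam / 8 ≤ exc γ σ (H o) θ (fun s => F o s - (1 - ε) * lam * χ o s) z then 1
        else 0 := fun θ => tsum_nonneg fun z => mul_nonneg (np o z) (ind_bd _).1
    have g := good (cx := cx o) (cy := cy o) (hH o) c0 (by linarith only [h0]) β2 βγ δ0.le
      (by linarith only [w1, w2]) n3 (hw o) (hχ o)
    generalize ∑ p : Pt n, dv (H o) (cx o) (cy o) (χ o) (w o) c β γ p = D at *
    generalize cn (H o) (cx o) (cy o) (χ o) (w o) c (c * β / 2) c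
      (fun (_ : Fin 1) (_ : Fin 1) => true) (fun (_ : Fin 1) _ => true) = P at *
    generalize ∑' p : (ι → ℤ) × (ι → ℤ), nb 1 (H o) (cx o) p.1 * U o p.1 * (nb 1 (H o) (cy o) p.2 *
      v o p.2 * (F o (p.1 + p.2) - lam * χ o (p.1 + p.2))) = e at *
    have D0 : 0 ≤ D := (sq_nonneg _).trans e2
    have x0 := Real.exp_pos (-X)
    have P0 : ∀ b, 0 ≤ b → P ≤ b → e ≤ 4 * Real.exp Y * b := fun b b0 hb => e1.trans (by
      rcases le_total 0 P with h | h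
      · exact mul_le_mul (by linarith only [K3]) hb h (by positivity)
      · exact (mul_nonpos_of_nonneg_of_nonpos (by positivity) h).trans (by positivity))
    by_cases hg : D ≤ Real.exp (-Y ^ 13) ^ 2
    · by_cases he : e ≤ Real.exp (-X) / 4
      · exact ⟨0, he.trans ((le_add_of_nonneg_right (mul_nonneg (by positivity) (b0 0))).trans
          (le_add_of_nonneg_right (by positivity)))⟩
      obtain ⟨g1, g2⟩ := g hg
      have δ1 : Real.exp (-Y ^ 13) ≤ 1 / 10 := (le_mul_of_one_le_left δ0.le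
        (Nat.one_le_cast.2 n3)).trans (by linarith only [w1, w2])
      have g3 : th ((β * γ) • H o)⁻¹ 0 ≤ 1 + 1 / 10 := by linarith only [g1, δ1]
      obtain ⟨θ, hθ⟩ := hA Y ((le_max_left _ _).trans hY0) ι (H o) (cx o) (cy o) n K c β γ σ lam M
        (U o) (v o) (F o) (w o) (χ o) (hH o) hD hc hβ hγ' σ1 σ2 n1 hM g3 K1 K5 l3 (l2.trans K0)
        (hU' o) (hv' o) (hF' o) (hw o) (hχ o) ((g2 0).mono w1)
        ((g2 1).mono (by linarith only [w1, w2])) ((g2 2).mono (by linarith only [w1, w2])) (by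
          obtain ⟨a1, a2⟩ := abs_le.1 (sm_near (hH o) one_pos (sb 3).1.2 g3 (cx o))
          obtain ⟨a3, a4⟩ := abs_le.1 (sm_near (hH o) one_pos (sb 3).1.2 g3 (cy o))
          rw [e3, ← mul_div_assoc, one_le_div (mul_pos (by linarith only [a1])
            (by linarith only [a3]))]
          nlinarith only [K2, mul_le_mul_of_nonneg_left (not_le.1 he).le (sq_nonneg K),
            mul_le_mul (sub_le_iff_le_add.1 a2) (sub_le_iff_le_add.1 a4) (by linarith only [a3])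
              (by norm_num)])
      refine ⟨θ, le_trans ?_ ((le_add_of_nonneg_left (by positivity)).trans
        (le_add_of_nonneg_right (by positivity)))⟩
      refine (P0 2 zero_le_two (by nlinarith only [e2.trans hg, δ1, δ0])).trans (le_trans
        (le_of_eq ?_) (mul_le_mul_of_nonneg_left hθ (by positivity)))
      rw [mul_assoc _ (Real.exp (Y ^ 45)), ← Real.exp_add, add_neg_cancel, Real.exp_zero]
      ring
    · have k1 : 1 ≤ Real.exp (Y ^ 13) ^ 2 * D := by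
        refine le_trans (le_of_eq ?_) (mul_le_mul_of_nonneg_left (not_le.1 hg).le (sq_nonneg _))
        rw [← mul_pow, ← Real.exp_add, add_neg_cancel, Real.exp_zero, one_pow]
      have k2 : D ≤ Real.exp (Y ^ 13) ^ 2 * D :=
        le_mul_of_one_le_left D0 (one_le_pow₀ (Real.one_le_exp (by positivity)))
      refine ⟨0, le_trans ?_ (le_add_of_nonneg_left (add_nonneg (by positivity)
        (mul_nonneg (by positivity) (b0 0))))⟩
      exact (P0 (3 * (Real.exp (Y ^ 13) ^ 2 * D)) (by positivity)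
        (by nlinarith only [e2, k1, k2, sq_nonneg (P - 3 / 2)])).trans_eq (by ring)
  choose θ hθ using key
  have c2 : 0 < c / 2 ∧ c / 2 ≤ Λ := ⟨half_pos c0, (half_le_self c0.le).trans ((sb 0).1.2.trans hΛ)⟩
  obtain ⟨S0, a0, b0⟩ := hP (Fin 0) (Fin 0) (Fin 0) (by simp) (by simp) (by simp) _ _ _ c2 c2 c2
    default default
  obtain ⟨S1, -, b1⟩ := hP (Fin 0) (Fin 1) (Fin 0) (by simp) (by simp; omega) (by simp) _ _ _ c2 c2
    c2 default default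
  simp only [cn_empty, mul_one] at b0
  have sβ := b1.summable.of_nonneg_of_le (g := fun o => μ o * ∑' z, nb (c / 2) (H o) (cx o + cy o) z *
      if ε * lam / 8 ≤ exc γ σ (H o) (θ o) (fun s => F o s - (1 - ε) * lam * χ o s) z then 1 else 0)
    (fun o => mul_nonneg (μ0 o) (tsum_nonneg fun z => mul_nonneg (np o z) (ind_bd _).1)) fun o => by
      have hc2 := (hH o).smul c2.1
      have s := hasSum_nb (hH o) c2.1 (cx o + cy o)
      refine mul_le_mul_of_nonneg_left ((hasSum_le (fun z => mul_le_of_le_one_right (np o z)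
        (ind_bd _).2) (summable_mul_real s.summable (np o) fun z => (abs_of_nonneg
          (ind_bd _).1).trans_le (ind_bd _).2).hasSum s).trans ?_) (μ0 o)
      rw [cn_mid (hH o) c2.1, div_le_iff₀ (vol_pos hc2), mul_comm, ← th_zero_eq hc2]
      exact th_le_th_zero hc2 _
  refine ⟨θ, _, ?_, sβ.hasSum⟩
  have se := by_contra fun h => (Real.exp_pos _).not_ge (ex.trans_eq
    (tsum_eq_zero_of_not_summable h))
  have k := ex.trans (hasSum_le (fun o => (mul_le_mul_of_nonneg_left (hθ o) (μ0 o)).trans_eq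
    (by simp only [dv]; ring)) se.hasSum (((b0.mul_left (Real.exp (-X) / 4)).add (sβ.hasSum.mul_left
      (8 * Real.exp Y * Real.exp (Y ^ 45)))).add
        (d3.mul_left (12 * Real.exp Y * Real.exp (Y ^ 13) ^ 2))))
  have k1 := mul_le_mul_of_nonneg_left d4
    (show 0 ≤ 12 * Real.exp Y * Real.exp (Y ^ 13) ^ 2 by positivity)
  have k2 : Real.exp (-Y) ≤ Real.exp (-X) := Real.exp_le_exp.2 (by linarith only [hXY, X0])
  have k3 : S0 ≤ 2 := by
    linarith only [(abs_le.1 a0).2, hη, Real.exp_le_one_iff.2 (neg_nonpos.2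
      (show 0 ≤ Y ^ 14 by positivity))]
  have k4 := mul_le_mul_of_nonneg_left k3 (Real.exp_pos (-X)).le
  have k5 : 32 * Real.exp Y * Real.exp (Y ^ 45) * Real.exp (-Y ^ 46) ≤ Real.exp (-Y) := by
    refine le_trans (mul_le_mul_of_nonneg_right (mul_le_mul_of_nonneg_right
      (mul_le_mul_of_nonneg_right (show 32 ≤ Real.exp Y by
        linarith only [hY, Real.add_one_le_exp Y]) (Real.exp_pos _).le) (Real.exp_pos _).le)
      (Real.exp_pos _).le) ?_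
    simp only [← Real.exp_add]
    have q : 100 * Y ^ 45 ≤ Y ^ 46 := pw_le (by linarith only [hY]) 45
    exact Real.exp_le_exp.2 (by linarith only [q, y1, le_self_pow₀ y1 (show 45 ≠ 0 by norm_num)])
  refine le_of_mul_le_mul_left (a := 8 * Real.exp Y * Real.exp (Y ^ 45)) ?_ (by positivity)
  linarith only [k, k1, k2, k4, k5, w3]

end

end Vale.Agent.P057KR
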