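import Vale.Agent.P057KR.Kmf

/-! Relative Kelley-Meka step: the set of good base points has large weight. -/

set_option linter.all false

open Finset Filter Topology Matrix
open scoped BigOperators Real

namespace Vale.Agent.P057KR

open Vale.Agent.P057FT Vale.Agent.P057HU Vale.Agent.P057G Vale.Agent.P267.H775

noncomputable section

theorem hs_mul {α β : Type} {f : α → ℝ} {g : β → ℝ} {a b : ℝ} (hf : HasSum f a) (hg : HasSum g b)
    (f0 : ∀ x, 0 ≤ f x) (g0 : ∀ y, 0 ≤ g y) : HasSum (fun p : α × β => f p.1 * g p.2) (a * b) :=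
  hf.mul hg (hf.summable.mul_of_nonneg hg.summable f0 g0)

/-- a flat second moment as an iterated one -/
theorem mom_flat {α β γ : Type} {c u w : γ → ℝ} {p : γ → α → ℝ} {q : γ → β → ℝ} {S : ℝ}
    (hu : ∀ z, HasSum (p z) (u z)) (hw : ∀ z, HasSum (q z) (w z)) (p0 : ∀ z x, 0 ≤ p z x)
    (q0 : ∀ z y, 0 ≤ q z y) (h : HasSum (fun s : γ × (α × α) × β × β =>
      c s.1 * (p s.1 s.2.1.1 * p s.1 s.2.1.2 * (q s.1 s.2.2.1 * q s.1 s.2.2.2))) S) :
    HasSum (fun z => c z * (u z * w z) ^ 2) S := by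
  refine h.prod_fiberwise fun z => ?_
  rw [show (u z * w z) ^ 2 = u z * u z * (w z * w z) by ring]
  exact (hs_mul (hs_mul (hu z) (hu z) (p0 z) (p0 z)) (hs_mul (hw z) (hw z) (q0 z) (q0 z))
    (fun x => mul_nonneg (p0 z _) (p0 z _)) fun x => mul_nonneg (q0 z _) (q0 z _)).mul_left (c z)

theorem base_set {G : Type} [AddCommGroup G] [DecidableEq G] {b0 b0' b1 b2 v ω u w g : G → ℝ}
    {A1 A2 : Finset G} {K K' C κ W S M : ℝ} (h1 : A1.Nonempty) (h2 : A2.Nonempty)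
    (n0 : ∀ t, 0 ≤ b0 t) (n0' : ∀ t, 0 ≤ b0' t) (n1 : ∀ t, 0 ≤ b1 t) (n2 : ∀ t, 0 ≤ b2 t)
    (s0' : Summable b0') (s1 : Summable b1) (dom : ∀ t, ∀ a ∈ A2, b0 t ≤ 4 * b0' (t + a))
    (d1 : ∀ a ∈ A1, 1 ≤ K * #A1 * b1 a) (d2 : ∀ a ∈ A2, 1 ≤ K * #A2 * b2 a) (hK : 0 ≤ K)
    (hK' : 0 ≤ K') (hC : 0 ≤ C) (hκ : 0 ≤ κ) (hv : ∀ t, 0 ≤ v t ∧ v t ≤ K' * ω t)
    (ω0 : ∀ t, 0 ≤ ω t) (sW : HasSum (fun t => b0 t * v t) W)
    (hw : ∀ τ, HasSum (fun a => b2 a * ω (τ - a)) (w τ)) (u0 : ∀ z, 0 ≤ u z)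
    (hg : ∀ z, g z ≤ C * u z) (hM : ∀ z, |g z| ≤ M)
    (mom : HasSum (fun p : G × G => b1 p.1 * b0' p.2 * (u (p.1 + p.2) * w p.2) ^ 2) S)
    (main : 2 * κ * W * (#A1 * #A2) ≤ ∑ a ∈ A1, ∑ a' ∈ A2, ∑' t, b0 t * v t * g (a + a' + t)) :
    (κ * W) ^ 2 ≤ (4 * K ^ 2 * K' * C) ^ 2 * S *
      ∑' p : G × G, b1 p.1 * b0' p.2 * if κ ≤ g (p.1 + p.2) then 1 else 0 := by
  have w0 : ∀ τ, 0 ≤ w τ := fun τ => (hw τ).nonneg fun a => mul_nonneg (n2 _) (ω0 _)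
  have i0 : ∀ z, (0 : ℝ) ≤ if κ ≤ g z then 1 else 0 := fun z => by split_ifs <;> norm_num
  have i1 : ∀ z, |(if κ ≤ g z then 1 else 0 : ℝ)| ≤ 1 := fun z => by split_ifs <;> norm_num
  have m0 : ∀ p : G × G, 0 ≤ b1 p.1 * b0' p.2 := fun p => mul_nonneg (n1 _) (n0' _)
  obtain ⟨c, hc⟩ : ∃ c : G × G → ℝ, c = fun p => b1 p.1 * b0' p.2 *
    (u (p.1 + p.2) * w p.2 * if κ ≤ g (p.1 + p.2) then 1 else 0) := ⟨_, rfl⟩
  have c0 : ∀ p, 0 ≤ c p := fun p => by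
    rw [hc]; exact mul_nonneg (m0 p) (mul_nonneg (mul_nonneg (u0 _) (w0 _)) (i0 _))
  obtain ⟨sc, cs⟩ := tsum_cs (c := c) mom.summable
    (summable_mul_real (s1.mul_of_nonneg s0' n1 n0') m0 fun p => i1 (p.1 + p.2))
    (fun p => mul_nonneg (m0 p) (sq_nonneg _)) (fun p => mul_nonneg (m0 p) (i0 _)) c0 fun p => by
      rw [hc]
      dsimp only
      split_ifs <;> exact le_of_eq (by ring)
  rw [mom.tsum_eq] at cs
  have W0 : 0 ≤ W := sW.nonneg fun t => mul_nonneg (n0 t) (hv t).1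
  have sh : ∀ (a : G) {f : G → ℝ} {s : ℝ}, HasSum f s → HasSum (fun τ => f (τ - a)) s :=
    fun a f s h => (Equiv.subRight a).hasSum_iff.2 h
  have e1 : ∀ a ∈ A1, ∑ a' ∈ A2, ∑' t, b0 t * v t * g (a + a' + t) ≤
      κ * (#A2 * W) + 4 * K ^ 2 * K' * C * (#A1 * #A2) * ∑' τ, c (a, τ) := fun a ha => by
    have k1 := hasSum_sum fun a' (_ : a' ∈ A2) => sh a' (summable_mul_real sW.summable
      (fun t => mul_nonneg (n0 t) (hv t).1) fun t => hM (a + a' + t)).hasSum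
    have k2 := hasSum_sum fun a' (_ : a' ∈ A2) => sh a' sW
    rw [sum_const, nsmul_eq_mul] at k2
    refine hasSum_le (fun τ => ?_) k1 ((k2.mul_left κ).add
      ((sc.prod_factor a).hasSum.mul_left _))
    simp only [add_assoc a, add_sub_cancel, ← sum_mul]
    have k0 : 0 ≤ ∑ a' ∈ A2, b0 (τ - a') * v (τ - a') :=
      sum_nonneg fun a' _ => mul_nonneg (n0 _) (hv _).1
    have k3 : ∑ a' ∈ A2, b0 (τ - a') * v (τ - a') ≤ 4 * b0' τ * K' * (K * #A2) * w τ := by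
      refine le_trans ?_ (mul_le_mul_of_nonneg_left (sum_le_hasSum A2
        (fun a _ => mul_nonneg (n2 _) (ω0 _)) (hw τ)) (by have := n0' τ; positivity))
      rw [mul_sum]
      refine sum_le_sum fun a' ha' => ?_
      have k4 := dom (τ - a') a' ha'
      rw [sub_add_cancel] at k4
      have k5 := mul_le_mul k4 (hv (τ - a')).2 (hv _).1 (by have := n0' τ; positivity)
      have k6 := mul_le_mul_of_nonneg_left (d2 a' ha')
        (show 0 ≤ 4 * b0' τ * (K' * ω (τ - a')) by have := n0' τ; have := ω0 (τ - a'); positivity)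
      linarith
    rw [hc]
    dsimp only
    split_ifs with hi
    · have k4 := mul_le_mul k3 (hg (a + τ)) (hκ.trans hi)
        (by have := n0' τ; have := w0 τ; positivity)
      have k5 := mul_le_mul_of_nonneg_left (d1 a ha)
        (show 0 ≤ 4 * b0' τ * K' * (K * #A2) * w τ * (C * u (a + τ)) by
          have := n0' τ; have := w0 τ; have := u0 (a + τ); positivity)
      linarith [mul_nonneg hκ k0]
    · linarith [mul_le_mul_of_nonneg_left (not_le.1 hi).le k0]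
  have e2 := main.trans (sum_le_sum e1)
  rw [sum_add_distrib, sum_const, nsmul_eq_mul, ← mul_sum] at e2
  have e3 : ∑ a ∈ A1, ∑' τ, c (a, τ) ≤ ∑' p, c p :=
    sum_le_hasSum A1 (fun a _ => tsum_nonneg fun τ => c0 _)
      (sc.hasSum.prod_fiberwise fun a => (sc.prod_factor a).hasSum)
  have p0 : (0 : ℝ) < #A1 * #A2 := by
    have := h1.card_pos
    have := h2.card_pos
    positivity
  have e4 : κ * W ≤ 4 * K ^ 2 * K' * C * ∑' p, c p := by
    refine le_of_mul_le_mul_right ?_ p0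
    have := mul_le_mul_of_nonneg_left e3 (show 0 ≤ 4 * K ^ 2 * K' * C * (#A1 * #A2) by positivity)
    linarith
  refine (pow_le_pow_left₀ (mul_nonneg hκ W0) e4 2).trans ?_
  rw [mul_pow, mul_assoc _ S]
  exact mul_le_mul_of_nonneg_left cs (sq_nonneg _)

variable {ι κ : Type} [Fintype ι] [DecidableEq ι] [Fintype κ] [DecidableEq κ]

theorem ker_le {A : Matrix ι ι ℝ} {B : Matrix κ κ ℝ} (hA : A.PosDef) (hB : B.PosDef)
    (L : Matrix κ ι ℝ) (x : ι → ℤ) :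
    ker A B L x ≤ th B⁻¹ 0 * (∑' y, ker A B L y) * gl A 0 x := by
  have h1 := fib_ge hA hB L
  have h2 := th_le_th_zero hB (L *ᵥ toR x)
  rw [th_zero_eq hB] at h2
  rw [gl, sub_zero, ← mul_div_assoc, le_div_iff₀ (th_pos hA _)]
  calc _ ≤ gs A (toR x) * (vol B * th B⁻¹ 0) * th A 0 := mul_le_mul_of_nonneg_right
        (mul_le_mul_of_nonneg_left h2 (gs_pos _ _).le) (th_nonneg _ _)
    _ = th B⁻¹ 0 * (vol B * th A 0) * gs A (toR x) := by ring
    _ ≤ _ := mul_le_mul_of_nonneg_right (mul_le_mul_of_nonneg_left h1 (th_nonneg _ _))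
        (gs_pos _ _).le

/-- the law of a sum of two independent discrete Gaussians -/
theorem conv_gl {H G G' : Matrix ι ι ℝ} (hH : H.PosDef) (hG : G.PosDef) (hG' : G'.PosDef)
    (w : ∀ y, qq H y ≤ qq G y) (w' : ∀ y, qq H y ≤ qq G' y) (c c' : ι → ℝ) {f : (ι → ℤ) → ℝ}
    {M : ℝ} (hf : ∀ z, 0 ≤ f z ∧ f z ≤ M) :
    ∑' p : (ι → ℤ) × (ι → ℤ), gl G c p.1 * gl G' c' p.2 * f (p.1 + p.2) ≤
      th ((2 : ℝ) • H) 0 / (th G c * th G' c') *
        ∑' z, gs ((1 / 2 : ℝ) • H) (toR z - (c + c')) * f z := by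
  have f1 : ∀ z, |f z| ≤ M := fun z => (abs_of_nonneg (hf z).1).trans_le (hf z).2
  have s1 := summable_mul_real ((hasSum_gl hG c).summable.mul_of_nonneg (hasSum_gl hG' c').summable
    (fun _ => (gl_pos hG _ _).le) fun _ => (gl_pos hG' _ _).le)
    (fun p => (mul_pos (gl_pos hG _ _) (gl_pos hG' _ _)).le) fun p => f1 (p.1 + p.2)
  let e : (ι → ℤ) × (ι → ℤ) ≃ (ι → ℤ) × (ι → ℤ) :=
    ⟨fun p => (p.2, p.1 - p.2), fun p => (p.1 + p.2, p.1), fun p => by simp, fun p => by simp⟩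
  have s2 := e.hasSum_iff.2 s1.hasSum
  have h2 : ((2 : ℝ) • H).PosDef := hH.smul (by norm_num)
  refine hasSum_le (fun z => ?_) (s2.prod_fiberwise fun z => (s2.summable.prod_factor z).hasSum)
    ((summable_mul_real (summable_gs (hH.smul (by norm_num)) _) (fun _ => (gs_pos _ _).le)
      f1).hasSum.mul_left _)
  have t0 := mul_pos (th_pos hG c) (th_pos hG' c')
  refine (hasSum_le (fun a => ?_) (s2.summable.prod_factor z).hasSum
    ((hasSum_th h2 (c + (1 / 2 : ℝ) • (toR z - (c + c')))).mul_left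
      (gs ((1 / 2 : ℝ) • H) (toR z - (c + c')) * f z / (th G c * th G' c')))).trans ?_
  · simp only [Function.comp, e, Equiv.coe_fn_mk, add_sub_cancel, gl, toR_sub']
    rw [div_mul_div_comm, div_mul_eq_mul_div, div_mul_eq_mul_div, mul_right_comm _ (f z)]
    refine div_le_div_of_nonneg_right (mul_le_mul_of_nonneg_right ?_ (hf z).1) t0.le
    have k1 : toR z - (c + c') = toR a - c + (toR z - toR a - c') := by abel
    have k2 : toR a - (c + (1 / 2 : ℝ) • (toR a - c + (toR z - toR a - c'))) =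
        (1 / 2 : ℝ) • (toR a - c - (toR z - toR a - c')) := by
      funext i
      simp only [Pi.sub_apply, Pi.add_apply, Pi.smul_apply, smul_eq_mul]
      ring
    rw [k1, k2]
    generalize toR z - toR a - c' = y
    generalize toR a - c = x
    unfold gs
    rw [← Real.exp_add, ← Real.exp_add, qq_smul_mat, qq_smul_mat, qq_smul, qq_add hH.1, qq_sub hH.1]
    exact Real.exp_le_exp.2 (by
      linarith [mul_le_mul_of_nonneg_left (add_le_add (w x) (w' y)) Real.pi_pos.le])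
  · rw [div_mul_eq_mul_div, div_mul_eq_mul_div, mul_comm (th _ 0)]
    exact div_le_div_of_nonneg_right (mul_le_mul_of_nonneg_left (th_le_th_zero h2 _)
      (mul_nonneg (gs_pos _ _).le (hf z).1)) t0.le

/-- the good base points have large weight -/
theorem Out.base {G2 G3 : Matrix ι ι ℝ} {ρ X ε θ0 W M R S : ℝ}
    {b0 b0' b1 b2 v F ω χ : (ι → ℤ) → ℝ}
    {A1 A2 : Finset (ι → ℤ)} {r : ℕ} {θ : Fin r → ι → ℝ} {B : Matrix (Fin r) (Fin r) ℝ}
    (h : Out (fun x => √(qq G2 (toR x))) ρ X ε (θ0 * W) W b0 b1 b2 v F χ A1 A2 θ) (hε : 0 < ε)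
    (hε1 : 4 * ε ≤ 1) (hθ : 0 ≤ θ0) (hX : 0 ≤ X) (hW : Real.exp (-X ^ 10) ≤ ε * W)
    (n0 : ∀ t, 0 ≤ b0 t) (hv : ∀ t, 0 ≤ v t ∧ v t ≤ Real.exp X * ω t)
    (sW : HasSum (fun t => b0 t * v t) W) (hF : ∀ x, 0 ≤ F x ∧ F x ≤ M)
    (hF' : ∀ x, F x ≤ Real.exp X * χ x) (hχ : ∀ x, 0 ≤ χ x ∧ χ x ≤ M)
    (hω : ∀ x, 0 ≤ ω x ∧ ω x ≤ M) (h3 : G3.PosDef) (hB : B.PosDef) (hR : 0 ≤ R)
    (w3 : ∀ y, R * qq G2 y ≤ (ρ * Real.exp (-X ^ 7)) ^ 2 * qq G3 y)
    (wB : ∀ u i, R * u i ^ 2 ≤ Real.exp (-X ^ 7) ^ 2 * qq B u) (hρ : 0 < ρ)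
    (hη : Real.exp (Fintype.card ι + r - R) * (1 + M) ≤ ε) (n0' : ∀ t, 0 ≤ b0' t)
    (n1 : ∀ t, 0 ≤ b1 t) (n2 : ∀ t, 0 ≤ b2 t) (s0' : Summable b0') (s1 : Summable b1)
    (s2 : Summable b2) (dom : ∀ t, ∀ a ∈ A2, b0 t ≤ 4 * b0' (t + a))
    (mom : HasSum (fun p : (ι → ℤ) × (ι → ℤ) => b1 p.1 * b0' p.2 *
      ((∑' x, gl G3 0 x * χ (p.1 + p.2 + x)) * ∑' a, b2 a * ω (p.2 - a)) ^ 2) S) :
    (ε * θ0 / 2 * W) ^ 2 ≤ (4 * Real.exp (X ^ 6) ^ 2 * Real.exp X ^ 2 * th B⁻¹ 0) ^ 2 * S *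
      ∑' p : (ι → ℤ) × (ι → ℤ), b1 p.1 * b0' p.2 *
        if ε * θ0 / 2 * ∑' x, ker G3 B (Matrix.of θ) x ≤ ∑' x, ker G3 B (Matrix.of θ) x *
          (F (p.1 + p.2 + x) - (1 - 4 * ε) * θ0 * χ (p.1 + p.2 + x)) then 1 else 0 := by
  have g := h.gauss hε hε1 hθ hρ.le hX hW n0 (fun t => (hv t).1) sW hF hχ h3 hB hR w3 wB hρ hη
  have sk := summable_ker h3 hB (Matrix.of θ)
  have kn := ker_nonneg (A := G3) (B := B) (Matrix.of θ)
  have kl := ker_le h3 hB (Matrix.of θ)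
  have Z0 := (mul_pos (vol_pos hB) (th_pos h3 0)).trans_le (fib_ge h3 hB (Matrix.of θ))
  change 0 < ∑' x, ker G3 B (Matrix.of θ) x at Z0
  have c0 : 0 ≤ (1 - 4 * ε) * θ0 := mul_nonneg (by linarith) hθ
  have ab : ∀ {f : (ι → ℤ) → ℝ}, (∀ x, 0 ≤ f x ∧ f x ≤ M) → ∀ x, |f x| ≤ M := fun hf x =>
    (abs_of_nonneg (hf x).1).trans_le (hf x).2
  have bd : ∀ z, |F z - (1 - 4 * ε) * θ0 * χ z| ≤ M + (1 - 4 * ε) * θ0 * M := fun z =>
    (abs_sub _ _).trans (add_le_add (ab hF z) ((abs_of_nonneg (mul_nonneg c0 (hχ _).1)).trans_le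
      (mul_le_mul_of_nonneg_left (hχ _).2 c0)))
  have su := fun z => (summable_mul_real (hasSum_gl h3 0).summable (fun _ => (gl_pos h3 _ _).le)
    fun x => ab hχ (z + x)).hasSum
  have sw := fun τ => (summable_mul_real s2 n2 fun a => ab hω (τ - a)).hasSum
  have p3 := fun z x => mul_nonneg (gl_pos h3 0 x).le (hχ (z + x)).1
  have sZ := sk.hasSum
  generalize ∑' x, ker G3 B (Matrix.of θ) x = Z at *
  have k := base_set (κ := ε * θ0 / 2 * Z) (C := Real.exp X * th B⁻¹ 0 * Z)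
    (M := (M + (1 - 4 * ε) * θ0 * M) * Z) (g := fun z => ∑' x, ker G3 B (Matrix.of θ) x *
      (F (z + x) - (1 - 4 * ε) * θ0 * χ (z + x))) h.n1 h.n2 n0 n0' n1 n2 s0' s1 dom h.d1 h.d2
    (Real.exp_pos _).le (Real.exp_pos _).le (by have := th_nonneg B⁻¹ 0; positivity)
    (by positivity) hv (fun t => (hω t).1) sW sw (fun z => (su z).nonneg (p3 z))
    (fun z => hasSum_le (fun x => ?_) (summable_mul_real sk kn fun x => bd (z + x)).hasSum
      ((su z).mul_left _))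
    (fun z => (summable_mul_real sk kn fun x => bd (z + x)).hasSum.norm_le_of_bounded
      (sZ.mul_left (M + (1 - 4 * ε) * θ0 * M)) fun x => by
      rw [Real.norm_eq_abs, abs_mul, abs_of_nonneg (kn x)]
      exact (mul_le_mul_of_nonneg_left (bd _) (kn x)).trans_eq (mul_comm _ _))
    mom (le_of_eq_of_le (by ring) g)
  · refine le_of_mul_le_mul_left (le_of_eq_of_le (by ring) (k.trans_eq (by ring))) (pow_pos Z0 2)
  · have k1 : F (z + x) - (1 - 4 * ε) * θ0 * χ (z + x) ≤ Real.exp X * χ (z + x) := by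
      linarith [hF' (z + x), mul_nonneg c0 (hχ (z + x)).1]
    refine (mul_le_mul_of_nonneg_left k1 (kn x)).trans ((mul_le_mul_of_nonneg_right (kl x)
      (mul_nonneg (Real.exp_pos _).le (hχ _).1)).trans_eq (by ring))

end

end Vale.Agent.P057KR
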