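import Vale.Agent.P057KR.Core

/-! The linear forms condition for a weighted tripartite system and the box counts it gives. -/

set_option linter.all false

open Finset
open scoped BigOperators

namespace Vale.Agent.P057KR

open Vale.Agent.P057Z.Km

noncomputable section

variable {α β γ : Type} [Fintype α] [Fintype β] [Fintype γ]

/-- the integrand of a tripartite pattern -/
def pat {α β γ : Type} (a : α → ℝ) (b : β → ℝ) (c : γ → ℝ) (n12 : α → β → ℝ) (n13 : α → γ → ℝ)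
    (n23 : β → γ → ℝ) {I J K : Type} [Fintype I] [Fintype J] [Fintype K] (E12 : I → J → Bool)
    (E13 : I → K → Bool) (E23 : J → K → Bool) (x : I → α) (y : J → β) (z : K → γ) : ℝ :=
  (∏ i, a (x i)) * (∏ j, b (y j)) * (∏ k, c (z k)) *
    ((∏ i, ∏ j, cond (E12 i j) (n12 (x i) (y j)) 1) *
      (∏ i, ∏ k, cond (E13 i k) (n13 (x i) (z k)) 1) *
        ∏ j, ∏ k, cond (E23 j k) (n23 (y j) (z k)) 1)

/-- all patterns on the vertex classes I, J, K have count close to one -/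
def Lf (a : α → ℝ) (b : β → ℝ) (c : γ → ℝ) (n12 : α → β → ℝ) (n13 : α → γ → ℝ)
    (n23 : β → γ → ℝ) (I J K : Type) [Fintype I] [Fintype J] [Fintype K] [DecidableEq I]
    [DecidableEq J] [DecidableEq K] (δ : ℝ) : Prop :=
  ∀ (E12 : I → J → Bool) (E13 : I → K → Bool) (E23 : J → K → Bool),
    |∑ x, ∑ y, ∑ z, pat a b c n12 n13 n23 E12 E13 E23 x y z - 1| ≤ δ

/-- the linear forms condition up to N vertices in each class -/
def LFC (a : α → ℝ) (b : β → ℝ) (c : γ → ℝ) (n12 : α → β → ℝ) (n13 : α → γ → ℝ)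
    (n23 : β → γ → ℝ) (N : ℕ) (δ : ℝ) : Prop :=
  ∀ i j k : ℕ, i ≤ N → j ≤ N → k ≤ N → Lf a b c n12 n13 n23 (Fin i) (Fin j) (Fin k) δ

variable {a : α → ℝ} {b : β → ℝ} {c : γ → ℝ} {n12 : α → β → ℝ} {n13 : α → γ → ℝ}
  {n23 : β → γ → ℝ} {I J K I' J' K' : Type} [Fintype I] [Fintype J] [Fintype K] [DecidableEq I]
  [DecidableEq J] [DecidableEq K] [Fintype I'] [Fintype J'] [Fintype K'] [DecidableEq I']
  [DecidableEq J'] [DecidableEq K'] {δ : ℝ}

theorem Lf.swap12 (h : Lf a b c n12 n13 n23 I J K δ) :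
    Lf b a c (fun y x => n12 x y) n23 n13 J I K δ := by
  intro E12 E13 E23
  rw [sum_comm]
  convert h (fun i j => E12 j i) E23 E13 using 8 with x _ y _ z _
  unfold pat
  rw [prod_comm (s := (univ : Finset J))]
  ring

theorem Lf.swap23 (h : Lf a b c n12 n13 n23 I J K δ) :
    Lf a c b n13 n12 (fun z y => n23 y z) I K J δ := by
  intro E12 E13 E23
  convert h E13 E12 (fun j k => E23 k j) using 4 with x _
  rw [sum_comm]
  refine sum_congr rfl fun y _ => sum_congr rfl fun z _ => ?_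
  unfold pat
  rw [prod_comm (s := (univ : Finset K)) (t := (univ : Finset J))]
  ring

theorem Lf.equiv1 (e : I ≃ I') (h : Lf a b c n12 n13 n23 I J K δ) :
    Lf a b c n12 n13 n23 I' J K δ := by
  intro E12 E13 E23
  convert h (fun i => E12 (e i)) (fun i => E13 (e i)) E23 using 3
  refine Fintype.sum_equiv (e.symm.arrowCongr (Equiv.refl α)) _ _ fun x => ?_
  refine sum_congr rfl fun y _ => sum_congr rfl fun z _ => ?_
  simp only [pat, Equiv.arrowCongr_apply, Equiv.symm_symm, Equiv.coe_refl, Function.comp, id]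
  rw [← e.prod_comp, ← e.prod_comp fun i => ∏ j, cond (E12 i j) (n12 (x i) (y j)) 1,
    ← e.prod_comp fun i => ∏ j, cond (E13 i j) (n13 (x i) (z j)) 1]

theorem Lf.equiv (e1 : I ≃ I') (e2 : J ≃ J') (e3 : K ≃ K') (h : Lf a b c n12 n13 n23 I J K δ) :
    Lf a b c n12 n13 n23 I' J' K' δ :=
  (((((h.equiv1 e1).swap12.equiv1 e2).swap12).swap23.swap12.equiv1 e3).swap12).swap23

theorem LFC.lf {N : ℕ} (h : LFC a b c n12 n13 n23 N δ) (hI : Fintype.card I ≤ N)
    (hJ : Fintype.card J ≤ N) (hK : Fintype.card K ≤ N) : Lf a b c n12 n13 n23 I J K δ :=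
  (h _ _ _ hI hJ hK).equiv (Fintype.equivFin I).symm (Fintype.equivFin J).symm
    (Fintype.equivFin K).symm

theorem Lf.tens (h : Lf a b c n12 n13 n23 I J (K × K') δ) :
    Lf a b (fun τ : K' → γ => ∏ l, c (τ l)) n12 (fun x τ => ∏ l, n13 x (τ l))
      (fun y τ => ∏ l, n23 y (τ l)) I J K δ := by
  intro E12 E13 E23
  convert h E12 (fun i k => E13 i k.1) (fun j k => E23 j k.1) using 6 with x _ y _
  refine (Fintype.sum_equiv (Equiv.curry K K' γ) _ _ fun z => ?_).symm
  have e : ∀ (s : Bool) (f : K' → ℝ), ∏ l, cond s (f l) 1 = cond s (∏ l, f l) 1 := fun s f => by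
    cases s <;> simp
  simp only [pat, Fintype.prod_prod_type, e, Equiv.curry_apply, Function.curry]

theorem alt {T Z : Type} [Fintype T] [DecidableEq T] [Fintype Z] [Nonempty T] (μ : Z → ℝ)
    (N : T → Z → ℝ) (h : ∀ E : T → Bool, |∑ z, μ z * ∏ t, cond (E t) (N t z) 1 - 1| ≤ δ) :
    ∑ z, μ z * ∏ t, (N t z - 1) ≤ 2 ^ Fintype.card T * δ := by
  have e1 : ∀ z, ∏ t, (N t z - 1) =
      ∑ E : T → Bool, (∏ t, cond (E t) (1 : ℝ) (-1)) * ∏ t, cond (E t) (N t z) 1 := fun z => by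
    simp only [← prod_mul_distrib]
    rw [← Fintype.prod_sum fun t (s : Bool) => cond s (1 : ℝ) (-1) * cond s (N t z) 1]
    exact prod_congr rfl fun t _ => by simp [sub_eq_add_neg]
  have e2 : ∑ E : T → Bool, (∏ t, cond (E t) (1 : ℝ) (-1)) = 0 := by
    rw [← Fintype.prod_sum fun (t : T) (s : Bool) => cond s (1 : ℝ) (-1)]
    simp
  have e3 : ∑ z, μ z * ∏ t, (N t z - 1) = ∑ E : T → Bool, (∏ t, cond (E t) (1 : ℝ) (-1)) *
      (∑ z, μ z * ∏ t, cond (E t) (N t z) 1 - 1) := by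
    simp only [mul_sub, mul_one, sum_sub_distrib, e2, sub_zero, e1, mul_sum]
    rw [sum_comm]
    exact sum_congr rfl fun E _ => sum_congr rfl fun z _ => by ring
  rw [e3]
  refine (sum_le_card_nsmul _ _ δ fun E _ => (le_abs_self _).trans ?_).trans (le_of_eq ?_)
  · rw [abs_mul, abs_prod, prod_eq_one fun t _ => by cases E t <;> simp, one_mul]
    exact h E
  · simp

theorem Lf.box (h : Lf a b c n12 n13 n23 (Fin 2) (Fin 2) K δ) (e1 e2 : Bool) :
    box (fun z : K → γ => ∏ l, c (z l)) a b (fun z x => ∏ l, cond e1 (n13 x (z l)) 1)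
      (fun z y => ∏ l, cond e2 (n23 y (z l)) 1) (fun _ x y => n12 x y - 1) ≤ 16 * δ := by
  have h1 := alt (T := Fin 2 × Fin 2) (δ := δ)
    (fun q : (Fin 2 → α) × (Fin 2 → β) × (K → γ) => pat a b c n12 n13 n23 (fun _ _ => false)
      (fun _ _ => e1) (fun _ _ => e2) q.1 q.2.1 q.2.2) (fun t q => n12 (q.1 t.1) (q.2.1 t.2))
    fun E => by
      convert h (fun i j => E (i, j)) (fun _ _ => e1) (fun _ _ => e2) using 3
      simp only [Fintype.sum_prod_type]
      refine sum_congr rfl fun x _ => sum_congr rfl fun y _ => sum_congr rfl fun z _ => ?_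
      simp only [pat, Fintype.prod_prod_type, cond_false, prod_const_one]
      ring
  refine le_trans (le_of_eq ?_) (h1.trans_eq (by norm_num))
  simp only [Fintype.sum_prod_type, P057KR.box, Fintype.sum_pow, mul_sum]
  rw [sum_comm]
  conv_rhs => rw [sum_comm]
  refine sum_congr rfl fun y _ => ?_
  rw [sum_comm]
  refine sum_congr rfl fun x _ => sum_congr rfl fun z _ => ?_
  simp only [pat, Fintype.prod_prod_type, cond_false, prod_const_one, prod_mul_distrib]
  ring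

theorem Lf.mom {i j : ℕ} (h : Lf a b c n12 n13 n23 (Fin i) (Fin j) K δ) :
    ∑ z : K → γ, (∏ l, c (z l)) * ((∑ x, a x * ∏ l, n13 x (z l)) ^ i *
      (∑ y, b y * ∏ l, n23 y (z l)) ^ j) ≤ 1 + δ := by
  have h1 := (abs_le.1 (h (fun _ _ => false) (fun _ _ => true) fun _ _ => true)).2
  rw [sub_le_iff_le_add'] at h1
  refine le_trans (le_of_eq ?_) h1
  simp only [Fintype.sum_pow, mul_sum, sum_mul]
  rw [sum_comm]
  conv_rhs => rw [sum_comm]
  refine sum_congr rfl fun y _ => ?_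
  rw [sum_comm]
  refine sum_congr rfl fun x _ => sum_congr rfl fun z _ => ?_
  simp only [pat, cond_false, cond_true, prod_const_one, prod_mul_distrib]
  ring

/-- the counts needed by sifting with P copies and densification with m copies -/
structure Cnt3 (a : α → ℝ) (b : β → ℝ) (c : γ → ℝ) (n12 : α → β → ℝ) (n13 : α → γ → ℝ)
    (n23 : β → γ → ℝ) (P m : ℕ) (δ : ℝ) : Prop where
  cnt : Cnt (fun τ : Fin P → γ => ∏ l, c (τ l)) a b (fun τ x => ∏ l, n13 x (τ l))
    (fun τ y => ∏ l, n23 y (τ l)) m δ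
  a1 : ∑ τ : Fin P → γ, (∏ l, c (τ l)) * ∑ x, a x * ∏ l, n13 x (τ l) ≤ 2
  a2 : ∑ τ : Fin P → γ, (∏ l, c (τ l)) * (∑ y, b y * ∏ l, n23 y (τ l)) ^ 2 ≤ 2
  b3 : box (fun τ : Fin P → γ => ∏ l, c (τ l)) a b (fun τ x => ∏ l, n13 x (τ l))
    (fun τ y => ∏ l, n23 y (τ l)) (fun _ x y => n12 x y - 1) ≤ δ ^ 4

theorem LFC.cnt3 {N P m : ℕ} {δ0 : ℝ} (h : LFC a b c n12 n13 n23 N δ0) (h2 : 2 ≤ N)
    (hP : 2 * P ≤ N) (hm : m ≤ N) (h1 : δ0 ≤ 1) (hδ : 16 * δ0 ≤ δ ^ 4) :
    Cnt3 a b c n12 n13 n23 P m δ := by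
  have mom : ∀ i j, i ≤ N → j ≤ N → ∑ z : Fin P → γ, (∏ l, c (z l)) *
      ((∑ x, a x * ∏ l, n13 x (z l)) ^ i * (∑ y, b y * ∏ l, n23 y (z l)) ^ j) ≤ 2 :=
    fun i j hi hj => (h i j P hi hj (by omega)).mom.trans (by linarith)
  have c2 : Fintype.card (Fin 2 × Fin P) ≤ N := by simpa using hP
  have c3 : Fintype.card (Fin 2) ≤ N := by simpa using h2
  refine ⟨⟨by simpa using mom 0 m (by omega) hm, by simpa only [mul_pow] using mom 2 2 h2 h2,
    fun k hk => ?_, ?_⟩, by simpa using mom 1 0 (by omega) (by omega),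
    by simpa using mom 0 2 (by omega) h2,
    le_trans ((h 2 2 P h2 h2 (by omega)).box true true) hδ⟩
  · have h3 := (h.lf (I := Fin 2) (J := Fin k) (K := Fin 2 × Fin P) c3
      (by rw [Fintype.card_fin]; omega) c2).tens.swap23.swap12.box true false
    simp only [cond_true, cond_false, prod_const_one] at h3
    exact h3.trans hδ
  · have h3 := (h.lf (I := Fin 0) (J := Fin 2) (K := Fin 2 × Fin P) (by simp) c3
      c2).tens.swap12.swap23.swap12.box false false
    simp only [cond_false, prod_const_one] at h3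
    rw [box_const (by simp)] at h3
    exact h3.trans hδ

end

end Vale.Agent.P057KR
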