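import Vale.Agent.P057KR.Kmz

/-! Pattern counts in a fibre: products, moments, and the exceptional set of fibres. -/

set_option linter.all false

open Finset Filter Topology
open scoped BigOperators

namespace Vale.Agent.P057KR

open Vale.Agent.P057G

noncomputable section

theorem hs_pi {I α : Type} [Fintype I] [DecidableEq I] {p : I → α → ℝ} {u : I → ℝ}
    (h : ∀ i, HasSum (p i) (u i)) (p0 : ∀ i x, 0 ≤ p i x) :
    HasSum (fun x : I → α => ∏ i, p i (x i)) (∏ i, u i) := by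
  classical
  have t : Tendsto (fun s : Finset α => Fintype.piFinset fun _ : I => s) atTop atTop :=
    tendsto_atTop.2 fun t => (eventually_ge_atTop (t.biUnion fun a => univ.image a)).mono
      fun s hs a ha => Fintype.mem_piFinset.2 fun i =>
        hs (mem_biUnion.2 ⟨a, ha, mem_image_of_mem _ (mem_univ i)⟩)
  have t2 : Tendsto (fun s : Finset α => ∑ x ∈ Fintype.piFinset fun _ : I => s, ∏ i, p i (x i))
      atTop (𝓝 (∏ i, u i)) := by
    simp only [← prod_univ_sum]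
    exact tendsto_finset_prod _ fun i _ => h i
  have q0 : ∀ x : I → α, 0 ≤ ∏ i, p i (x i) := fun x => prod_nonneg fun i _ => p0 i _
  have hs : Summable fun x : I → α => ∏ i, p i (x i) := summable_of_sum_le q0 fun s =>
    ge_of_tendsto t2 ((tendsto_atTop.1 t s).mono fun s' hs' =>
      sum_le_sum_of_subset_of_nonneg hs' fun x _ _ => q0 x)
  exact tendsto_nhds_unique (Tendsto.comp hs.hasSum t) t2 ▸ hs.hasSum

variable {α β γ I J K : Type} [Fintype I] [Fintype J] [Fintype K] [DecidableEq I] [DecidableEq J]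
  [DecidableEq K] {a : α → ℝ} {b : β → ℝ} {c : γ → ℝ} {n : α → γ → ℝ} {n' : β → γ → ℝ}

/-- the integrand of a pattern with weights on two of the three pairs of classes -/
def pt2 (a : α → ℝ) (b : β → ℝ) (c : γ → ℝ) (n : α → γ → ℝ) (n' : β → γ → ℝ)
    (E : I → K → Bool) (E' : J → K → Bool) (q : (I → α) × (J → β) × (K → γ)) : ℝ :=
  (∏ i, a (q.1 i)) * ((∏ j, b (q.2.1 j)) * ∏ k, c (q.2.2 k)) *
    ((∏ i, ∏ k, cond (E i k) (n (q.1 i) (q.2.2 k)) 1) *
      ∏ j, ∏ k, cond (E' j k) (n' (q.2.1 j) (q.2.2 k)) 1)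

theorem pat_one (E12 : I → J → Bool) (E : I → K → Bool) (E' : J → K → Bool)
    (q : (I → α) × (J → β) × (K → γ)) :
    pat a b c (fun _ _ => 1) n n' E12 E E' q.1 q.2.1 q.2.2 = pt2 a b c n n' E E' q := by
  simp only [pat, pt2, Bool.cond_self, prod_const_one, one_mul, mul_assoc]

/-- nonnegative summable laws and bounded weights -/
structure Bd (a : α → ℝ) (b : β → ℝ) (c : γ → ℝ) (n : α → γ → ℝ) (n' : β → γ → ℝ) (M : ℝ) :
    Prop where
  a0 : ∀ x, 0 ≤ a x
  b0 : ∀ x, 0 ≤ b x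
  c0 : ∀ x, 0 ≤ c x
  sa : Summable a
  sb : Summable b
  sc : Summable c
  n1 : ∀ x z, 0 ≤ n x z ∧ n x z ≤ M
  n2 : ∀ x z, 0 ≤ n' x z ∧ n' x z ≤ M

variable {M : ℝ}

theorem cond_bd {x : ℝ} (h : 0 ≤ x ∧ x ≤ M) (e : Bool) : 0 ≤ cond e x 1 ∧ cond e x 1 ≤ max 1 M := by
  cases e
  exacts [⟨zero_le_one, le_max_left _ _⟩, ⟨h.1, h.2.trans (le_max_right _ _)⟩]

theorem Bd.nonneg (h : Bd a b c n n' M) (E : I → K → Bool) (E' : J → K → Bool)
    (q : (I → α) × (J → β) × (K → γ)) : 0 ≤ pt2 a b c n n' E E' q :=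
  mul_nonneg (mul_nonneg (prod_nonneg fun _ _ => h.a0 _) (mul_nonneg (prod_nonneg fun _ _ => h.b0 _)
    (prod_nonneg fun _ _ => h.c0 _))) (mul_nonneg
      (prod_nonneg fun _ _ => prod_nonneg fun _ _ => (cond_bd (h.n1 _ _) _).1)
      (prod_nonneg fun _ _ => prod_nonneg fun _ _ => (cond_bd (h.n2 _ _) _).1))

theorem Bd.summable (h : Bd a b c n n' M) (E : I → K → Bool) (E' : J → K → Bool) :
    Summable (pt2 a b c n n' E E') := by
  have pb : ∀ y : J → β, 0 ≤ ∏ j, b (y j) := fun _ => prod_nonneg fun _ _ => h.b0 _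
  have pc : ∀ y : K → γ, 0 ≤ ∏ j, c (y j) := fun _ => prod_nonneg fun _ _ => h.c0 _
  have pa : ∀ y : I → α, 0 ≤ ∏ j, a (y j) := fun _ => prod_nonneg fun _ _ => h.a0 _
  have h1 := hs_mul (hs_pi (I := I) (fun _ => h.sa.hasSum) fun _ => h.a0)
    (hs_mul (hs_pi (I := J) (fun _ => h.sb.hasSum) fun _ => h.b0)
      (hs_pi (I := K) (fun _ => h.sc.hasSum) fun _ => h.c0) pb pc) pa
    fun q => mul_nonneg (pb _) (pc _)
  have bd : ∀ {I : Type} [Fintype I] {f : I → K → ℝ}, (∀ i k, 0 ≤ f i k ∧ f i k ≤ max 1 M) →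
      0 ≤ ∏ i, ∏ k, f i k ∧ ∏ i, ∏ k, f i k ≤ ∏ i : I, ∏ k : K, max 1 M := fun hf =>
    ⟨prod_nonneg fun _ _ => prod_nonneg fun _ _ => (hf _ _).1, prod_le_prod
      (fun _ _ => prod_nonneg fun _ _ => (hf _ _).1) fun _ _ =>
        prod_le_prod (fun _ _ => (hf _ _).1) fun _ _ => (hf _ _).2⟩
  refine summable_mul_real h1.summable (fun q => mul_nonneg (pa _) (mul_nonneg (pb _) (pc _)))
    (C := (∏ i : I, ∏ k : K, max 1 M) * ∏ i : J, ∏ k : K, max 1 M) fun q => ?_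
  have k1 := bd fun i k => cond_bd (h.n1 (q.1 i) (q.2.2 k)) (E i k)
  have k2 := bd fun i k => cond_bd (h.n2 (q.2.1 i) (q.2.2 k)) (E' i k)
  exact (abs_of_nonneg (mul_nonneg k1.1 k2.1)).trans_le
    (mul_le_mul k1.2 k2.2 k2.1 (k1.1.trans k1.2))

/-- two disjoint copies of a bipartite graph -/
def db (E : I → K → Bool) : I ⊕ I → K ⊕ K → Bool :=
  Sum.elim (fun i => Sum.elim (E i) fun _ => false) fun i => Sum.elim (fun _ => false) (E i)

theorem Bd.db (h : Bd a b c n n' M) (E : I → K → Bool) (E' : J → K → Bool) :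
    ∑' q, pt2 a b c n n' (db E) (db E') q = (∑' q, pt2 a b c n n' E E' q) ^ 2 := by
  let e : ((I → α) × (J → β) × (K → γ)) × (I → α) × (J → β) × (K → γ) ≃
      (I ⊕ I → α) × (J ⊕ J → β) × (K ⊕ K → γ) :=
    { toFun := fun p => (Sum.elim p.1.1 p.2.1, Sum.elim p.1.2.1 p.2.2.1, Sum.elim p.1.2.2 p.2.2.2)
      invFun := fun q => ((q.1 ∘ Sum.inl, q.2.1 ∘ Sum.inl, q.2.2 ∘ Sum.inl),
        q.1 ∘ Sum.inr, q.2.1 ∘ Sum.inr, q.2.2 ∘ Sum.inr)
      left_inv := fun _ => rfl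
      right_inv := fun q => by simp only [Sum.elim_comp_inl_inr] }
  rw [← e.tsum_eq, sq, ← (hs_mul (h.summable E E').hasSum (h.summable E E').hasSum (h.nonneg E E')
    (h.nonneg E E')).tsum_eq]
  refine tsum_congr fun p => ?_
  rw [show e p = (Sum.elim p.1.1 p.2.1, Sum.elim p.1.2.1 p.2.2.1, Sum.elim p.1.2.2 p.2.2.2) from rfl]
  simp only [pt2, P057KR.db, Fintype.prod_sum_type, Sum.elim_inl, Sum.elim_inr,
    cond_false, prod_const_one, mul_one, one_mul]
  ring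

theorem pt2_div (s t u : ℝ) (E : I → K → Bool) (E' : J → K → Bool)
    (q : (I → α) × (J → β) × (K → γ)) :
    pt2 (fun x => a x / s) (fun x => b x / t) (fun x => c x / u) n n' E E' q =
      pt2 a b c n n' E E' q /
        (s ^ Fintype.card I * (t ^ Fintype.card J * u ^ Fintype.card K)) := by
  simp only [pt2, prod_div_distrib, prod_const, card_univ]
  ring

/-- moments of the degrees of the last class -/
theorem mom_pt2 {u w : γ → ℝ} {S : ℝ} (hu : ∀ z, HasSum (fun x => a x * n x z) (u z))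
    (hw : ∀ z, HasSum (fun y => b y * n' y z) (w z)) (p0 : ∀ x z, 0 ≤ a x * n x z)
    (q0 : ∀ y z, 0 ≤ b y * n' y z)
    (h : HasSum (pt2 a b c n n' (fun (_ : I) (_ : Fin 1) => true) fun (_ : J) _ => true) S) :
    HasSum (fun z => c z * (u z ^ Fintype.card I * w z ^ Fintype.card J)) S := by
  let e : γ × (I → α) × (J → β) ≃ (I → α) × (J → β) × (Fin 1 → γ) :=
    { toFun := fun p => (p.2.1, p.2.2, fun _ => p.1)
      invFun := fun q => (q.2.2 0, q.1, q.2.1)
      left_inv := fun _ => rfl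
      right_inv := fun q => Prod.ext rfl (Prod.ext rfl (funext fun i => congrArg q.2.2
        (Subsingleton.elim _ _))) }
  refine (e.hasSum_iff.2 h).prod_fiberwise fun z => ?_
  have k := (hs_mul (hs_pi (I := I) (fun _ => hu z) fun _ x => p0 x z)
    (hs_pi (I := J) (fun _ => hw z) fun _ x => q0 x z) (fun _ => prod_nonneg fun _ _ => p0 _ z)
    fun _ => prod_nonneg fun _ _ => q0 _ z).mul_left (c z)
  simp only [prod_const, card_univ] at k
  refine HasSum.congr_fun k fun p => ?_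
  simp only [e, Function.comp, Equiv.coe_fn_mk, pt2, Fintype.prod_unique, cond_true,
    prod_mul_distrib]
  ring

theorem LFCT.mom {N : ℕ} {δ : ℝ} (h : LFCT a b c (fun _ _ => 1) n n' N δ) {i j : ℕ} (hi : i ≤ N)
    (hj : j ≤ N) (h1 : 1 ≤ N) {u w : γ → ℝ} (hu : ∀ z, HasSum (fun x => a x * n x z) (u z))
    (hw : ∀ z, HasSum (fun y => b y * n' y z) (w z)) (p0 : ∀ x z, 0 ≤ a x * n x z)
    (q0 : ∀ y z, 0 ≤ b y * n' y z) :
    ∃ S ≤ 1 + δ, HasSum (fun z => c z * (u z ^ i * w z ^ j)) S := by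
  obtain ⟨S, k1, k2⟩ := h i j 1 hi hj h1 (fun _ _ => false) (fun _ _ => true) fun _ _ => true
  simp only [pat_one] at k2
  exact ⟨S, by linarith [(abs_le.1 k1).2], by simpa using mom_pt2 hu hw p0 q0 k2⟩

theorem pow_near {s δ : ℝ} {N i : ℕ} (hs : |s - 1| ≤ δ) (hi : i ≤ N) (hN : N * δ ≤ 1 / 2) :
    1 - N * δ ≤ s ^ i ∧ s ^ i ≤ 1 + 2 * (N * δ) := by
  have d0 : 0 ≤ δ := (abs_nonneg _).trans hs
  have k1 : i * δ ≤ N * δ := mul_le_mul_of_nonneg_right (Nat.cast_le.2 hi) d0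
  obtain ⟨l1, l2⟩ := abs_le.1 hs
  rcases Nat.eq_zero_or_pos i with rfl | hp
  · rw [pow_zero]
    have : 0 ≤ N * δ := by positivity
    exact ⟨by linarith, by linarith⟩
  have k2 : δ ≤ i * δ := le_mul_of_one_le_left d0 (Nat.one_le_cast.2 hp)
  have k3 := one_add_mul_le_pow (show -2 ≤ -δ by linarith) i
  refine ⟨by linarith [pow_le_pow_left₀ (by linarith) (show 1 + -δ ≤ s by linarith) i], ?_⟩
  have k4 : s ^ i * (1 + -δ) ^ i ≤ 1 := by
    rw [← mul_pow]
    exact pow_le_one₀ (by nlinarith) (by nlinarith)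
  have k5 := mul_le_mul_of_nonneg_left k3 (show 0 ≤ s ^ i from pow_nonneg (by linarith) i)
  by_contra k6
  have : 0 ≤ i * δ := by positivity
  nlinarith

/-- normalising the three laws -/
theorem Bd.lfct (h : Bd a b c n n' M) {N : ℕ} {δ s t u : ℝ} (hs : |s - 1| ≤ δ) (ht : |t - 1| ≤ δ)
    (hu : |u - 1| ≤ δ) (hN : N * δ ≤ 1 / 10) (h1 : 1 ≤ N)
    (hc : ∀ i j k : ℕ, i ≤ N → j ≤ N → k ≤ N → ∀ (E : Fin i → Fin k → Bool)
      (E' : Fin j → Fin k → Bool), |∑' q, pt2 a b c n n' E E' q - 1| ≤ δ) :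
    LFCT (fun x => a x / s) (fun x => b x / t) (fun x => c x / u) (fun _ _ => 1) n n' N
      (20 * (N * δ)) := by
  intro i j k hi hj hk E12 E E'
  simp only [pat_one, pt2_div, Fintype.card_fin]
  refine ⟨_, ?_, (h.summable E E').hasSum.div_const _⟩
  have d0 : 0 ≤ δ := (abs_nonneg _).trans hs
  have k0 : δ ≤ N * δ := le_mul_of_one_le_left d0 (Nat.one_le_cast.2 h1)
  obtain ⟨l1, l2⟩ := abs_le.1 (hc i j k hi hj hk E E')
  obtain ⟨a1, a2⟩ := pow_near hs hi (by linarith)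
  obtain ⟨b1, b2⟩ := pow_near ht hj (by linarith)
  obtain ⟨c1, c2⟩ := pow_near hu hk (by linarith)
  generalize N * δ = e at *
  have m1 : 1 - 2 * e ≤ t ^ j * u ^ k := by
    nlinarith [mul_le_mul b1 c1 (by linarith) (by linarith)]
  have m2 : t ^ j * u ^ k ≤ 1 + 5 * e := by
    nlinarith [mul_le_mul b2 c2 (by linarith) (by linarith)]
  have m3 : 1 - 3 * e ≤ s ^ i * (t ^ j * u ^ k) := by
    nlinarith [mul_le_mul a1 m1 (by linarith) (by linarith)]
  have m4 : s ^ i * (t ^ j * u ^ k) ≤ 1 + 8 * e := by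
    nlinarith [mul_le_mul a2 m2 (by linarith) (by linarith)]
  generalize s ^ i * (t ^ j * u ^ k) = P at *
  rw [div_sub_one (by linarith), abs_div, abs_of_pos (by linarith : 0 < P),
    div_le_iff₀ (by linarith), abs_le]
  constructor <;> nlinarith

end

end Vale.Agent.P057KR
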