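import Vale.Agent.P057KR.SiftT

/-! From weights to shells, and a cut estimate for series. -/

set_option linter.all false

open Finset Filter Topology
open scoped BigOperators

namespace Vale.Agent.P057KR

open Vale.Agent.P057Z.Km

noncomputable section

theorem shell {α : Type} (A : Finset α) (b bad : α → ℝ) (L : ℕ) {s : ℝ} (hA : A.Nonempty)
    (hp : ∀ a ∈ A, 0 < b a) (hr : ∀ a ∈ A, ∀ a' ∈ A, b a ≤ 2 ^ L * b a') (h0 : ∀ a, 0 ≤ bad a)
    (hs : 0 < s) (h : ∑ a ∈ A, b a * bad a ≤ s * ∑ a ∈ A, b a) :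
    ∃ A' ⊆ A, A'.Nonempty ∧ (∀ a ∈ A', ∑ a ∈ A, b a ≤ 4 * (L + 1) * #A' * b a) ∧
      ∑ a ∈ A', bad a ≤ 4 * s * #A' := by
  classical
  obtain ⟨a0, ha0, hm⟩ := exists_min_image A b hA
  have p0 := hp a0 ha0
  have hT : 0 < ∑ a ∈ A, b a := sum_pos hp hA
  have ex : ∀ a, ∃ k : ℕ, a ∈ A → k < L + 1 ∧ 2 ^ k * b a0 ≤ b a ∧ b a ≤ 2 * (2 ^ k * b a0) := by
    intro a
    by_cases ha : a ∈ A
    · obtain ⟨k, h1, h2⟩ := exists_nat_pow_near ((one_le_div p0).2 (hm a ha)) one_lt_two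
      rw [le_div_iff₀ p0] at h1
      rw [div_lt_iff₀ p0, pow_succ] at h2
      refine ⟨k, fun _ => ⟨Nat.lt_succ_of_le ?_, h1, by linarith⟩⟩
      exact (pow_le_pow_iff_right₀ one_lt_two).1
        (le_of_mul_le_mul_right (h1.trans (hr a ha a0 ha0)) p0)
    · exact ⟨0, fun h => absurd h ha⟩
  choose k hk using ex
  have hmap : ∀ a ∈ A, k a ∈ range (L + 1) := fun a ha => mem_range.2 (hk a ha).1
  obtain ⟨j, -, hj⟩ := exists_le_of_sum_le (s := range (L + 1)) ⟨0, by simp⟩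
    (f := fun j => ∑ a ∈ A with k a = j, b a * bad a + s * (∑ a ∈ A, b a) / (L + 1))
    (g := fun j => 2 * s * ∑ a ∈ A with k a = j, b a) (by
      rw [sum_add_distrib, ← mul_sum, sum_fiberwise_of_maps_to hmap, sum_fiberwise_of_maps_to hmap,
        sum_const, card_range, nsmul_eq_mul, Nat.cast_add_one,
        mul_div_cancel₀ _ (by positivity)]
      linarith)
  set A' := A.filter fun a => k a = j with hA'
  obtain ⟨t, ht⟩ : ∃ t, t = 2 ^ j * b a0 := ⟨_, rfl⟩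
  have t0 : 0 < t := by rw [ht]; positivity
  have t1 : ∀ a ∈ A', t ≤ b a ∧ b a ≤ 2 * t := fun a ha => by
    obtain ⟨h1, h2⟩ := mem_filter.1 ha
    rw [ht, ← h2]
    exact (hk a h1).2
  have t2 : ∑ a ∈ A', b a ≤ #A' * (2 * t) := by
    simpa using sum_le_card_nsmul A' b _ fun a ha => (t1 a ha).2
  have t3 : t * ∑ a ∈ A', bad a ≤ ∑ a ∈ A', b a * bad a := by
    rw [mul_sum]
    exact sum_le_sum fun a ha => mul_le_mul_of_nonneg_right (t1 a ha).1 (h0 a)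
  have t4 : 0 ≤ ∑ a ∈ A', bad a := sum_nonneg fun a _ => h0 a
  have t5 : 0 < s * (∑ a ∈ A, b a) / (L + 1) := by positivity
  have t6 := mul_le_mul_of_nonneg_left t2 (show 0 ≤ 2 * s by positivity)
  have t7 : ∑ a ∈ A, b a ≤ 4 * (L + 1) * #A' * t := by
    have h1 : s * (∑ a ∈ A, b a) / (L + 1) ≤ 2 * s * (#A' * (2 * t)) := by
      linarith [mul_nonneg t0.le t4]
    rw [div_le_iff₀ (by positivity)] at h1
    exact le_of_mul_le_mul_left (h1.trans_eq (by ring)) hs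
  refine ⟨A', filter_subset _ _, ?_, fun a ha => t7.trans
    (mul_le_mul_of_nonneg_left (t1 a ha).1 (by positivity)),
    le_of_mul_le_mul_left (by linarith) t0⟩
  rw [nonempty_iff_ne_empty]
  intro e
  rw [e] at t7
  simp at t7
  linarith

theorem core_mass {α : Type} [DecidableEq α] {b : α → ℝ} (h0 : ∀ x, 0 ≤ b x) (h1 : HasSum b 1)
    (A R : Finset α) {η : ℝ} (hA : 2 * η ≤ ∑ x ∈ A, b x) (hR : 1 - η ≤ ∑ x ∈ R, b x) :
    ∑ x ∈ A, b x ≤ 2 * ∑ x ∈ A ∩ R, b x := by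
  have h2 := sum_union_inter (s₁ := A) (s₂ := R) (f := b)
  have h3 := sum_le_hasSum (A ∪ R) (fun x _ => h0 x) h1
  linarith

/-- two shells -/
theorem shell2 {α β : Type} [DecidableEq α] [DecidableEq β] {b1 : α → ℝ} {b2 : β → ℝ}
    {bad : α → β → ℝ} {L : ℕ} {s η : ℝ} {A1 R1 : Finset α} {A2 R2 : Finset β}
    (h1 : ∀ x, 0 ≤ b1 x) (h2 : ∀ x, 0 ≤ b2 x) (s1 : HasSum b1 1) (s2 : HasSum b2 1) (hη : 0 < η)
    (m1 : 2 * η ≤ ∑ x ∈ A1, b1 x) (m2 : 2 * η ≤ ∑ x ∈ A2, b2 x) (r1 : 1 - η ≤ ∑ x ∈ R1, b1 x)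
    (r2 : 1 - η ≤ ∑ x ∈ R2, b2 x) (p1 : ∀ a ∈ R1, 0 < b1 a) (p2 : ∀ a ∈ R2, 0 < b2 a)
    (q1 : ∀ a ∈ R1, ∀ a' ∈ R1, b1 a ≤ 2 ^ L * b1 a') (q2 : ∀ a ∈ R2, ∀ a' ∈ R2, b2 a ≤ 2 ^ L * b2 a')
    (h0 : ∀ x y, 0 ≤ bad x y) (hs : 0 < s)
    (h : ∑ x ∈ A1, ∑ y ∈ A2, b1 x * b2 y * bad x y ≤ s * ((∑ x ∈ A1, b1 x) * ∑ y ∈ A2, b2 y)) :
    ∃ B1 ⊆ R1, ∃ B2 ⊆ R2, B1.Nonempty ∧ B2.Nonempty ∧ (∀ a ∈ B1, η ≤ 4 * (L + 1) * #B1 * b1 a) ∧
      (∀ a ∈ B2, η ≤ 4 * (L + 1) * #B2 * b2 a) ∧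
      ∑ x ∈ B1, ∑ y ∈ B2, bad x y ≤ 64 * s * (#B1 * #B2) := by
  have c1 := core_mass h1 s1 A1 R1 m1 r1
  have c2 := core_mass h2 s2 A2 R2 m2 r2
  have W1 : 0 < ∑ x ∈ A1 ∩ R1, b1 x := by linarith
  have W2 : 0 < ∑ x ∈ A2 ∩ R2, b2 x := by linarith
  have ne : ∀ {γ : Type} {A : Finset γ} {w : γ → ℝ}, 0 < ∑ a ∈ A, w a → A.Nonempty :=
    fun h => nonempty_of_sum_ne_zero h.ne'
  have h3 : ∑ x ∈ A1 ∩ R1, ∑ y ∈ A2 ∩ R2, b1 x * b2 y * bad x y ≤
      4 * s * ((∑ x ∈ A1 ∩ R1, b1 x) * ∑ y ∈ A2 ∩ R2, b2 y) := by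
    have p : ∀ x y, 0 ≤ b1 x * b2 y * bad x y := fun x y =>
      mul_nonneg (mul_nonneg (h1 x) (h2 y)) (h0 x y)
    refine ((sum_le_sum fun x _ => sum_le_sum_of_subset_of_nonneg inter_subset_left
      fun y _ _ => p x y).trans (sum_le_sum_of_subset_of_nonneg inter_subset_left
      fun x _ _ => sum_nonneg fun y _ => p x y)).trans (h.trans ?_)
    have := mul_le_mul_of_nonneg_left (mul_le_mul c1 c2 (by linarith) (by linarith)) hs.le
    linarith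
  obtain ⟨B1, b1', b2', b3, b4⟩ := shell (A1 ∩ R1) b1
    (fun x => (∑ y ∈ A2 ∩ R2, b2 y * bad x y) / ∑ y ∈ A2 ∩ R2, b2 y) L (s := 4 * s) (ne W1)
    (fun a ha => p1 a (mem_inter.1 ha).2)
    (fun a ha a' ha' => q1 a (mem_inter.1 ha).2 a' (mem_inter.1 ha').2)
    (fun x => div_nonneg (sum_nonneg fun y _ => mul_nonneg (h2 y) (h0 x y)) W2.le) (by linarith) (by
      simp only [← mul_div_assoc, ← sum_div]
      rw [div_le_iff₀ W2, mul_assoc (4 * s)]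
      simpa only [mul_sum _ _ (b1 _), mul_assoc (b1 _)] using h3)
  have n1 : (0 : ℝ) < #B1 := by exact_mod_cast b2'.card_pos
  obtain ⟨B2, g1, g2, g3, g4⟩ := shell (A2 ∩ R2) b2 (fun y => (∑ x ∈ B1, bad x y) / #B1) L
    (s := 16 * s) (ne W2) (fun a ha => p2 a (mem_inter.1 ha).2)
    (fun a ha a' ha' => q2 a (mem_inter.1 ha).2 a' (mem_inter.1 ha').2)
    (fun y => div_nonneg (sum_nonneg fun x _ => h0 x y) n1.le) (by linarith) (by
      simp only [← mul_div_assoc, ← sum_div]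
      rw [← sum_div, div_le_iff₀ W2, sum_comm] at b4
      rw [div_le_iff₀ n1]
      simp only [mul_sum _ _ (b2 _)]
      linarith)
  refine ⟨B1, b1'.trans inter_subset_right, B2, g1.trans inter_subset_right, b2', g2,
    fun a ha => le_trans (by linarith) (b3 a ha), fun a ha => le_trans (by linarith) (g3 a ha), ?_⟩
  rw [← sum_div, div_le_iff₀ n1, sum_comm] at g4
  linarith

section cut

variable {α β γ : Type} {a : α → ℝ} {b : β → ℝ} {c : γ → ℝ} {n12 : α → β → ℝ} {n13 : α → γ → ℝ}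
  {n23 : β → γ → ℝ} {N : ℕ} {δ δ0 : ℝ}

theorem LFC.cut13 [Fintype α] [Fintype β] [Fintype γ] (h : LFC a b c n12 n13 n23 N δ0)
    (h2 : 2 ≤ N) (ha : Pm a) (hb : Pm b) (hc : Pm c) (h1 : δ0 ≤ 1) (hδ0 : 0 ≤ δ)
    (hδ : 16 * δ0 ≤ δ ^ 4) {u : β → α → ℝ} {r : β → γ → ℝ} (hu : ∀ y x, |u y x| ≤ 1)
    (hr : ∀ y z, |r y z| ≤ n23 y z) :
    |∑ y, ∑ z, b y * c z * (r y z * ∑ x, a x * (u y x * (n13 x z - 1)))| ≤ 2 * δ := by
  have r4 := rbox (p := b) (π := c) (b := a) (w1 := n23) (w2 := fun _ _ => 1)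
    (fun _ z x => n13 x z - 1) hb.1 hc.1 ha.1 hr hu
  rw [← Even.pow_abs (by decide)] at r4
  have c2 : Fintype.card (Fin 2) ≤ N := by simpa using h2
  have c1 : Fintype.card Unit ≤ N := by rw [Fintype.card_unit]; omega
  have m := (h.lf (I := Fin 0) (J := Fin 1) (K := Unit) (by simp) (by simp; omega) c1).mom
  have bx := (h.lf (I := Fin 2) (J := Unit) (K := Fin 2) c2 c1 c2).swap23.swap12.box true false
  refine le_of_four hδ0 (sum_nonneg fun y _ => sum_nonneg fun z _ => mul_nonneg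
    (mul_nonneg (hb.1 y) (hc.1 z)) ((abs_nonneg _).trans (hr y z))) ?_
    (sum_nonneg fun y _ => mul_nonneg (hb.1 y) (sq_nonneg _)) ?_ (le_trans (le_of_eq ?_)
    (bx.trans hδ)) r4
  · refine le_trans (le_of_eq ?_) (m.trans (by linarith))
    rw [sum_comm, ← (Equiv.funUnique Unit γ).sum_comp]
    refine sum_congr rfl fun z _ => ?_
    simp only [pow_zero, one_mul, pow_one, Fintype.prod_unique, mul_sum, Equiv.funUnique_apply]
    exact sum_congr rfl fun y _ => by rw [mul_comm (b y), mul_assoc, mul_left_comm]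
  · simp only [mul_one, ha.2, one_pow, hb.2]
    norm_num
  · unfold box
    rw [← (Equiv.funUnique Unit β).sum_comp]
    simp only [Fintype.prod_unique, cond_true, cond_false, Equiv.funUnique_apply]

theorem LFCT.cut13 (h : LFCT a b c n12 n13 n23 N δ0) (h2 : 2 ≤ N) (ha0 : ∀ x, 0 ≤ a x)
    (hb0 : ∀ x, 0 ≤ b x) (hc0 : ∀ x, 0 ≤ c x) (ha : HasSum a 1) (hb : HasSum b 1)
    (hc : HasSum c 1) (hδ0 : 0 ≤ δ) (hδ1 : δ ≤ 1) (hδ : 16 * δ0 < δ ^ 4) (A : Finset α)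
    (B : Finset β) {u : β → α → ℝ} {r : β → γ → ℝ} (hu : ∀ y x, |u y x| ≤ 1)
    (hr : ∀ y z, |r y z| ≤ n23 y z) {S : α → β → ℝ}
    (hS : ∀ x ∈ A, ∀ y ∈ B, HasSum (fun z => c z * (r y z * (n13 x z - 1))) (S x y)) :
    |∑ y ∈ B, ∑ x ∈ A, a x * b y * (u y x * S x y)| ≤ 2 * δ := by
  classical
  have t1 := tend0 (l := atTop) ha _ (ev1 (β := β) (γ := γ))
  have t2 := tend0 (l := atTop) hb _ (ev2 (α := α) (γ := γ))
  have t3 := tend0 (l := atTop) hc _ (ev3 (α := α) (β := β))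
  have t4 : Tendsto (fun s : Tr α β γ => ∑ y ∈ B, ∑ x ∈ A, a x * b y *
      (u y x * ∑ z : s.2.2, c z * (r y z * (n13 x z - 1)))) atTop
      (𝓝 (∑ y ∈ B, ∑ x ∈ A, a x * b y * (u y x * S x y))) :=
    tendsto_finset_sum _ fun y hy => tendsto_finset_sum _ fun x hx =>
      ((tend (hS x hx y hy) (Y := fun s : Tr α β γ => s.2.2) (fun s z => z.1)
        (fun s => Subtype.val_injective) fun z => (ev3 z).mono fun s hs =>
          ⟨⟨z, hs⟩, rfl⟩).const_mul _).const_mul _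
  have t5 := (t4.div ((t1.mul t2).mul t3) (by simp)).abs
  simp only [mul_one, div_one] at t5
  have d4 : δ ^ 4 ≤ 1 := pow_le_one₀ hδ0 hδ1
  refine le_of_tendsto t5 ?_
  filter_upwards [h.ev ha hb hc (δ' := δ ^ 4 / 16) (by linarith),
    t1.eventually (lt_mem_nhds one_pos), t2.eventually (lt_mem_nhds one_pos),
    t3.eventually (lt_mem_nhds one_pos), (eventually_all_finset A).2 fun x _ => ev1 x,
    (eventually_all_finset B).2 fun x _ => ev2 x] with s k1 p1 p2 p3 k2 k3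
  obtain ⟨s1, s2, s3⟩ := s
  dsimp only at k1 p1 p2 p3 k2 k3
  have h3 := k1.cut13 h2 (pm_rs ha0 p1) (pm_rs hb0 p2) (pm_rs hc0 p3) (by linarith) hδ0
    (by linarith) (u := fun y x => if x.1 ∈ A ∧ y.1 ∈ B then u y x else 0) (r := fun y z => r y z)
    (fun y x => by split_ifs; exacts [hu _ _, by simp]) fun y z => hr _ _
  refine le_trans (le_of_eq (congrArg _ ?_)) h3
  have e : ∀ {X : Type} (A s : Finset X) (f : X → ℝ), (∀ x ∈ A, x ∈ s) →
      ∑ x ∈ A, f x = ∑ x : s, if x.1 ∈ A then f x else 0 := fun A s f h => by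
    rw [sum_coe_sort s fun x => if x ∈ A then f x else 0, ← sum_filter, filter_mem_eq_inter,
      inter_eq_right.2 h]
  simp only [Pi.div_apply, rs]
  generalize ∑ y ∈ s1, a y = Z1 at p1
  generalize ∑ y ∈ s2, b y = Z2 at p2
  generalize ∑ y ∈ s3, c y = Z3 at p3
  rw [e B s2 _ k3, sum_div]
  refine sum_congr rfl fun y _ => ?_
  by_cases hy : y.1 ∈ B
  · simp only [hy, if_true, and_true, mul_sum]
    rw [e A s1 _ k2, sum_div, sum_comm]
    refine sum_congr rfl fun x _ => ?_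
    split_ifs
    · rw [sum_div]
      exact sum_congr rfl fun z _ => by field_simp
    · simp
  · simp [hy]

end cut

end

end Vale.Agent.P057KR
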