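import Vale.Agent.P057KR.Lfc

/-! Relative sifting in a weighted tripartite system. -/

set_option linter.all false

open Finset
open scoped BigOperators

namespace Vale.Agent.P057KR

open Vale.Agent.P057Z.Km Vale.Agent.P057Z.Km.K12A

noncomputable section

variable {α β γ : Type} [Fintype α] [Fintype β] [Fintype γ]

theorem prod_bd {P : ℕ} {f g : Fin P → ℝ} {c : ℝ} (h : ∀ i, 0 ≤ f i ∧ f i ≤ c * g i) :
    0 ≤ ∏ i, f i ∧ ∏ i, f i ≤ c ^ P * ∏ i, g i :=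
  ⟨prod_nonneg fun i _ => (h i).1, (prod_le_prod (fun i _ => (h i).1) fun i _ => (h i).2).trans_eq
    (by rw [prod_mul_distrib, prod_const, card_univ, Fintype.card_fin])⟩

theorem bad_le {b1 : α → ℝ} {b2 : β → ℝ} {Ψ : α → β → ℝ}
    {c : ℝ} (P : ℕ) (hb1 : Pm b1) (hb2 : Pm b2) (hΨ : ∀ a a', 0 ≤ Ψ a a') (hc : 0 ≤ c) :
    ∑ a, ∑ a', b1 a * b2 a' * ((if Ψ a a' < c then 1 else 0) * Ψ a a' ^ P) ≤ c ^ P :=
  calc _ ≤ ∑ a, ∑ a', b1 a * b2 a' * c ^ P :=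
        sum_le_sum fun a _ => sum_le_sum fun a' _ => by
          refine mul_le_mul_of_nonneg_left ?_ (mul_nonneg (hb1.1 _) (hb2.1 _))
          split_ifs with h
          · rw [one_mul]
            exact pow_le_pow_left₀ (hΨ _ _) h.le _
          · rw [zero_mul]
            exact pow_nonneg hc _
    _ = _ := by simp only [← sum_mul, ← mul_sum, hb1.2, hb2.2, one_mul]

theorem num {Ka K1 H L δ : ℝ} {m : ℕ} (h0 : 1 ≤ Ka) (h1 : Ka ≤ K1) (hL : 1 ≤ K1 * L)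
    (hH : 4 * K1 ^ 2 ≤ H) (hδ : 0 ≤ δ) (h : δ * H ^ (m + 6) ≤ 1) :
    Ka ^ 2 * (2 * δ) ≤ L ∧ 64 * Ka ^ 4 * ((2 + (Ka * K1) ^ m + H⁻¹⁻¹ ^ m) * δ) < H⁻¹ * L ^ 2 := by
  have k0 : 0 < K1 := by linarith
  have k1 : 1 ≤ K1 ^ 2 := one_le_pow₀ (by linarith)
  have k2 : 4 ≤ H := by linarith
  have k3 : ∀ k, k ≤ m + 6 → H ^ k * δ ≤ 1 := fun k hk => (mul_comm _ _).trans_le
    ((mul_le_mul_of_nonneg_left (pow_le_pow_right₀ (by linarith) hk) hδ).trans h)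
  have k4 : Ka ^ 2 ≤ K1 ^ 2 := pow_le_pow_left₀ (by linarith) h1 2
  have k5 : K1 ≤ K1 ^ 2 := le_self_pow₀ (by linarith) (by norm_num)
  refine ⟨le_of_mul_le_mul_left (le_trans ?_ ((k3 2 (by omega)).trans hL)) k0, ?_⟩
  · calc K1 * (Ka ^ 2 * (2 * δ)) = (2 * K1) * Ka ^ 2 * δ := by ring
      _ ≤ H * H * δ := by gcongr <;> linarith
      _ = _ := by ring
  · rw [inv_inv, lt_inv_mul_iff₀ (by linarith)]
    have c1 : (Ka * K1) ^ m ≤ H ^ m := pow_le_pow_left₀ (by positivity) (by nlinarith) m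
    have c2 : 1 ≤ H ^ m := one_le_pow₀ (by linarith)
    have c3 : 2 + (Ka * K1) ^ m + H ^ m ≤ H * H ^ m := by nlinarith
    have c4 : 1 ≤ K1 ^ 2 * L ^ 2 := by rw [← mul_pow]; exact one_le_pow₀ hL
    have c5 : 64 * Ka ^ 4 * K1 ^ 2 ≤ H ^ 3 := by
      calc 64 * Ka ^ 4 * K1 ^ 2 = 64 * (Ka ^ 2) ^ 2 * K1 ^ 2 := by ring
        _ ≤ 64 * (K1 ^ 2) ^ 2 * K1 ^ 2 := by gcongr
        _ = (4 * K1 ^ 2) ^ 3 := by ring
        _ ≤ _ := by gcongr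
    refine lt_of_mul_lt_mul_left ?_ (show 0 ≤ H * K1 ^ 2 by positivity)
    calc _ = H * H * (64 * Ka ^ 4 * K1 ^ 2) * (2 + (Ka * K1) ^ m + H ^ m) * δ := by ring
      _ ≤ H * H * H ^ 3 * (H * H ^ m) * δ := by gcongr
      _ = H ^ (m + 6) * δ := by ring
      _ ≤ 1 := k3 _ le_rfl
      _ < _ := by nlinarith

/-- the codegree function -/
def cod (c : γ → ℝ) (F : α → γ → ℝ) (r : β → γ → ℝ) (x : α) (y : β) : ℝ :=
  ∑ τ, c τ * (F x τ * r y τ)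

theorem sift3 {b1 : α → ℝ} {b2 : β → ℝ} {c : γ → ℝ} {n12 U : α → β → ℝ} {n13 F : α → γ → ℝ}
    {n23 r : β → γ → ℝ} {K K1 H e s lam δ : ℝ} {P m : ℕ} (hb1 : Pm b1) (hb2 : Pm b2) (hc : Pm c)
    (hK : 1 ≤ K) (hU : ∀ x y, 0 ≤ U x y ∧ U x y ≤ K * n12 x y)
    (hF : ∀ x z, 0 ≤ F x z ∧ F x z ≤ K * n13 x z) (hr : ∀ y z, 0 ≤ r y z ∧ r y z ≤ K * n23 y z)
    (hδ0 : 0 ≤ δ) (c3 : Cnt3 b1 b2 c n12 n13 n23 P m δ)
    (hU1 : 1 ≤ K * ∑ x, ∑ y, b1 x * b2 y * U x y) (hl : 1 ≤ K * lam)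
    (hcor : lam * ∑ x, ∑ y, b1 x * b2 y * U x y ≤ ∑ x, ∑ y, b1 x * b2 y * (U x y * cod c F r x y))
    (he0 : 0 ≤ e) (he1 : e ≤ 1) (hs : 0 < s) (hs' : 8 * s ≤ 1)
    (hes : (1 - e) ^ P * (2 * K ^ 2) ≤ s) (hK1 : 16 * K ^ (2 * P + 2) ≤ K1)
    (hm : (1 - 2 * s) ^ m * (2 * K1 ^ 2) ≤ 1) (hH : H = 2 ^ m * (4 * K1 ^ 2))
    (hδ : δ * H ^ (m + 6) ≤ 1) :
    ∃ (A1 : Finset α) (A2 : Finset β), H⁻¹ ≤ ∑ x ∈ A1, b1 x ∧ H⁻¹ ≤ ∑ y ∈ A2, b2 y ∧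
      ∑ x ∈ A1, ∑ y ∈ A2, b1 x * b2 y * (if cod c F r x y < (1 - e) * lam then 1 else 0) ≤
        8 * s * ((∑ x ∈ A1, b1 x) * ∑ y ∈ A2, b2 y) := by
  have hK0 : 0 < K := by linarith only [hK]
  have pos : ∀ a b : ℝ, 0 ≤ a ∧ a ≤ K * b → 0 ≤ b := fun a b h =>
    le_of_mul_le_mul_left (by rw [mul_zero]; exact h.1.trans h.2) hK0
  have hΨ0 : ∀ x y, 0 ≤ cod c F r x y := fun x y => sum_nonneg fun t _ =>
    mul_nonneg (hc.1 t) (mul_nonneg (hF _ _).1 (hr _ _).1)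
  have hf1 : ∀ (τ : Fin P → γ) x, 0 ≤ ∏ l, F x (τ l) ∧ ∏ l, F x (τ l) ≤ K ^ P * ∏ l, n13 x (τ l) :=
    fun τ x => prod_bd fun l => hF _ _
  have hf2 : ∀ (τ : Fin P → γ) y, 0 ≤ ∏ l, r y (τ l) ∧ ∏ l, r y (τ l) ≤ K ^ P * ∏ l, n23 y (τ l) :=
    fun τ x => prod_bd fun l => hr _ _
  have r3 : ∀ G : α → β → ℝ, ∑ x, ∑ y, b1 x * b2 y * (G x y * cod c F r x y ^ P) =
      ∑ τ : Fin P → γ, (∏ l, c (τ l)) * ∑ x, ∑ y, b1 x * b2 y *
        ((∏ l, F x (τ l)) * (∏ l, r y (τ l)) * G x y) := fun G => by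
    simp only [cod, Fintype.sum_pow, mul_sum, prod_mul_distrib]
    rw [sum_comm (s := (univ : Finset (Fin P → γ)))]
    refine sum_congr rfl fun x _ => ?_
    rw [sum_comm (s := (univ : Finset (Fin P → γ)))]
    exact sum_congr rfl fun y _ => sum_congr rfl fun τ _ => by ring
  generalize cod c F r = Ψ at hcor r3 hΨ0 ⊢
  have hl0 : 0 < lam := pos_of_mul_pos_left ((one_pos.trans_le hl).trans_eq (mul_comm _ _)) hK0.le
  have hol := hol (α × β) (fun p => b1 p.1 * b2 p.2) (fun p => U p.1 p.2)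
    (fun p => n12 p.1 p.2) (fun p => Ψ p.1 p.2) K lam P
    ⟨fun p => mul_nonneg (hb1.1 _) (hb2.1 _), by
      simp only [Fintype.sum_prod_type, ← mul_sum, hb2.2, mul_one, hb1.2]⟩
    (fun p => hU _ _) (fun p => hΨ0 _ _) hK0 hl0.le
    (by simpa only [Fintype.sum_prod_type] using hU1)
    (by simpa only [Fintype.sum_prod_type] using hcor)
  simp only [Fintype.sum_prod_type] at hol
  obtain ⟨L, hL⟩ : ∃ L, lam ^ P = K ^ 2 * (2 * L) := ⟨lam ^ P / (2 * K ^ 2), by field_simp⟩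
  have hL1 : 1 ≤ 2 * K ^ (P + 2) * L := by
    refine (one_le_pow₀ (n := P) hl).trans_eq ?_
    rw [mul_pow, hL]
    ring
  have hL0 : 0 < L := pos_of_mul_pos_left ((one_pos.trans_le hL1).trans_eq (mul_comm _ _))
    (by positivity)
  have a0 : 1 ≤ K ^ P := one_le_pow₀ hK
  have a1 : 8 * K ^ P ≤ K1 * L := by
    calc 8 * K ^ P ≤ 8 * K ^ P * (2 * K ^ (P + 2) * L) := le_mul_of_one_le_right (by positivity) hL1
      _ = 16 * K ^ (2 * P + 2) * L := by ring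
      _ ≤ _ := mul_le_mul_of_nonneg_right hK1 hL0.le
  have a2 : K ^ P ≤ K1 := by
    have := pow_le_pow_right₀ hK (show P ≤ 2 * P + 2 by omega)
    linarith
  have a3 : 4 * K1 ^ 2 ≤ H := by
    rw [hH]
    exact le_mul_of_one_le_left (by positivity) (one_le_pow₀ one_le_two)
  have a4 : 1 ≤ H := le_trans (by nlinarith) a3
  obtain ⟨n2, n3⟩ := num (L := L) a0 a2 (by linarith) a3 hδ0 hδ
  have hπ := Den.pm_pow hc P
  have hal : L ≤ ∑ τ : Fin P → γ, (∏ i, c (τ i)) *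
      ((∑ x, b1 x * ∏ l, F x (τ l)) * ∑ y, b2 y * ∏ l, r y (τ l)) := by
    have h3 := cutr n12 hπ.1 hb1.1 hb2.1 (by linarith) hδ0 hf1 hf2 c3.a1 c3.a2 c3.b3
    rw [← r3 n12] at h3
    rw [hL] at hol
    have h5 := le_of_mul_le_mul_left hol (by positivity)
    linarith only [h5, h3, n2]
  have hbe : ∑ τ : Fin P → γ, (∏ i, c (τ i)) * ∑ x, ∑ y, b1 x * b2 y *
      ((∏ l, F x (τ l)) * (∏ l, r y (τ l)) *
      (1 - (1 - if Ψ x y < (1 - e) * lam then 1 else 0))) ≤ s * L := by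
    simp only [sub_sub_cancel]
    rw [← r3 fun x y => if Ψ x y < (1 - e) * lam then 1 else 0]
    refine (bad_le P hb1 hb2 hΨ0 (mul_nonneg (sub_nonneg.2 he1) hl0.le)).trans ?_
    rw [mul_pow, hL]
    exact le_trans (le_of_eq (by ring)) (mul_le_mul_of_nonneg_right hes hL0.le)
  have t3 : ∀ x, Bd (fun y => 1 - if Ψ x y < (1 - e) * lam then (1 : ℝ) else 0) 1 :=
    fun a a' => by dsimp only; split_ifs <;> norm_num
  obtain ⟨A1, A2, k1, k2, k3⟩ := corer hπ hb1 hb2 (by linarith) a2 a1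
    (fun τ x => prod_nonneg fun l _ => pos _ _ (hF _ _))
    (fun τ x => prod_nonneg fun l _ => pos _ _ (hr _ _)) hf1 hf2 hδ0 c3.cnt t3 hs hs' hm
    (congrArg _ hH) (inv_le_one_of_one_le₀ a4) hal hbe n3
  simp only [sub_sub_cancel] at k3
  exact ⟨A1, A2, k1, k2, k3⟩

end

end Vale.Agent.P057KR
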