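import Vale.Agent.P057KR.Sift

/-! Relative sifting for series: truncation to finite sets. -/

set_option linter.all false

open Finset Filter Topology
open scoped BigOperators

namespace Vale.Agent.P057KR

open Vale.Agent.P057Z.Km

noncomputable section

theorem tend {A X : Type} {l : Filter A} {f : X → ℝ} {S : ℝ} (h : HasSum f S) {Y : A → Type}
    [∀ i, Fintype (Y i)] (j : ∀ i, Y i → X) (hj : ∀ i, Function.Injective (j i))
    (hs : ∀ x, ∀ᶠ i in l, x ∈ Set.range (j i)) :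
    Tendsto (fun i => ∑ y, f (j i y)) l (𝓝 S) := by
  have h1 : Tendsto (fun i => (univ : Finset (Y i)).map ⟨j i, hj i⟩) l atTop :=
    tendsto_atTop.2 fun t => ((eventually_all_finset t).2 fun x _ => hs x).mono fun i hi x hx => by
      obtain ⟨y, hy⟩ := hi x hx
      exact mem_map.2 ⟨y, mem_univ _, hy⟩
  have h2 := Tendsto.comp (g := fun s : Finset X => ∑ z ∈ s, f z) h h1
  simpa only [Function.comp_def, sum_map, Function.Embedding.coeFn_mk] using h2

/-- the linear forms condition for series -/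
def LFCT {α β γ : Type} (a : α → ℝ) (b : β → ℝ) (c : γ → ℝ) (n12 : α → β → ℝ) (n13 : α → γ → ℝ)
    (n23 : β → γ → ℝ) (N : ℕ) (δ : ℝ) : Prop :=
  ∀ i j k : ℕ, i ≤ N → j ≤ N → k ≤ N → ∀ (E12 : Fin i → Fin j → Bool) (E13 : Fin i → Fin k → Bool)
    (E23 : Fin j → Fin k → Bool), ∃ S, |S - 1| ≤ δ ∧
      HasSum (fun q : (Fin i → α) × (Fin j → β) × (Fin k → γ) =>
        pat a b c n12 n13 n23 E12 E13 E23 q.1 q.2.1 q.2.2) S

/-- the normalised restriction -/
def rs {α : Type} (a : α → ℝ) (s : Finset α) (x : s) : ℝ := a x / ∑ y ∈ s, a y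

theorem pm_rs {α : Type} {a : α → ℝ} {s : Finset α} (h0 : ∀ x, 0 ≤ a x) (h : 0 < ∑ y ∈ s, a y) :
    Pm (rs a s) :=
  ⟨fun x => div_nonneg (h0 _) h.le, by
    simp only [rs]
    rw [← sum_div, sum_coe_sort s a, div_self h.ne']⟩

variable {α β γ : Type}

/-- triples of finite sets -/
abbrev Tr (α β γ : Type) := Finset α × Finset β × Finset γ

theorem ev1 (x : α) : ∀ᶠ s : Tr α β γ in atTop, x ∈ s.1 :=
  (eventually_ge_atTop (({x}, ∅, ∅) : Tr α β γ)).mono fun s h => h.1 (mem_singleton_self x)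

theorem ev2 (x : β) : ∀ᶠ s : Tr α β γ in atTop, x ∈ s.2.1 :=
  (eventually_ge_atTop ((∅, {x}, ∅) : Tr α β γ)).mono fun s h => h.2.1 (mem_singleton_self x)

theorem ev3 (x : γ) : ∀ᶠ s : Tr α β γ in atTop, x ∈ s.2.2 :=
  (eventually_ge_atTop ((∅, ∅, {x}) : Tr α β γ)).mono fun s h => h.2.2 (mem_singleton_self x)

theorem tend0 {A X : Type} {l : Filter A} {f : X → ℝ} (h : HasSum f 1) (s : A → Finset X)
    (hs : ∀ x, ∀ᶠ i in l, x ∈ s i) : Tendsto (fun i => ∑ y ∈ s i, f y) l (𝓝 1) := by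
  have h1 := tend h (Y := fun i => s i) (fun i y => y.1) (fun i => Subtype.val_injective)
    fun x => (hs x).mono fun i hi => ⟨⟨x, hi⟩, rfl⟩
  simpa only [sum_coe_sort (s _) f] using h1

variable {a : α → ℝ} {b : β → ℝ} {c : γ → ℝ} {n12 : α → β → ℝ} {n13 : α → γ → ℝ}
  {n23 : β → γ → ℝ}

theorem LFCT.ev {N : ℕ} {δ δ' : ℝ} (h : LFCT a b c n12 n13 n23 N δ) (ha : HasSum a 1)
    (hb : HasSum b 1) (hc : HasSum c 1) (hδ : δ < δ') : ∀ᶠ s : Tr α β γ in atTop,
      LFC (rs a s.1) (rs b s.2.1) (rs c s.2.2) (fun x y => n12 x y) (fun x z => n13 x z)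
        (fun y z => n23 y z) N δ' := by
  have key : ∀ i j k : Fin (N + 1), ∀ (E12 : Fin i → Fin j → Bool) (E13 : Fin i → Fin k → Bool)
      (E23 : Fin j → Fin k → Bool), ∀ᶠ s : Tr α β γ in atTop,
      |∑ x, ∑ y, ∑ z, pat (rs a s.1) (rs b s.2.1) (rs c s.2.2) (fun x y => n12 x y)
        (fun x z => n13 x z) (fun y z => n23 y z) E12 E13 E23 x y z - 1| ≤ δ' := by
    intro i j k E12 E13 E23
    obtain ⟨S, h1, h2⟩ := h i j k (by omega) (by omega) (by omega) E12 E13 E23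
    have h3 := tend (l := atTop) h2
      (Y := fun s : Tr α β γ => (Fin i → s.1) × (Fin j → s.2.1) × (Fin k → s.2.2))
      (fun s q => (fun l => (q.1 l).1, fun l => (q.2.1 l).1, fun l => (q.2.2 l).1))
      (fun s q q' e => by
        simp only [Prod.mk.injEq] at e
        exact Prod.ext (funext fun l => Subtype.ext (congrFun e.1 l)) (Prod.ext
          (funext fun l => Subtype.ext (congrFun e.2.1 l))
          (funext fun l => Subtype.ext (congrFun e.2.2 l))))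
      fun q => by
        filter_upwards [eventually_all.2 fun l => ev1 (q.1 l), eventually_all.2 fun l => ev2 (q.2.1 l),
          eventually_all.2 fun l => ev3 (q.2.2 l)] with s h1 h2 h3
        exact ⟨(fun l => ⟨_, h1 l⟩, fun l => ⟨_, h2 l⟩, fun l => ⟨_, h3 l⟩), rfl⟩
    have h4 := h3.div ((((tend0 ha _ ev1).pow i).mul ((tend0 hb _ ev2).pow j)).mul
      ((tend0 hc _ ev3).pow k)) (by simp)
    simp only [one_pow, mul_one, div_one] at h4
    have h5 := ((h4.sub_const 1).abs.eventually (gt_mem_nhds (h1.trans_lt hδ)))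
    refine h5.mono fun s hs => le_trans (le_of_eq ?_) hs.le
    congr 2
    simp only [Pi.div_apply, Fintype.sum_prod_type, sum_div]
    refine sum_congr rfl fun x _ => sum_congr rfl fun y _ => sum_congr rfl fun z _ => ?_
    simp only [pat, rs, prod_div_distrib, prod_const, card_univ, Fintype.card_fin]
    ring
  simp only [← eventually_all] at key
  exact key.mono fun s hs i j k hi hj hk =>
    hs ⟨i, by omega⟩ ⟨j, by omega⟩ ⟨k, by omega⟩

theorem siftT {U : α → β → ℝ} {F : α → γ → ℝ} {r : β → γ → ℝ} {K K1 H e s lam δ δ0 SU SV : ℝ}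
    {P m N : ℕ} (ha0 : ∀ x, 0 ≤ a x) (hb0 : ∀ x, 0 ≤ b x) (hc0 : ∀ x, 0 ≤ c x) (ha : HasSum a 1)
    (hb : HasSum b 1) (hc : HasSum c 1) (hK : 1 ≤ K)
    (hU : ∀ x y, 0 ≤ U x y ∧ U x y ≤ K * n12 x y)
    (hF : ∀ x z, 0 ≤ F x z ∧ F x z ≤ K * n13 x z) (hr : ∀ y z, 0 ≤ r y z ∧ r y z ≤ K * n23 y z)
    (hL : LFCT a b c n12 n13 n23 N δ0) (h2 : 2 ≤ N) (hP : 2 * P ≤ N) (hmN : m ≤ N)
    (hδ0 : 0 ≤ δ) (hδ1 : δ ≤ 1) (hδδ : 16 * δ0 < δ ^ 4)
    (hΨ : ∀ x y, Summable fun z => c z * (F x z * r y z))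
    (sU : HasSum (fun q : α × β => a q.1 * b q.2 * U q.1 q.2) SU)
    (sV : HasSum (fun q : α × β × γ => a q.1 * b q.2.1 *
      (U q.1 q.2.1 * (c q.2.2 * (F q.1 q.2.2 * r q.2.1 q.2.2)))) SV)
    (hU1 : 1 < K * SU) (hl : 1 ≤ K * ((1 - e) * lam)) (hcor : lam * SU ≤ SV)
    (he0 : 0 < e) (he1 : e < 1) (hs : 0 < s) (hs' : 8 * s ≤ 1)
    (hes : (1 - e) ^ P * (2 * K ^ 2) ≤ s) (hK1 : 16 * K ^ (2 * P + 2) ≤ K1)
    (hm : (1 - 2 * s) ^ m * (2 * K1 ^ 2) ≤ 1) (hH : H = 2 ^ m * (4 * K1 ^ 2))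
    (hδ : δ * H ^ (m + 6) ≤ 1) :
    ∃ (A1 : Finset α) (A2 : Finset β), (2 * H)⁻¹ ≤ ∑ x ∈ A1, a x ∧ (2 * H)⁻¹ ≤ ∑ y ∈ A2, b y ∧
      ∑ x ∈ A1, ∑ y ∈ A2, a x * b y *
        (if ∑' z, c z * (F x z * r y z) < (1 - 3 * e) * lam then 1 else 0) ≤
        8 * s * ((∑ x ∈ A1, a x) * ∑ y ∈ A2, b y) := by
  classical
  have hK0 : 0 < K := by linarith
  have hSU : 0 < SU := pos_of_mul_pos_left ((one_pos.trans hU1).trans_eq (mul_comm _ _)) hK0.le
  have hl1 : 0 < (1 - e) * lam :=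
    pos_of_mul_pos_left ((one_pos.trans_le hl).trans_eq (mul_comm _ _)) hK0.le
  have hl0 : 0 < lam := pos_of_mul_pos_left (hl1.trans_eq (mul_comm _ _)) (by linarith)
  have t1 := tend0 (l := atTop) ha _ (ev1 (β := β) (γ := γ))
  have t2 := tend0 (l := atTop) hb _ (ev2 (α := α) (γ := γ))
  have t3 := tend0 (l := atTop) hc _ (ev3 (α := α) (β := β))
  have tU := (tend (l := atTop) sU (Y := fun s : Tr α β γ => s.1 × s.2.1)
    (fun s q => (q.1.1, q.2.1)) (fun s q q' e => by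
      simp only [Prod.mk.injEq] at e
      exact Prod.ext (Subtype.ext e.1) (Subtype.ext e.2)) fun q => by
    filter_upwards [ev1 q.1, ev2 q.2] with s h1 h2
    exact ⟨(⟨_, h1⟩, ⟨_, h2⟩), rfl⟩).div (t1.mul t2) (by simp)
  have tV := (tend (l := atTop) sV (Y := fun s : Tr α β γ => s.1 × s.2.1 × s.2.2)
    (fun s q => (q.1.1, q.2.1.1, q.2.2.1)) (fun s q q' e => by
      simp only [Prod.mk.injEq] at e
      exact Prod.ext (Subtype.ext e.1) (Prod.ext (Subtype.ext e.2.1) (Subtype.ext e.2.2)))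
    fun q => by
      filter_upwards [ev1 q.1, ev2 q.2.1, ev3 q.2.2] with s h1 h2 h3
      exact ⟨(⟨_, h1⟩, ⟨_, h2⟩, ⟨_, h3⟩), rfl⟩).div ((t1.mul t2).mul t3) (by simp)
  simp only [mul_one, div_one] at tU tV
  obtain ⟨S, k1, k2, k3, k4, k5, k6⟩ := ((hL.ev ha hb hc (δ' := δ ^ 4 / 16) (by linarith)).and
    ((t1.eventually (lt_mem_nhds (show 1 / 2 < (1 : ℝ) by norm_num))).and
    ((t2.eventually (lt_mem_nhds (show 1 / 2 < (1 : ℝ) by norm_num))).and
    ((t3.eventually (lt_mem_nhds (show 1 - e < (1 : ℝ) by linarith))).and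
    (((tU.const_mul K).eventually (lt_mem_nhds hU1)).and
    ((tU.const_mul ((1 - e) * lam)).eventually_lt tV (by nlinarith [mul_pos hl0 hSU]))))))).exists
  obtain ⟨s1, s2, s3⟩ := S
  dsimp only at k1 k2 k3 k4 k5 k6
  have p1 : 0 < ∑ y ∈ s1, a y := by linarith
  have p2 : 0 < ∑ y ∈ s2, b y := by linarith
  have p3 : 0 < ∑ y ∈ s3, c y := by linarith
  have d4 : δ ^ 4 ≤ 1 := pow_le_one₀ hδ0 hδ1
  have e1 : ∑ x, ∑ y, rs a s1 x * rs b s2 y * U x y = (∑ q : s1 × s2, a q.1 * b q.2 * U q.1 q.2) /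
      ((∑ y ∈ s1, a y) * ∑ y ∈ s2, b y) := by
    simp only [Fintype.sum_prod_type, sum_div, rs]
    exact sum_congr rfl fun x _ => sum_congr rfl fun y _ => by field_simp
  obtain ⟨A1, A2, g1, g2, g3⟩ := sift3 (U := fun (x : s1) (y : s2) => U x y)
    (F := fun (x : s1) (z : s3) => F x z) (r := fun (y : s2) (z : s3) => r y z)
    (pm_rs ha0 p1) (pm_rs hb0 p2) (pm_rs hc0 p3) hK (fun x y => hU x y) (fun x z => hF x z)
    (fun y z => hr y z) hδ0 (k1.cnt3 h2 hP hmN (by linarith) (by linarith))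
    (by rw [e1]; exact k5.le) hl (by
      rw [e1]
      refine k6.le.trans (le_of_eq ?_)
      simp only [Pi.div_apply, Fintype.sum_prod_type, sum_div, rs, cod, mul_sum _ _ (U _ _),
        mul_sum _ _ (_ / _ * (_ / _))]
      exact sum_congr rfl fun x _ => sum_congr rfl fun y _ => sum_congr rfl fun z _ => by
        field_simp)
    he0.le he1.le hs hs' hes hK1 hm hH hδ
  have hH0 : 0 < H := by
    have : 0 < K1 := lt_of_lt_of_le (by positivity) hK1
    rw [hH]; positivity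
  have up : ∀ {X Z : ℝ}, 1 / 2 < Z → H⁻¹ ≤ X / Z → (2 * H)⁻¹ ≤ X := fun {X Z} h1 h2 => by
    rw [le_div_iff₀ (by linarith)] at h2
    rw [mul_inv]
    nlinarith [inv_pos.2 hH0]
  simp only [rs, ← sum_div] at g1 g2 g3
  refine ⟨A1.map (Function.Embedding.subtype _), A2.map (Function.Embedding.subtype _), ?_, ?_, ?_⟩
  · rw [sum_map]; exact up k2 g1
  · rw [sum_map]; exact up k3 g2
  simp only [sum_map, Function.Embedding.coe_subtype]
  rw [div_mul_div_comm, ← mul_div_assoc, le_div_iff₀ (mul_pos p1 p2), sum_mul] at g3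
  refine le_trans (sum_le_sum fun x _ => ?_) g3
  rw [sum_mul]
  refine sum_le_sum fun y _ => ?_
  rw [div_mul_div_comm, mul_right_comm (_ / _), div_mul_cancel₀ _ (mul_pos p1 p2).ne']
  refine mul_le_mul_of_nonneg_left ?_ (mul_nonneg (ha0 _) (hb0 _))
  have key : ∑' z, c z * (F x z * r y z) < (1 - 3 * e) * lam → cod (rs c s3)
      (fun (x : s1) (z : s3) => F x z) (fun (y : s2) (z : s3) => r y z) x y <
        (1 - e) * ((1 - e) * lam) := fun h1 => by
    have h4 : ∑ z ∈ s3, c z * (F x z * r y z) ≤ ∑' z, c z * (F x z * r y z) :=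
      (hΨ x y).sum_le_tsum s3 fun z _ => mul_nonneg (hc0 _) (mul_nonneg (hF _ _).1 (hr _ _).1)
    have h5 : cod (rs c s3) (fun (x : s1) (z : s3) => F x z) (fun (y : s2) (z : s3) => r y z) x y =
        (∑ z ∈ s3, c z * (F x z * r y z)) / ∑ y ∈ s3, c y := by
      rw [← sum_coe_sort s3, sum_div]
      exact sum_congr rfl fun z _ => by rw [rs]; ring
    rw [h5, div_lt_iff₀ p3]
    have h6 : (1 - 3 * e) * lam ≤ (1 - e) * ((1 - e) * lam) * (1 - e) := by
      have : 0 ≤ e ^ 2 * (3 - e) * lam := mul_nonneg (mul_nonneg (sq_nonneg e) (by linarith)) hl0.le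
      nlinarith
    have h7 := mul_le_mul_of_nonneg_left k4.le (mul_pos (sub_pos.2 he1) hl1).le
    linarith
  by_cases h1 : ∑' z, c z * (F x z * r y z) < (1 - 3 * e) * lam
  · exact ((if_pos h1).trans (if_pos (key h1)).symm).le
  · exact (if_neg h1).trans_le (by split_ifs <;> norm_num)

end

end Vale.Agent.P057KR
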